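import Claimed.Agent.R252.Base.Lang

/-!
# ROW 252 (S0492), unit S4D (post BP-252-S4D, sub-architect helper230, under helper269), file 1: THE ABSTRACT CORES of "coverage by one fixed candidate scenario".

Paper: 04-critical-paths.tex l.1262-1335 (proof of `prop:candidate-upgrade`, first step).      PAPER-FREE, Mathlib + `Base/Lang` only.   Prefix `k4d`.
* s1  priority assignment: `k4dUsed`, `k4dFree` (a chosen test receives ALL still available lines which satisfy its line inequalities), `k4d_greedy` (a MAXIMAL finite assignment exists, `k θ ≤ ν B`).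
* s2  `k4d_diag` : the countable menu and the slow `J_n`, in the language of the fixed ultrafilter: if no slowly growing finite part of the menu has coverage `→ 0`, ONE scenario has coverage `≥ η` eventually.
* s3  `k4d_pigeon`, `k4d_first` : one node per sample.
* s4  `k4d_fibre_mass` : mass of a set with short time fibres under `lam ≤ K ν × dt`.
-/

set_option autoImplicit false

namespace Claimed.Agent.R252

open MeasureTheory Filter Topology
open scoped ENNReal BigOperators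
open Claimed.Agent.R255 (uf)

/-! ## s1. Priority assignment -/

section greedy

variable {L ι : Type*}

/-- the lines used by the first `k` chosen tests `T 0, .., T (k-1)`; `A i` = the lines which satisfy the line inequalities of the test `i` -/
def k4dUsed (A : ι → Set L) (T : ℕ → ι) (k : ℕ) : Set L := ⋃ n, ⋃ (_ : n < k), A (T n)

/-- the lines ASSIGNED to the `n`-th chosen test -/
def k4dFree (A : ι → Set L) (T : ℕ → ι) (n : ℕ) : Set L := A (T n) \ k4dUsed A T n

theorem k4d_mem_used {A : ι → Set L} {T : ℕ → ι} {k : ℕ} {l : L} : l ∈ k4dUsed A T k ↔ ∃ n, n < k ∧ l ∈ A (T n) := by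
  simp [k4dUsed]

theorem k4d_used_zero (A : ι → Set L) (T : ℕ → ι) : k4dUsed A T 0 = ∅ := by
  ext l
  simp [k4d_mem_used]

theorem k4d_used_mono (A : ι → Set L) (T : ℕ → ι) {k k' : ℕ} (h : k ≤ k') : k4dUsed A T k ⊆ k4dUsed A T k' := by
  intro l hl
  obtain ⟨n, hn, hl⟩ := k4d_mem_used.1 hl
  exact k4d_mem_used.2 ⟨n, hn.trans_le h, hl⟩

theorem k4d_free_sub (A : ι → Set L) (T : ℕ → ι) (n : ℕ) : k4dFree A T n ⊆ A (T n) := Set.sdiff_subset

theorem k4d_free_sub_used (A : ι → Set L) (T : ℕ → ι) {n k : ℕ} (h : n < k) : k4dFree A T n ⊆ k4dUsed A T k :=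
  fun _ hl => k4d_mem_used.2 ⟨n, h, hl.1⟩

theorem k4d_free_disj (A : ι → Set L) (T : ℕ → ι) {n n' : ℕ} (h : n ≠ n') : Disjoint (k4dFree A T n) (k4dFree A T n') := by
  rw [Set.disjoint_left]
  intro l hl hl'
  rcases lt_or_gt_of_ne h with h | h
  · exact hl'.2 (k4d_mem_used.2 ⟨n, h, hl.1⟩)
  · exact hl.2 (k4d_mem_used.2 ⟨n', h, hl'.1⟩)

/-- every used line has its (unique) priority assignment -/
theorem k4d_exists_first {A : ι → Set L} {T : ℕ → ι} {k : ℕ} {l : L} (h : l ∈ k4dUsed A T k) : ∃ n, n < k ∧ l ∈ k4dFree A T n := by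
  classical
  have h' : ∃ n, n < k ∧ l ∈ A (T n) := k4d_mem_used.1 h
  refine ⟨Nat.find h', (Nat.find_spec h').1, (Nat.find_spec h').2, fun hu => ?_⟩
  obtain ⟨n, hn, hl⟩ := k4d_mem_used.1 hu
  exact Nat.find_min h' hn ⟨hn.trans (Nat.find_spec h').1, hl⟩

theorem k4d_used_eq (A : ι → Set L) (T : ℕ → ι) (k : ℕ) : k4dUsed A T k = ⋃ n, ⋃ (_ : n < k), k4dFree A T n := by
  ext l
  constructor
  · intro h
    obtain ⟨n, hn, hl⟩ := k4d_exists_first h
    exact Set.mem_iUnion₂.2 ⟨n, hn, hl⟩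
  · intro h
    obtain ⟨n, hn, hl⟩ := Set.mem_iUnion₂.1 h
    exact k4d_free_sub_used A T hn hl

theorem k4d_used_succ (A : ι → Set L) (T : ℕ → ι) (k : ℕ) : k4dUsed A T (k + 1) = k4dUsed A T k ∪ k4dFree A T k := by
  ext l
  simp only [k4d_mem_used, Set.mem_union, k4dFree, Set.mem_sdiff]
  constructor
  · rintro ⟨n, hn, hl⟩
    rcases Nat.lt_succ_iff_lt_or_eq.1 hn with h | rfl
    · exact Or.inl ⟨n, h, hl⟩
    · by_cases h : ∃ n', n' < n ∧ l ∈ A (T n')
      · exact Or.inl h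
      · exact Or.inr ⟨hl, h⟩
  · rintro (⟨n, hn, hl⟩ | ⟨hl, -⟩)
    · exact ⟨n, hn.trans (Nat.lt_succ_self k), hl⟩
    · exact ⟨k, Nat.lt_succ_self k, hl⟩

theorem k4d_used_congr (A : ι → Set L) {T T' : ℕ → ι} {k : ℕ} (h : ∀ n, n < k → T n = T' n) : k4dUsed A T k = k4dUsed A T' k := by
  ext l
  simp only [k4d_mem_used]
  constructor
  · rintro ⟨n, hn, hl⟩
    exact ⟨n, hn, h n hn ▸ hl⟩
  · rintro ⟨n, hn, hl⟩
    exact ⟨n, hn, (h n hn).symm ▸ hl⟩

theorem k4d_free_congr (A : ι → Set L) {T T' : ℕ → ι} {k : ℕ} (h : ∀ n, n ≤ k → T n = T' n) : k4dFree A T k = k4dFree A T' k := by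
  unfold k4dFree
  rw [k4d_used_congr A fun n hn => h n hn.le, h k le_rfl]

variable [MeasurableSpace L]

theorem k4d_used_meas {A : ι → Set L} (hA : ∀ i, MeasurableSet (A i)) (T : ℕ → ι) (k : ℕ) : MeasurableSet (k4dUsed A T k) :=
  MeasurableSet.iUnion fun n => MeasurableSet.iUnion fun _ => hA (T n)

theorem k4d_free_meas {A : ι → Set L} (hA : ∀ i, MeasurableSet (A i)) (T : ℕ → ι) (n : ℕ) : MeasurableSet (k4dFree A T n) :=
  (hA (T n)).diff (k4d_used_meas hA T n)

/-- additivity over the assigned pieces -/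
theorem k4d_used_measure {A : ι → Set L} (hA : ∀ i, MeasurableSet (A i)) (T : ℕ → ι) (ν : Measure L) (k : ℕ) :
    ν (k4dUsed A T k) = ∑ n ∈ Finset.range k, ν (k4dFree A T n) := by
  induction k with
  | zero => simp [k4d_used_zero]
  | succ k ih =>
    rw [k4d_used_succ, Finset.sum_range_succ, ← ih]
    refine measure_union ?_ (k4d_free_meas hA T k)
    rw [Set.disjoint_left]
    exact fun l hl hl' => hl'.2 hl

/-- **disjointness makes the priority assignment stop** : `k θ ≤ ν (used)`.   `m i S` = eligible mass of the test `i` on the lines `S`. -/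
theorem k4d_greedy_count {A : ι → Set L} (hA : ∀ i, MeasurableSet (A i)) (m : ι → Set L → ℝ≥0∞) (ν : Measure L)
    (hm : ∀ i S, MeasurableSet S → m i S ≤ ν S) (θ : ℝ≥0∞) (T : ℕ → ι) (k : ℕ) (hT : ∀ n, n < k → θ ≤ m (T n) (k4dFree A T n)) :
    (k : ℝ≥0∞) * θ ≤ ν (k4dUsed A T k) := by
  rw [k4d_used_measure hA]
  calc (k : ℝ≥0∞) * θ = ∑ _n ∈ Finset.range k, θ := by simp
    _ ≤ _ := Finset.sum_le_sum fun n hn => (hT n (Finset.mem_range.1 hn)).trans (hm _ _ (k4d_free_meas hA T n))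

/-- **a maximal finite greedy assignment exists.** -/
theorem k4d_greedy [Nonempty ι] {A : ι → Set L} (hA : ∀ i, MeasurableSet (A i)) (m : ι → Set L → ℝ≥0∞) (ν : Measure L)
    (hm : ∀ i S, MeasurableSet S → m i S ≤ ν S) (B : Set L) (hAB : ∀ i, A i ⊆ B) (hB : ν B ≠ ∞) (θ : ℝ≥0∞) (hθ : θ ≠ 0) :
    ∃ (T : ℕ → ι) (k : ℕ), (∀ n, n < k → θ ≤ m (T n) (k4dFree A T n)) ∧ (∀ i, m i (A i \ k4dUsed A T k) < θ) ∧ (k : ℝ≥0∞) * θ ≤ ν B := by
  classical
  have hcount : ∀ (T : ℕ → ι) (k : ℕ), (∀ n, n < k → θ ≤ m (T n) (k4dFree A T n)) → (k : ℝ≥0∞) * θ ≤ ν B := by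
    intro T k hT
    refine (k4d_greedy_count hA m ν hm θ T k hT).trans (measure_mono ?_)
    intro l hl
    obtain ⟨n, -, hl⟩ := k4d_mem_used.1 hl
    exact hAB _ hl
  -- the admissible lengths are bounded
  obtain ⟨M, hM⟩ : ∃ M : ℕ, ν B / θ < M := ENNReal.exists_nat_gt (ENNReal.div_ne_top hB hθ)
  have hbd : ∀ (T : ℕ → ι) (k : ℕ), (∀ n, n < k → θ ≤ m (T n) (k4dFree A T n)) → k ≤ M := by
    intro T k hT
    have h1 := hcount T k hT
    by_cases hθt : θ = ∞
    · by_contra hk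
      have hk0 : (k : ℝ≥0∞) ≠ 0 := by
        have : k ≠ 0 := by omega
        exact_mod_cast this
      rw [hθt, ENNReal.mul_top hk0] at h1
      exact hB (top_le_iff.1 h1)
    · have h2 : (k : ℝ≥0∞) ≤ ν B / θ := (ENNReal.le_div_iff_mul_le (Or.inl hθ) (Or.inl hθt)).2 h1
      exact_mod_cast (h2.trans hM.le)
  let P : ℕ → Prop := fun k => ∃ T : ℕ → ι, ∀ n, n < k → θ ≤ m (T n) (k4dFree A T n)
  have hP0 : P 0 := ⟨fun _ => Classical.arbitrary ι, fun n hn => absurd hn (Nat.not_lt_zero n)⟩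
  obtain ⟨T, hT⟩ : P (Nat.findGreatest P M) := Nat.findGreatest_spec (Nat.zero_le M) hP0
  refine ⟨T, Nat.findGreatest P M, hT, fun i => ?_, hcount T _ hT⟩
  by_contra hi
  push Not at hi
  set k := Nat.findGreatest P M with hk
  have hP1 : P (k + 1) := by
    refine ⟨Function.update T k i, fun n hn => ?_⟩
    rcases Nat.lt_succ_iff_lt_or_eq.1 hn with h | rfl
    · have e1 : Function.update T k i n = T n := Function.update_of_ne h.ne _ _
      have e2 : k4dFree A (Function.update T k i) n = k4dFree A T n :=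
        k4d_free_congr A fun n' hn' => Function.update_of_ne (hn'.trans_lt h).ne _ _
      rw [e1, e2]
      exact hT n h
    · have e1 : Function.update T k i k = i := Function.update_self _ _ _
      have e2 : k4dUsed A (Function.update T k i) k = k4dUsed A T k :=
        k4d_used_congr A fun n' hn' => Function.update_of_ne hn'.ne _ _
      unfold k4dFree
      rw [e1, e2]
      exact hi
  obtain ⟨T', hT'⟩ := hP1
  have h1 : k + 1 ≤ M := hbd T' _ hT'
  have h2 : k + 1 ≤ Nat.findGreatest P M := Nat.le_findGreatest h1 ⟨T', hT'⟩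
  omega

end greedy

/-! ## s2. The countable menu and the slow `J_n` -/

/-- **the diagonal over the menu** (04 l.1303-1321).   `I` = the countable menu, `Cov i n` = the incidences covered by the scenario `i` at the stage `n`.
If no family of finite parts `F n` of the menu which eventually contains every fixed scenario has coverage `→ 0`, then ONE fixed scenario has coverage `≥ η > 0` eventually. -/
theorem k4d_diag {I : Type*} [Countable I] {Ω : ℕ → Type*} [∀ n, MeasurableSpace (Ω n)] (μ : ∀ n, Measure (Ω n)) (Cov : I → ∀ n, Set (Ω n))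
    (hno : ∀ F : ℕ → Finset I, (∀ i, ∀ᶠ n in uf, i ∈ F n) → ¬ Tendsto (fun n => μ n (⋃ i ∈ F n, Cov i n)) uf (𝓝 0)) :
    ∃ (i : I) (η : ℝ≥0∞), η ≠ 0 ∧ ∀ᶠ n in uf, η ≤ μ n (Cov i n) := by
  classical
  by_contra hcon
  have hsmall : ∀ (i : I) (η : ℝ≥0∞), η ≠ 0 → ∀ᶠ n in uf, μ n (Cov i n) < η := by
    intro i η hη
    rcases Claimed.Agent.R255.uf_em (fun n => η ≤ μ n (Cov i n)) with h | h
    · exact absurd ⟨i, η, hη, h⟩ hcon
    · filter_upwards [h] with n hn using not_le.1 hn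
  obtain ⟨f, hf⟩ := exists_injective_nat I
  have hfin : ∀ J : ℕ, (f ⁻¹' (Set.Iio J)).Finite := fun J => (Set.finite_Iio J).preimage hf.injOn
  let FJ : ℕ → Finset I := fun J => (hfin J).toFinset
  have hgood : ∀ J : ℕ, ∀ᶠ n in uf, μ n (⋃ i ∈ FJ J, Cov i n) ≤ ((J + 1 : ℕ) : ℝ≥0∞)⁻¹ := by
    intro J
    set x : ℝ≥0∞ := ((J + 1 : ℕ) : ℝ≥0∞)⁻¹ with hx
    have hx0 : x ≠ 0 := ENNReal.inv_ne_zero.2 (ENNReal.natCast_ne_top _)
    set c : ℝ≥0∞ := (((FJ J).card + 1 : ℕ) : ℝ≥0∞) with hc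
    have hc0 : c ≠ 0 := by
      rw [hc]
      exact Nat.cast_ne_zero.2 (Nat.succ_ne_zero (FJ J).card)
    have hct : c ≠ ∞ := ENNReal.natCast_ne_top _
    have hε : x / c ≠ 0 := (ENNReal.div_pos hx0 hct).ne'
    have h1 : ∀ᶠ n in uf, ∀ i ∈ FJ J, μ n (Cov i n) < x / c := (eventually_all_finset _).2 fun i _ => hsmall i _ hε
    filter_upwards [h1] with n hn
    calc μ n (⋃ i ∈ FJ J, Cov i n) ≤ ∑ i ∈ FJ J, μ n (Cov i n) := measure_biUnion_finset_le _ _
      _ ≤ ∑ _i ∈ FJ J, x / c := Finset.sum_le_sum fun i hi => (hn i hi).le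
      _ = ((FJ J).card : ℝ≥0∞) * (x / c) := by simp
      _ ≤ c * (x / c) := by
          gcongr
          rw [hc]
          exact Nat.cast_le.2 (Nat.le_succ (FJ J).card)
      _ = x := ENNReal.mul_div_cancel hc0 hct
  obtain ⟨κ, hκ, hg⟩ := Claimed.Agent.R255.ulim_diag (fun J n => μ n (⋃ i ∈ FJ J, Cov i n) ≤ ((J + 1 : ℕ) : ℝ≥0∞)⁻¹) hgood
  refine hno (fun n => FJ (κ n)) (fun i => ?_) ?_
  · filter_upwards [hκ.eventually_gt_atTop (f i)] with n hn
    simpa [FJ] using hn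
  · have h0 : Tendsto (fun n => (((κ n + 1 : ℕ) : ℝ≥0∞))⁻¹) uf (𝓝 0) :=
      ENNReal.tendsto_inv_nat_nhds_zero.comp ((tendsto_add_atTop_nat 1).comp hκ)
    exact tendsto_of_tendsto_of_tendsto_of_le_of_le' tendsto_const_nhds h0 (Eventually.of_forall fun _ => bot_le) hg

/-! ## s3. One node per sample -/

/-- pigeonhole over finitely many nodes / scenarios -/
theorem k4d_pigeon {Ω G : Type*} [MeasurableSpace Ω] (μ : Measure Ω) (s : Finset G) (Cov : G → Set Ω) (η : ℝ≥0∞) (hη : η ≠ 0)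
    (h : η ≤ μ (⋃ g ∈ s, Cov g)) : ∃ g ∈ s, η ≤ (s.card : ℝ≥0∞) * μ (Cov g) := by
  have hs : s.Nonempty := by
    rw [Finset.nonempty_iff_ne_empty]
    rintro rfl
    simp at h
    exact hη h
  obtain ⟨g, hg, hmax⟩ := Finset.exists_max_image s (fun g => μ (Cov g)) hs
  refine ⟨g, hg, h.trans ?_⟩
  calc μ (⋃ g ∈ s, Cov g) ≤ ∑ g ∈ s, μ (Cov g) := measure_biUnion_finset_le _ _
    _ ≤ ∑ _g ∈ s, μ (Cov g) := Finset.sum_le_sum hmax
    _ = _ := by simp

/-- the part of `Cov g` which is not covered by an earlier node -/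
def k4dFirst {Ω G : Type*} [LinearOrder G] (s : Finset G) (Cov : G → Set Ω) (g : G) : Set Ω := Cov g \ ⋃ g' ∈ s, ⋃ (_ : g' < g), Cov g'

theorem k4d_first_sub {Ω G : Type*} [LinearOrder G] (s : Finset G) (Cov : G → Set Ω) (g : G) : k4dFirst s Cov g ⊆ Cov g := Set.sdiff_subset

theorem k4d_first_disj {Ω G : Type*} [LinearOrder G] (s : Finset G) (Cov : G → Set Ω) {g g' : G} (hg : g ∈ s) (hg' : g' ∈ s) (h : g ≠ g') :
    Disjoint (k4dFirst s Cov g) (k4dFirst s Cov g') := by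
  rw [Set.disjoint_left]
  intro x hx hx'
  rcases lt_or_gt_of_ne h with h | h
  · exact hx'.2 (Set.mem_iUnion₂.2 ⟨g, hg, Set.mem_iUnion.2 ⟨h, hx.1⟩⟩)
  · exact hx.2 (Set.mem_iUnion₂.2 ⟨g', hg', Set.mem_iUnion.2 ⟨h, hx'.1⟩⟩)

theorem k4d_first_union {Ω G : Type*} [LinearOrder G] (s : Finset G) (Cov : G → Set Ω) : ⋃ g ∈ s, k4dFirst s Cov g = ⋃ g ∈ s, Cov g := by
  classical
  ext x
  constructor
  · intro h
    obtain ⟨g, hg, hx⟩ := Set.mem_iUnion₂.1 h
    exact Set.mem_iUnion₂.2 ⟨g, hg, hx.1⟩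
  · intro h
    obtain ⟨g, hg, hx⟩ := Set.mem_iUnion₂.1 h
    have hne : (s.filter fun g => x ∈ Cov g).Nonempty := ⟨g, Finset.mem_filter.2 ⟨hg, hx⟩⟩
    have hmem := Finset.min'_mem _ hne
    refine Set.mem_iUnion₂.2 ⟨_, (Finset.mem_filter.1 hmem).1, (Finset.mem_filter.1 hmem).2, fun hx' => ?_⟩
    obtain ⟨g', hg', hx'⟩ := Set.mem_iUnion₂.1 hx'
    obtain ⟨hlt, hx'⟩ := Set.mem_iUnion.1 hx'
    exact absurd (Finset.min'_le _ g' (Finset.mem_filter.2 ⟨hg', hx'⟩)) (not_le.2 hlt)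

theorem k4d_first_meas {Ω G : Type*} [MeasurableSpace Ω] [LinearOrder G] (s : Finset G) {Cov : G → Set Ω} (h : ∀ g, MeasurableSet (Cov g)) (g : G) :
    MeasurableSet (k4dFirst s Cov g) :=
  (h g).diff (Finset.measurableSet_biUnion s fun g' _ => MeasurableSet.iUnion fun _ => h g')

/-! ## s4. Sets with short time fibres -/

/-- `lam ≤ K ν × τ`, `Bad` lives over the lines `S` and has time fibres of `τ`-length `≤ δ` : `lam Bad ≤ K δ ν(S)` -/
theorem k4d_fibre_mass {L : Type*} [MeasurableSpace L] (ν : Measure L) [SFinite ν] (τ : Measure ℝ) [SFinite τ] (lam : Measure (L × ℝ)) (Kc : ℝ≥0∞)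
    (hlam : lam ≤ Kc • ν.prod τ) (S : Set L) (hS : MeasurableSet S) (Bad : Set (L × ℝ)) (hBad : MeasurableSet Bad) (hsub : Bad ⊆ S ×ˢ Set.univ)
    (δ : ℝ≥0∞) (hfib : ∀ l ∈ S, τ {t | (l, t) ∈ Bad} ≤ δ) : lam Bad ≤ Kc * (δ * ν S) := by
  have h1 : lam Bad ≤ Kc * (ν.prod τ) Bad := by
    have := hlam Bad
    simpa using this
  refine h1.trans ?_
  gcongr
  rw [Measure.prod_apply hBad]
  calc ∫⁻ l, τ (Prod.mk l ⁻¹' Bad) ∂ν ≤ ∫⁻ l, S.indicator (fun _ => δ) l ∂ν := by
        refine lintegral_mono fun l => ?_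
        by_cases hl : l ∈ S
        · rw [Set.indicator_of_mem hl]
          exact hfib l hl
        · rw [Set.indicator_of_notMem hl]
          have : Prod.mk l ⁻¹' Bad = ∅ := by
            ext t
            simp only [Set.mem_preimage, Set.mem_empty_iff_false, iff_false]
            exact fun h => hl (hsub h).1
          rw [this]
          simp
    _ = δ * ν S := lintegral_indicator_const hS δ

/-- Stores the on-demand equation lemmas of the definitions above in THIS module (rule 6 hygiene). -/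
theorem k4d_greedy_eqns_cite : True := by
  have := @k4dUsed.eq_1.{0, 0}
  have := @k4dFree.eq_1.{0, 0}
  have := @k4dFirst.eq_1.{0, 0}
  trivial

end Claimed.Agent.R252
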