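import Claimed.Agent.R252.Base.Sys
import Claimed.Agent.R252.S4D.Greedy

/-!
# ROW 252 (S0492), unit S4D (sub-architect helper230, under helper269), file 2: CANDIDATE FAMILIES AND MAXIMAL PRIORITY ASSIGNMENTS.      CONTRACT file: the `sorry`s are the leaves L-252-S4D-*.

Paper: 04-critical-paths.tex l.1262-1335.      Prefix `k4d` / `K4d`.      v2 (19:45Z): OWN minimal record `K4dCtx v` in Base vocabulary (the records `KsRef` of helper31 and `KpTan` of helper269 are INSTANCES; no import of either).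
* `K4dCtx v`   : what the candidate conversion uses of the prepared tangent data at one scale: trajectories `L`, `co : L → KbTj v`, prior `ν` (mixture over the parents, mass `≤ 1`), prepared law `lam0 ≤ K ν × dt`,
                 true labels `Lab` (depth, full assignment, dyadic block, chart), the finite set of depths.      Instance over `KsRef v`: same field names.   Instance over `KpTan v`: `L := W × Lam`, `Lab := Σ m ≤ G, (Q m).C`.
* `K4dFam R`   : one scenario at one scale = tests `ι`, line inequalities `Line Q i ⊆ asg Q`, counted incidences `Cnt Q i ⊆ Line Q i × blk Q`, mass thresholds `θ Q`, active labels `act` (depth range, positive mass).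
* `K4dAsg F`   : for every label a finite list of chosen tests;  `X.piece Q n` = the lines assigned to the `n`-th test, `X.used Q`, `X.cov` = ALL incidences on assigned pieces throughout the blocks.
* `X.Max K`    : eligibility of every chosen test (under the prepared law `lam0`), MAXIMALITY, number of choices.
* `k4d_asg_exists`  : maximal assignments exist.
* `k4d_max_contra`  : a residual which avoids `X.cov` supplies no eligible test.
* `k4d_cover_abs`   : THE SEQUENCE STATEMENT (ultrafilter language): if every substantial residual is eventually eligible for some fixed scenario of a countable menu, ONE scenario covers a fixed fraction eventually.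
-/

set_option autoImplicit false

namespace Claimed.Agent.R252

open MeasureTheory Filter Topology
open scoped ENNReal BigOperators
open Claimed.Agent.R255 (uf)

noncomputable section

variable {v : KbVer}

/-- **the labelled prepared path at one scale** (data only) -/
structure K4dCtx (v : KbVer) where
  /-- (indexed) trajectories of all parents -/
  L : Type
  mL : MeasurableSpace L
  /-- tangent scale, cap dimension `d_*`, narrowness `ℓ` -/
  N : ℝ
  d : ℝ
  ell : ℝ
  co : L → KbTj v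
  /-- the prior (mixture of the parent priors) -/
  ν : Measure L
  /-- the prepared law (unnormalised) -/
  lam0 : Measure (L × ℝ)
  /-- the true labels: depth, full trajectory assignment, dyadic block `kbI lev iv`, chart -/
  Lab : Type
  fLab : Fintype Lab
  dep : Lab → ℝ
  asg : Lab → Set L
  lev : Lab → ℕ
  iv : Lab → ℕ
  ch : Lab → KbChart v
  /-- the depths of the nodes -/
  depths : Finset ℝ

attribute [instance] K4dCtx.mL K4dCtx.fLab

namespace K4dCtx

variable (R : K4dCtx v)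

/-- `a_s = N^{-s}` -/
def a (s : ℝ) : ℝ := R.N ^ (-s)
/-- prior times uniform parent time -/
def prior : Measure (R.L × ℝ) := R.ν.prod KbPb.tm
/-- the full assigned trajectory mass (mixture units) -/
def νQ (Q : R.Lab) : ℝ≥0∞ := R.ν (R.asg Q)
def q (Q : R.Lab) : ℝ := kbQ (R.lev Q)
def t0 (Q : R.Lab) : ℝ := (R.iv Q : ℝ) * kbQ (R.lev Q)
def blk (Q : R.Lab) : Set ℝ := kbI (R.lev Q) (R.iv Q)
def inc (Q : R.Lab) : Set (R.L × ℝ) := R.asg Q ×ˢ R.blk Q
def J (Q : R.Lab) : ℝ := (R.ch Q).J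
/-- a test along a trajectory -/
def ev (T : KbTest v) (l : R.L) (t : ℝ) : ℝ := kbX T (R.co l) t
def y (l : R.L) (t : ℝ) : KbB v := kbY (R.co l) t
def V (l : R.L) : KbB v := kbV (R.co l)

/-- the properties used by the greedy coverage, slack `K` -/
structure Ok (K : ℝ) : Prop where
  N_ge : 2 ≤ R.N
  K_ge : 1 ≤ K
  d_nonneg : 0 ≤ R.d
  d_le : R.d ≤ 1
  mass_le : R.ν Set.univ ≤ 1
  m_co : Measurable R.co
  m_asg : ∀ Q, MeasurableSet (R.asg Q)
  /-- `λ⁰ ≤ K ν × dt` -/
  le : R.lam0 ≤ ENNReal.ofReal K • R.prior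
  dep_mem : ∀ Q, R.dep Q ∈ R.depths
  lev_dep : ∀ Q Q', R.dep Q = R.dep Q' → R.lev Q = R.lev Q'
  iv_lt : ∀ Q, R.iv Q < 2 ^ R.lev Q
  /-- disjoint assignments inside one block -/
  disj : ∀ Q Q', R.dep Q = R.dep Q' → R.iv Q = R.iv Q' → Q ≠ Q' → Disjoint (R.asg Q) (R.asg Q')

end K4dCtx

/-- **one candidate scenario at one scale** (data only) -/
structure K4dFam (R : K4dCtx v) where
  /-- the tests (time tests, rows) -/
  ι : Type
  /-- a default test -/
  dflt : ι
  /-- the lines which satisfy the line inequalities -/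
  Line : R.Lab → ι → Set R.L
  /-- the counted incidences -/
  Cnt : R.Lab → ι → Set (R.L × ℝ)
  /-- the mass threshold (parent time, NOT divided by `q`) -/
  θ : R.Lab → ℝ≥0∞
  /-- the active labels -/
  act : Set R.Lab

/-- structural requirements -/
structure K4dFam.WF {R : K4dCtx v} (F : K4dFam R) : Prop where
  line_meas : ∀ Q i, MeasurableSet (F.Line Q i)
  line_sub : ∀ Q i, F.Line Q i ⊆ R.asg Q
  cnt_sub : ∀ Q i, F.Cnt Q i ⊆ F.Line Q i ×ˢ R.blk Q
  θ_ne : ∀ Q ∈ F.act, F.θ Q ≠ 0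

/-- **a priority assignment** (data only) -/
structure K4dAsg {R : K4dCtx v} (F : K4dFam R) where
  T : R.Lab → ℕ → F.ι
  k : R.Lab → ℕ

namespace K4dAsg

variable {R : K4dCtx v} {F : K4dFam R} (X : K4dAsg F)

/-- the lines used in the label `Q` -/
def used (Q : R.Lab) : Set R.L := k4dUsed (F.Line Q) (X.T Q) (X.k Q)

/-- the lines assigned to the `n`-th chosen test -/
def piece (Q : R.Lab) (n : ℕ) : Set R.L := k4dFree (F.Line Q) (X.T Q) n

/-- ALL incidences on the assigned trajectory pieces, throughout the respective blocks -/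
def cov : Set (R.L × ℝ) := ⋃ Q ∈ F.act, X.used Q ×ˢ R.blk Q

/-- eligible, maximal, with the count -/
structure Max (K : ℝ) : Prop where
  elig : ∀ Q ∈ F.act, ∀ n, n < X.k Q → F.θ Q ≤ R.lam0 (F.Cnt Q (X.T Q n) ∩ X.piece Q n ×ˢ Set.univ)
  max : ∀ Q ∈ F.act, ∀ i, R.lam0 (F.Cnt Q i ∩ (F.Line Q i \ X.used Q) ×ˢ Set.univ) < F.θ Q
  count : ∀ Q ∈ F.act, (X.k Q : ℝ≥0∞) * F.θ Q ≤ ENNReal.ofReal (K * R.q Q) * R.νQ Q

theorem used_meas (hF : F.WF) (Q : R.Lab) : MeasurableSet (X.used Q) := k4d_used_meas (hF.line_meas Q) _ _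

theorem piece_meas (hF : F.WF) (Q : R.Lab) (n : ℕ) : MeasurableSet (X.piece Q n) := k4d_free_meas (hF.line_meas Q) _ _

theorem used_sub (hF : F.WF) (Q : R.Lab) : X.used Q ⊆ R.asg Q := by
  intro l hl
  obtain ⟨n, -, hl⟩ := k4d_mem_used.1 hl
  exact hF.line_sub _ _ hl

theorem cov_meas (hF : F.WF) : MeasurableSet X.cov :=
  MeasurableSet.biUnion (Set.to_countable _) fun Q _ => (X.used_meas hF Q).prod measurableSet_Ico

end K4dAsg

/-- the prepared law of a set of incidences over the lines `S` in the block of `Q` is `≤ K q ν(S)`.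
PLAN: `hR.le`, `measure_mono hE`, `Measure.prod_prod`, `KbPb.tm (kbI n i) ≤ volume (Ico ..) = ofReal (kbQ n)`, `ENNReal.ofReal_mul`. -/
theorem k4d_lam0_le {R : K4dCtx v} {K : ℝ} (hR : R.Ok K) (Q : R.Lab) (S : Set R.L) (E : Set (R.L × ℝ)) (hE : E ⊆ S ×ˢ R.blk Q) :
    R.lam0 E ≤ ENNReal.ofReal (K * R.q Q) * R.ν S := by
  have hK0 : 0 ≤ K := le_trans zero_le_one hR.K_ge
  have hfin : IsFiniteMeasure R.ν := ⟨lt_of_le_of_lt hR.mass_le ENNReal.one_lt_top⟩
  have htm : KbPb.tm (R.blk Q) ≤ ENNReal.ofReal (R.q Q) := by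
    calc KbPb.tm (R.blk Q) ≤ volume (R.blk Q) := Measure.restrict_le_self _
      _ = ENNReal.ofReal (R.q Q) := by
        unfold K4dCtx.blk K4dCtx.q kbI
        rw [Real.volume_Ico]
        congr 1
        ring
  calc R.lam0 E ≤ (ENNReal.ofReal K • R.prior) E := hR.le E
    _ = ENNReal.ofReal K * (R.ν.prod KbPb.tm) E := by rw [Measure.smul_apply, smul_eq_mul]; rfl
    _ ≤ ENNReal.ofReal K * (R.ν.prod KbPb.tm) (S ×ˢ R.blk Q) := by gcongr
    _ = ENNReal.ofReal K * (R.ν S * KbPb.tm (R.blk Q)) := by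
        have : SFinite (KbPb.tm) := by unfold KbPb.tm; infer_instance
        rw [Measure.prod_prod]
    _ ≤ ENNReal.ofReal K * (R.ν S * ENNReal.ofReal (R.q Q)) := by gcongr
    _ = ENNReal.ofReal (K * R.q Q) * R.ν S := by rw [ENNReal.ofReal_mul hK0]; ring

/-- **maximal priority assignments exist** (04 l.1268-1287).   PLAN: for `Q ∈ act` apply `k4d_greedy` with `m i S = lam0 (Cnt Q i ∩ S × univ)`, the measure `ofReal (K q) • ν`, `B = asg Q` (`k4d_lam0_le`);
for `Q ∉ act` take `k = 0`, `T = fun _ => F.dflt`;  `Classical.choose` over the labels. -/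
theorem k4d_asg_exists {R : K4dCtx v} {K : ℝ} (hR : R.Ok K) (F : K4dFam R) (hF : F.WF) : ∃ X : K4dAsg F, X.Max K := by
  classical
  have key : ∀ Q : R.Lab, ∃ (T : ℕ → F.ι) (k : ℕ), Q ∈ F.act →
      (∀ n, n < k → F.θ Q ≤ R.lam0 (F.Cnt Q (T n) ∩ k4dFree (F.Line Q) T n ×ˢ Set.univ)) ∧
      (∀ i, R.lam0 (F.Cnt Q i ∩ (F.Line Q i \ k4dUsed (F.Line Q) T k) ×ˢ Set.univ) < F.θ Q) ∧
      (k : ℝ≥0∞) * F.θ Q ≤ ENNReal.ofReal (K * R.q Q) * R.νQ Q := by
    intro Q
    by_cases hQ : Q ∈ F.act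
    · have hne : Nonempty F.ι := ⟨F.dflt⟩
      have hm : ∀ (i : F.ι) (S : Set R.L), MeasurableSet S →
          (fun (i : F.ι) (S : Set R.L) => R.lam0 (F.Cnt Q i ∩ S ×ˢ Set.univ)) i S ≤ (ENNReal.ofReal (K * R.q Q) • R.ν) S := by
        intro i S _
        rw [Measure.smul_apply, smul_eq_mul]
        refine k4d_lam0_le hR Q S _ ?_
        rintro p ⟨hp, hpS⟩
        exact ⟨hpS.1, (hF.cnt_sub Q i hp).2⟩
      have hB : (ENNReal.ofReal (K * R.q Q) • R.ν) (R.asg Q) ≠ ∞ := by
        rw [Measure.smul_apply, smul_eq_mul]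
        refine ENNReal.mul_ne_top ENNReal.ofReal_ne_top ?_
        exact ne_top_of_le_ne_top ENNReal.one_ne_top ((measure_mono (Set.subset_univ _)).trans hR.mass_le)
      obtain ⟨T, k, h1, h2, h3⟩ := k4d_greedy (hF.line_meas Q) (fun (i : F.ι) (S : Set R.L) => R.lam0 (F.Cnt Q i ∩ S ×ˢ Set.univ))
        (ENNReal.ofReal (K * R.q Q) • R.ν) hm (R.asg Q) (hF.line_sub Q) hB (F.θ Q) (hF.θ_ne Q hQ)
      refine ⟨T, k, fun _ => ⟨h1, h2, ?_⟩⟩
      rw [Measure.smul_apply, smul_eq_mul] at h3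
      exact h3
    · exact ⟨fun _ => F.dflt, 0, fun h => absurd h hQ⟩
  choose T k h using key
  exact ⟨⟨T, k⟩, ⟨fun Q hQ n hn => (h Q hQ).1 n hn, fun Q hQ i => (h Q hQ).2.1 i, fun Q hQ => (h Q hQ).2.2⟩⟩

/-- **contradiction with maximality** (04 l.1313-1319): the witnessing trajectories of an eligible test of a residual which avoids `X.cov` are still free. -/
theorem k4d_max_contra {R : K4dCtx v} {K : ℝ} {F : K4dFam R} (hF : F.WF) (X : K4dAsg F) (hX : X.Max K) (res : Measure (R.L × ℝ)) (hres : res ≤ R.lam0)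
    (h0 : res X.cov = 0) (Q : R.Lab) (hQ : Q ∈ F.act) (i : F.ι) (Cn : Set (R.L × ℝ)) (hCn : Cn ⊆ F.Cnt Q i) (hθ : F.θ Q ≤ res Cn) : False := by
  have h1 : res Cn ≤ res (Cn \ X.cov) := by
    calc res Cn ≤ res (Cn \ X.cov ∪ X.cov) := measure_mono (by intro p hp; by_cases h : p ∈ X.cov; exacts [Or.inr h, Or.inl ⟨hp, h⟩])
      _ ≤ res (Cn \ X.cov) + res X.cov := measure_union_le _ _
      _ = res (Cn \ X.cov) := by rw [h0, add_zero]
  have h2 : Cn \ X.cov ⊆ F.Cnt Q i ∩ (F.Line Q i \ X.used Q) ×ˢ Set.univ := by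
    rintro p ⟨hp, hpc⟩
    have h3 := hF.cnt_sub Q i (hCn hp)
    refine ⟨hCn hp, ⟨h3.1, fun hu => hpc ?_⟩, Set.mem_univ _⟩
    exact Set.mem_iUnion₂.2 ⟨Q, hQ, hu, h3.2⟩
  exact absurd (hθ.trans (h1.trans ((hres _).trans (measure_mono h2)))) (not_le.2 (hX.max Q hQ i))

/-- **COVERAGE BY ONE FIXED SCENARIO, sequence form** (04 l.1289-1327).
`I` = the countable menu; `F i n` the scenario `i` at the stage `n`; `X i n` its maximal assignments.   `hyp` = "every substantial residual SET is, eventually, eligible for some fixed scenario".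
PLAN: `k4d_diag` with `μ n = lam0`, `Cov i n = (X i n).cov`.  Given `Fin n` with coverage `→ 0` put `E n = (⋃ i ∈ Fin n, cov)ᶜ` if all `F i n` are `WF` (measurable: `cov_meas`), `E n = univ` otherwise:
`lam0 (E n) ≥ η₀ / 2` eventually (`η₀ ≤ lam0 U + lam0 Uᶜ`, `lam0 U < η₀ / 2`); `hyp` gives `i`, eventually `i ∈ Fin n`, so `(lam0.restrict (E n)) (X i n).cov = 0`, and `k4d_max_contra` (`Measure.restrict_le_self`) at one `n` of the
intersection of the eventual sets (`uf` is `NeBot`: `Eventually.exists`). -/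
theorem k4d_cover_abs {I : Type} [Countable I] (R : ∀ _ : ℕ, K4dCtx v) (K : ℕ → ℝ)
    (F : ∀ (_ : I) (n : ℕ), K4dFam (R n)) (hF : ∀ᶠ n in uf, ∀ i, (F i n).WF) (X : ∀ (i : I) (n : ℕ), K4dAsg (F i n)) (hX : ∀ i, ∀ᶠ n in uf, (X i n).Max (K n))
    (η₀ : ℝ≥0∞) (hη₀ : η₀ ≠ 0) (hη₀t : η₀ ≠ ∞) (hmass : ∀ᶠ n in uf, η₀ ≤ (R n).lam0 Set.univ)
    (hyp : ∀ E : ∀ n, Set ((R n).L × ℝ), (∀ n, MeasurableSet (E n)) → (∀ᶠ n in uf, η₀ / 2 ≤ (R n).lam0 (E n)) →
      ∃ i : I, ∀ᶠ n in uf, ∃ Q ∈ (F i n).act, ∃ (t : (F i n).ι) (Cn : Set ((R n).L × ℝ)), Cn ⊆ (F i n).Cnt Q t ∧ (F i n).θ Q ≤ ((R n).lam0.restrict (E n)) Cn) :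
    ∃ (i : I) (η : ℝ≥0∞), η ≠ 0 ∧ ∀ᶠ n in uf, η ≤ (R n).lam0 (X i n).cov := by
  classical
  refine k4d_diag (fun n => (R n).lam0) (fun i n => (X i n).cov) fun Fn hFn htend => ?_
  let E : ∀ n, Set ((R n).L × ℝ) := fun n =>
    if ∀ i, (F i n).WF then (⋃ i ∈ Fn n, (X i n).cov)ᶜ else Set.univ
  have hEm : ∀ n, MeasurableSet (E n) := by
    intro n
    by_cases h : ∀ i, (F i n).WF
    · simp only [E, if_pos h]
      exact (Finset.measurableSet_biUnion _ fun i _ => (X i n).cov_meas (h i)).compl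
    · simp only [E, if_neg h]
      exact MeasurableSet.univ
  have hhalf : η₀ / 2 ≠ 0 := (ENNReal.half_pos hη₀).ne'
  have hsmall : ∀ᶠ n in uf, (R n).lam0 (⋃ i ∈ Fn n, (X i n).cov) < η₀ / 2 :=
    htend.eventually (Iio_mem_nhds (pos_iff_ne_zero.2 hhalf))
  have hEbig : ∀ᶠ n in uf, η₀ / 2 ≤ (R n).lam0 (E n) := by
    filter_upwards [hF, hmass, hsmall] with n h1 h2 h3
    simp only [E, if_pos h1]
    have h4 : η₀ ≤ (R n).lam0 (⋃ i ∈ Fn n, (X i n).cov) + (R n).lam0 (⋃ i ∈ Fn n, (X i n).cov)ᶜ := by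
      refine h2.trans ?_
      rw [← Set.union_compl_self (⋃ i ∈ Fn n, (X i n).cov)]
      exact measure_union_le _ _
    by_contra hlt
    have h5 := ENNReal.add_lt_add h3 (not_le.1 hlt)
    rw [ENNReal.add_halves] at h5
    exact absurd h4 (not_le.2 h5)
  obtain ⟨i, hi⟩ := hyp E hEm hEbig
  have : uf.NeBot := Claimed.Agent.R255.uf_neBot
  obtain ⟨n, h1, h2, h3, h4⟩ := (hi.and (hF.and ((hFn i).and (hX i)))).exists
  obtain ⟨Q, hQ, t, Cn, hCn, hθ⟩ := h1
  refine k4d_max_contra (h2 i) (X i n) h4 ((R n).lam0.restrict (E n)) Measure.restrict_le_self ?_ Q hQ t Cn hCn hθ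
  rw [Measure.restrict_apply ((X i n).cov_meas (h2 i))]
  have h5 : (X i n).cov ∩ E n = ∅ := by
    simp only [E, if_pos h2]
    refine Set.eq_empty_iff_forall_notMem.2 fun p hp => hp.2 ?_
    exact Set.mem_biUnion (Finset.mem_coe.2 h3) hp.1
  rw [h5, measure_empty]

/-- Stores the on-demand equation lemmas of the definitions above in THIS module (rule 6 hygiene). -/
theorem k4d_fam_eqns_cite : True := by
  have := @K4dCtx.a.eq_1
  have := @K4dCtx.prior.eq_1
  have := @K4dCtx.νQ.eq_1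
  have := @K4dCtx.q.eq_1
  have := @K4dCtx.t0.eq_1
  have := @K4dCtx.blk.eq_1
  have := @K4dCtx.inc.eq_1
  have := @K4dCtx.J.eq_1
  have := @K4dCtx.ev.eq_1
  have := @K4dCtx.y.eq_1
  have := @K4dCtx.V.eq_1
  have := @K4dAsg.used.eq_1
  have := @K4dAsg.piece.eq_1
  have := @K4dAsg.cov.eq_1
  trivial

end

end Claimed.Agent.R252
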