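import Claimed.Agent.R252.S4D.Fam

/-!
# ROW 252 (S0492), unit S4D (sub-architect helper230), file 2b: ONE maximal assignment per scenario, chosen once and for all, independent of the slack.      No `sorry` here (uses the leaves of `Fam.lean`).
* `k4d_max_change` : `X.Max K` depends on `K` only through the count, which holds for EVERY slack `K'` with `R.Ok K'`.
* `k4dPick F`, `k4d_pick_max`.
-/

set_option autoImplicit false

namespace Claimed.Agent.R252

open MeasureTheory
open scoped ENNReal BigOperators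

noncomputable section

variable {v : KbVer}

theorem k4d_max_change {R : K4dCtx v} {K K' : ℝ} {F : K4dFam R} (hF : F.WF) (X : K4dAsg F) (hX : X.Max K) (hR : R.Ok K') : X.Max K' := by
  refine ⟨hX.elig, hX.max, fun Q hQ => ?_⟩
  have h1 := k4d_greedy_count (hF.line_meas Q) (fun i S => R.lam0 (F.Cnt Q i ∩ S ×ˢ Set.univ)) (ENNReal.ofReal (K' * R.q Q) • R.ν)
    (fun i S _ => by
      have h2 := k4d_lam0_le hR Q S (F.Cnt Q i ∩ S ×ˢ Set.univ) (fun x hx => ⟨hx.2.1, (hF.cnt_sub Q i hx.1).2⟩)
      simpa using h2) (F.θ Q) (X.T Q) (X.k Q) (hX.elig Q hQ)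
  refine h1.trans ?_
  have h3 : (ENNReal.ofReal (K' * R.q Q) • R.ν) (k4dUsed (F.Line Q) (X.T Q) (X.k Q)) = ENNReal.ofReal (K' * R.q Q) * R.ν (X.used Q) := by
    simp [K4dAsg.used]
  rw [h3]
  exact mul_le_mul_right (measure_mono (X.used_sub hF Q)) _

open Classical in
/-- the chosen maximal assignment of a scenario -/
def k4dPick {R : K4dCtx v} (F : K4dFam R) : K4dAsg F :=
  if h : ∃ Y : K4dAsg F, ∃ K, Y.Max K then h.choose else ⟨fun _ _ => F.dflt, fun _ => 0⟩

theorem k4d_pick_max {R : K4dCtx v} {K : ℝ} (hR : R.Ok K) (F : K4dFam R) (hF : F.WF) : (k4dPick F).Max K := by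
  have h : ∃ Y : K4dAsg F, ∃ K, Y.Max K := by
    obtain ⟨Y, hY⟩ := k4d_asg_exists hR F hF
    exact ⟨Y, K, hY⟩
  unfold k4dPick
  rw [dif_pos h]
  obtain ⟨K₁, hK₁⟩ := h.choose_spec
  exact k4d_max_change hF _ hK₁ hR

/-- Stores the on-demand equation lemmas of the definitions above in THIS module (rule 6 hygiene). -/
theorem k4d_pick_eqns_cite : True := by
  have := @k4dPick.eq_1
  trivial

end

end Claimed.Agent.R252
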