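import Claimed.Agent.R252.S4D.Fam
import Claimed.Agent.R252.Remez.One

/-!
# ROW 252 (S0492), unit S4D (sub-architect helper230, under helper269), file 3: THE TIME AND STRIP SCENARIOS, THE MENU, THE COVERAGE THEOREM.      CONTRACT file: the `sorry`s are the leaves L-252-S4D-*.

Paper: 04-critical-paths.tex l.1058-1097 (`a03:candidates`), l.1262-1349.      Prefix `k4d` / `K4d`.      v2 (19:45Z): on `K4dCtx v`, Base vocabulary (`KbTest`, `KbAdm`, `kbDw`, `kbDww`, `kbX`).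
* `K4dTimeCand`, `K4dStripCand` : `a03:candidates` on `K4dCtx` (= `KsTimeCand`, `KsStripCand` of `State/KsCore` v3 with `res = R.law E`; = `KpTan.TimeCand`, `StripCand` of `S4/Tan`).
* `k4dTime R c σ smax`, `k4dStrip R c σ smax` : the two kinds of scenarios as `K4dFam R`.  Slack `N^σ` in all tests, thresholds `q N^{-dc-σ} ν_Q`, `q N^{-σ} ν_Q`, active labels: depth `≤ smax`, `ν_Q ≠ 0`.
  The derivative lower bound "somewhere in the block" is the OPEN condition `1 < 2 N^σ |P_w|` (measurability).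
* `k4d_time_elig`, `k4d_strip_elig` : THE MENU CHOICE at one scale: a candidate with slack `K' ≤ N^{σ/4}` and gain `|c' - c| ≤ σ/4` is eligible for the scenario `(c, σ)`.
* `k4d_time_count`, `k4d_strip_count` : at most `K N^{dc+σ}`, `K N^σ` choices per label.
* `k4d_cover_time`, `k4d_cover_two` : the sequence statements.
* `k4d_time_excluded` : the covered incidences with `|P_w| ≤ ε² / (2 N^σ)` have mass `≤ 21 K ε #depths`.
REMARK (degenerate data): a label with `ν_Q = 0` (parent of weight `0`) carries trivial candidates (`Cn = ∅`); the candidate hypotheses below therefore contain `ν_Q ≠ 0`.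
-/

set_option autoImplicit false

namespace Claimed.Agent.R252

open MeasureTheory Filter Topology
open scoped ENNReal BigOperators
open Claimed.Agent.R255 (uf)

noncomputable section

variable {v : KbVer}

/-! ## 1. Candidates and scenarios -/

/-- major and minor coordinates in version 2 -/
def k4dZ (y : KbB KbVer.two) : ℝ := y (0 : Fin 2)
def k4dY (y : KbB KbVer.two) : ℝ := y (1 : Fin 2)

/-- **time-improvement candidate of gain `c`** in the label `Q`, mass counted by the residual law `res`, slack `K`.  `Cn` = the counted incidences. -/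
structure K4dTimeCand (R : K4dCtx v) (res : Measure (R.L × ℝ)) (K c : ℝ) (Q : R.Lab) (P : KbTest v) (Cn : Set (R.L × ℝ)) : Prop where
  adm : KbAdm P
  sub : Cn ⊆ R.inc Q
  val : ∀ p ∈ Cn, ∀ t ∈ R.blk Q, |R.ev P p.1 t| ≤ K * R.a (R.dep Q + c)
  dw : ∀ p ∈ Cn, ∀ t ∈ R.blk Q, |R.ev (kbDw P) p.1 t| ≤ K
  dww : ∀ t y w, |kbDww P t y w| * R.a (R.dep Q + c) ≤ K
  dw_lo : ∀ p ∈ Cn, 1 ≤ K * |R.ev (kbDw P) p.1 p.2|
  mass : ENNReal.ofReal (R.q Q * R.a (R.d * c)) * R.νQ Q ≤ ENNReal.ofReal K * res Cn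

/-- **strip candidate of gain `c`** : a fixed row `(ρ₀, ρ₁)` -/
structure K4dStripCand (R : K4dCtx KbVer.two) (res : Measure (R.L × ℝ)) (K c : ℝ) (Q : R.Lab) (ρ : Fin 2 → ℝ) (Cn : Set (R.L × ℝ)) : Prop where
  sub : Cn ⊆ R.inc Q
  row : ∀ p ∈ Cn, |k4dY (R.V p.1) - (ρ 0 + ρ 1 * k4dZ (R.V p.1))| ≤ K * R.a (R.ell * R.dep Q + c)
  mass : ENNReal.ofReal (R.q Q) * R.νQ Q ≤ ENNReal.ofReal K * res Cn

/-- the line inequalities of a time test `P` in the label `Q`: gain `c`, slack `M` -/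
def k4dTLine (R : K4dCtx v) (c M : ℝ) (Q : R.Lab) (P : KbTest v) : Set R.L :=
  {l | (KbAdm P ∧ (∀ t y w, |kbDww P t y w| * R.a (R.dep Q + c) ≤ M) ∧ l ∈ R.asg Q) ∧
    (∀ t ∈ R.blk Q, |R.ev P l t| ≤ M * R.a (R.dep Q + c) ∧ |R.ev (kbDw P) l t| ≤ M) ∧
    ∃ t ∈ R.blk Q, 1 < 2 * M * |R.ev (kbDw P) l t|}

/-- the counted incidences of a time test -/
def k4dTCnt (R : K4dCtx v) (c M : ℝ) (Q : R.Lab) (P : KbTest v) : Set (R.L × ℝ) :=
  {p | p.1 ∈ k4dTLine R c M Q P ∧ p.2 ∈ R.blk Q ∧ 1 ≤ M * |R.ev (kbDw P) p.1 p.2|}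

/-- the line inequality of a row `ρ` -/
def k4dSLine (R : K4dCtx KbVer.two) (c M : ℝ) (Q : R.Lab) (ρ : Fin 2 → ℝ) : Set R.L :=
  {l | l ∈ R.asg Q ∧ |k4dY (R.V l) - (ρ 0 + ρ 1 * k4dZ (R.V l))| ≤ M * R.a (R.ell * R.dep Q + c)}

/-- the active labels of a scenario -/
def k4dAct (R : K4dCtx v) (smax : ℝ) : Set R.Lab := {Q | R.dep Q ≤ smax ∧ R.νQ Q ≠ 0}

/-- **the time scenario** -/
def k4dTime (R : K4dCtx v) (c σ smax : ℝ) : K4dFam R where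
  ι := KbTest v
  dflt := fun _ _ _ => 0
  Line := k4dTLine R c (R.N ^ σ)
  Cnt := k4dTCnt R c (R.N ^ σ)
  θ := fun Q => ENNReal.ofReal (R.q Q * R.a (R.d * c + σ)) * R.νQ Q
  act := k4dAct R smax

/-- **the strip scenario** -/
def k4dStrip (R : K4dCtx KbVer.two) (c σ smax : ℝ) : K4dFam R where
  ι := Fin 2 → ℝ
  dflt := 0
  Line := k4dSLine R c (R.N ^ σ)
  Cnt := fun Q ρ => k4dSLine R c (R.N ^ σ) Q ρ ×ˢ R.blk Q
  θ := fun Q => ENNReal.ofReal (R.q Q * R.a σ) * R.νQ Q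
  act := k4dAct R smax

/-! ## 2. Measurability  (leaf L-252-S4D-MEAS) -/

/-- PLAN: the set is `⋂` over the rational `t ∈ [a,b)`; every `t ∈ [a,b)` is a limit of rationals of `(t, b)`. -/
theorem k4d_meas_forall {L : Type*} [MeasurableSpace L] (f : L → ℝ → ℝ) (hf : ∀ t, Measurable fun l => f l t) (hc : ∀ l, Continuous (f l)) (a b c : ℝ) :
    MeasurableSet {l | ∀ t ∈ Set.Ico a b, f l t ≤ c} := by
  have h : {l | ∀ t ∈ Set.Ico a b, f l t ≤ c} = ⋂ (r : ℚ) (_ : (r : ℝ) ∈ Set.Ico a b), {l | f l (r : ℝ) ≤ c} := by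
    ext l
    simp only [Set.mem_ofPred_eq, Set.mem_iInter]
    constructor
    · intro h r hr
      exact h _ hr
    · intro h t ht
      by_contra hlt
      rw [not_le] at hlt
      have hopen : IsOpen {s | c < f l s} := isOpen_lt continuous_const (hc l)
      obtain ⟨ε, hε, hball⟩ := Metric.isOpen_iff.1 hopen t hlt
      obtain ⟨r, hr1, hr2⟩ := exists_rat_btwn (show t < min (t + ε) b from lt_min (by linarith) ht.2)
      have hr3 : (r : ℝ) ∈ Metric.ball t ε := by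
        rw [Metric.mem_ball, Real.dist_eq, abs_lt]
        constructor
        · linarith
        · have := lt_of_lt_of_le hr2 (min_le_left _ _)
          linarith
      have hr4 : c < f l r := hball hr3
      exact absurd (h r ⟨ht.1.trans hr1.le, lt_of_lt_of_le hr2 (min_le_right _ _)⟩) (not_le.2 hr4)
  rw [h]
  exact MeasurableSet.iInter fun r => MeasurableSet.iInter fun _ => measurableSet_le (hf r) measurable_const

theorem k4d_meas_exists {L : Type*} [MeasurableSpace L] (f : L → ℝ → ℝ) (hf : ∀ t, Measurable fun l => f l t) (hc : ∀ l, Continuous (f l)) (a b c : ℝ) :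
    MeasurableSet {l | ∃ t ∈ Set.Ico a b, c < f l t} := by
  have h := (k4d_meas_forall f hf hc a b c).compl
  convert h using 1
  ext l
  simp only [Set.mem_ofPred_eq, Set.mem_compl_iff, not_forall, not_le, exists_prop]

/-- a quadratic test along the trajectories is continuous in `(coefficients, t)`.   PLAN: `T = Q.ev` (`KbQuad.ev`), `kbX`, `kbY`, `kbW` are explicit polynomials: `fun_prop` / `continuity` after unfolding (`dotProduct`, `Matrix.mulVec` are finite sums). -/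
theorem k4d_cont_quad (T : KbTest v) (hT : KbIsQuad T) : Continuous fun x : KbTj v × ℝ => kbX T x.1 x.2 := by
  obtain ⟨Q, hQ⟩ := hT
  have h : (fun x : KbTj v × ℝ => kbX T x.1 x.2) = fun x : KbTj v × ℝ => Q.ev x.2 (kbY x.1 x.2) (kbW x.1 x.2) := by
    funext x
    exact hQ _ _ _
  rw [h]
  have hY : Continuous fun x : KbTj v × ℝ => kbY x.1 x.2 := by
    unfold kbY
    fun_prop
  have hW : Continuous fun x : KbTj v × ℝ => kbW x.1 x.2 := by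
    unfold kbW
    fun_prop
  have ht : Continuous fun x : KbTj v × ℝ => x.2 := continuous_snd
  unfold KbQuad.ev
  have d1 : ∀ u : KbB v, Continuous fun x : KbTj v × ℝ => u ⬝ᵥ kbY x.1 x.2 := fun u => continuous_const.dotProduct hY
  have d2 : Continuous fun x : KbTj v × ℝ => kbY x.1 x.2 ⬝ᵥ Q.cyy.mulVec (kbY x.1 x.2) := hY.dotProduct (continuous_const.matrix_mulVec hY)
  exact (((((((((continuous_const.add (continuous_const.mul ht)).add (d1 _)).add (continuous_const.mul hW)).add (continuous_const.mul (ht.pow 2))).add (ht.mul (d1 _))).add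
    ((continuous_const.mul ht).mul hW)).add d2).add (hW.mul (d1 _))).add (continuous_const.mul (hW.pow 2)))

/-- `∂_w` of a quadratic test is quadratic (even affine) -/
theorem k4d_dw_isQuad (T : KbTest v) (hT : KbIsQuad T) : KbIsQuad (kbDw T) := by
  obtain ⟨Q, hQ⟩ := hT
  refine ⟨⟨Q.cw, Q.ctw, Q.cyw, 2 * Q.cww, 0, 0, 0, 0, 0, 0⟩, fun t y w => ?_⟩
  unfold kbDw
  rw [hQ, hQ]
  simp only [KbQuad.ev, zero_dotProduct, Matrix.zero_mulVec, dotProduct_zero]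
  ring

theorem k4d_time_line_meas {R : K4dCtx v} {K : ℝ} (hR : R.Ok K) (c M : ℝ) (Q : R.Lab) (P : KbTest v) : MeasurableSet (k4dTLine R c M Q P) := by
  by_cases hP : KbAdm P ∧ (∀ t y w, |kbDww P t y w| * R.a (R.dep Q + c) ≤ M)
  · have hq : KbIsQuad P := hP.1.1
    have hq' : KbIsQuad (kbDw P) := k4d_dw_isQuad P hq
    have m1 : ∀ (T : KbTest v), KbIsQuad T → ∀ t, Measurable fun l => |R.ev T l t| := fun T hT t =>
      ((k4d_cont_quad T hT).measurable.comp (hR.m_co.prodMk measurable_const)).abs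
    have c1 : ∀ (T : KbTest v), KbIsQuad T → ∀ l, Continuous fun t => |R.ev T l t| := fun T hT l =>
      ((k4d_cont_quad T hT).comp (continuous_const.prodMk continuous_id)).abs
    have e : k4dTLine R c M Q P = R.asg Q ∩ ({l | ∀ t ∈ Set.Ico ((R.iv Q : ℝ) * kbQ (R.lev Q)) (((R.iv Q : ℝ) + 1) * kbQ (R.lev Q)), |R.ev P l t| ≤ M * R.a (R.dep Q + c)} ∩
        ({l | ∀ t ∈ Set.Ico ((R.iv Q : ℝ) * kbQ (R.lev Q)) (((R.iv Q : ℝ) + 1) * kbQ (R.lev Q)), |R.ev (kbDw P) l t| ≤ M} ∩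
        {l | ∃ t ∈ Set.Ico ((R.iv Q : ℝ) * kbQ (R.lev Q)) (((R.iv Q : ℝ) + 1) * kbQ (R.lev Q)), 1 < 2 * M * |R.ev (kbDw P) l t|})) := by
      ext l
      constructor
      · rintro ⟨⟨-, -, h1⟩, h2, h3⟩
        exact ⟨h1, fun t ht => (h2 t ht).1, fun t ht => (h2 t ht).2, h3⟩
      · rintro ⟨h1, h2, h3, h4⟩
        exact ⟨⟨hP.1, hP.2, h1⟩, fun t ht => ⟨h2 t ht, h3 t ht⟩, h4⟩
    rw [e]
    refine (hR.m_asg Q).inter ((k4d_meas_forall _ (m1 P hq) (c1 P hq) _ _ _).inter ((k4d_meas_forall _ (m1 _ hq') (c1 _ hq') _ _ _).inter ?_))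
    exact k4d_meas_exists (fun l t => 2 * M * |R.ev (kbDw P) l t|) (fun t => (m1 _ hq' t).const_mul _) (fun l => continuous_const.mul (c1 _ hq' l)) _ _ _
  · have e : k4dTLine R c M Q P = ∅ := by
      ext l
      simp only [Set.mem_empty_iff_false, iff_false]
      rintro ⟨⟨h1, h2, -⟩, -⟩
      exact hP ⟨h1, h2⟩
    rw [e]
    exact MeasurableSet.empty

theorem k4d_strip_line_meas {R : K4dCtx KbVer.two} {K : ℝ} (hR : R.Ok K) (c M : ℝ) (Q : R.Lab) (ρ : Fin 2 → ℝ) : MeasurableSet (k4dSLine R c M Q ρ) := by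
  have hV : Measurable fun l => R.V l := (measurable_fst.comp measurable_snd).comp hR.m_co
  have h0 : Measurable fun l => k4dZ (R.V l) := (measurable_pi_apply _).comp hV
  have h1 : Measurable fun l => k4dY (R.V l) := (measurable_pi_apply _).comp hV
  have e : k4dSLine R c M Q ρ = R.asg Q ∩ {l | |k4dY (R.V l) - (ρ 0 + ρ 1 * k4dZ (R.V l))| ≤ M * R.a (R.ell * R.dep Q + c)} := rfl
  rw [e]
  exact (hR.m_asg Q).inter (measurableSet_le (h1.sub ((h0.const_mul _).const_add _)).abs measurable_const)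

theorem k4d_time_wf {R : K4dCtx v} {K : ℝ} (hR : R.Ok K) (c σ smax : ℝ) : (k4dTime R c σ smax).WF := by
  refine ⟨fun Q i => k4d_time_line_meas hR _ _ Q i, fun Q i l hl => hl.1.2.2, fun Q i p hp => ⟨hp.1, hp.2.1⟩, fun Q hQ => ?_⟩
  have hN : 0 < R.N := by linarith [hR.N_ge]
  have hq : 0 < R.q Q := by unfold K4dCtx.q kbQ; positivity
  have ha : 0 < R.a (R.d * c + σ) := Real.rpow_pos_of_pos hN _
  exact mul_ne_zero (by rw [Ne, ENNReal.ofReal_eq_zero, not_le]; exact mul_pos hq ha) hQ.2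

theorem k4d_strip_wf {R : K4dCtx KbVer.two} {K : ℝ} (hR : R.Ok K) (c σ smax : ℝ) : (k4dStrip R c σ smax).WF := by
  refine ⟨fun Q i => k4d_strip_line_meas hR _ _ Q i, fun Q i l hl => hl.1, fun Q i p hp => hp, fun Q hQ => ?_⟩
  have hN : 0 < R.N := by linarith [hR.N_ge]
  have hq : 0 < R.q Q := by unfold K4dCtx.q kbQ; positivity
  have ha : 0 < R.a σ := Real.rpow_pos_of_pos hN _
  exact mul_ne_zero (by rw [Ne, ENNReal.ofReal_eq_zero, not_le]; exact mul_pos hq ha) hQ.2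

/-! ## 3. The menu choice at one scale  (leaf L-252-S4D-ELIG) -/

/-! ## 3. The menu choice at one scale  (leaf L-252-S4D-ELIG) -/

/-- `N^{-(x+y)} = N^{-x} N^{-y}` -/
theorem k4d_a_add {R : K4dCtx v} (hN : 2 ≤ R.N) (x y : ℝ) : R.a (x + y) = R.a x * R.a y := by
  unfold K4dCtx.a
  rw [neg_add, Real.rpow_add (by linarith)]

/-- **a time candidate is eligible for every nearby scenario.**   All exponents of the tests and of the mass floor are `≤ 1`.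
PLAN: `K' a(s+c') ≤ N^{σ/4} N^{σ/4} a(s+c)`; `|P_ww| a(s+c) = |P_ww| a(s+c') N^{c'-c} ≤ K' N^{σ/4}`; `K' a(dc+σ) ≤ a(dc')` since `d |c'-c| ≤ σ/4`; cancel `ofReal K'`. -/
theorem k4d_time_elig {R : K4dCtx v} {K K' c c' σ smax : ℝ} (hR : R.Ok K) (hK' : 1 ≤ K') (hK'N : K' ≤ R.N ^ (σ / 4)) (hcc : |c' - c| ≤ σ / 4)
    (res : Measure (R.L × ℝ)) (Q : R.Lab) (P : KbTest v) (Cn : Set (R.L × ℝ)) (h : K4dTimeCand R res K' c' Q P Cn) :
    Cn ⊆ (k4dTime R c σ smax).Cnt Q P ∧ (k4dTime R c σ smax).θ Q ≤ res Cn := by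
  have hN1 : 1 ≤ R.N := by linarith [hR.N_ge]
  have hN0 : 0 < R.N := by linarith
  have hσ : 0 ≤ σ := by linarith [abs_nonneg (c' - c)]
  have hcc1 := (abs_le.1 hcc).1
  have hcc2 := (abs_le.1 hcc).2
  have hK'0 : 0 < K' := by linarith
  have hKM : K' ≤ R.N ^ σ := hK'N.trans (Real.rpow_le_rpow_of_exponent_le hN1 (by linarith))
  -- `K' a(x + c') ≤ N^σ a(x + c)`
  have key1 : ∀ x : ℝ, K' * R.a (x + c') ≤ R.N ^ σ * R.a (x + c) := by
    intro x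
    unfold K4dCtx.a
    calc K' * R.N ^ (-(x + c')) ≤ R.N ^ (σ / 4) * R.N ^ (-(x + c')) := by gcongr
      _ = R.N ^ (σ / 4 + -(x + c')) := (Real.rpow_add hN0 _ _).symm
      _ ≤ R.N ^ (σ + -(x + c)) := Real.rpow_le_rpow_of_exponent_le hN1 (by linarith)
      _ = R.N ^ σ * R.N ^ (-(x + c)) := Real.rpow_add hN0 _ _
  have key2 : ∀ z : ℝ, 0 ≤ z → z * R.a (R.dep Q + c') ≤ K' → z * R.a (R.dep Q + c) ≤ R.N ^ σ := by
    intro z hz h1
    have e : R.a (R.dep Q + c) = R.a (R.dep Q + c') * R.N ^ (c' - c) := by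
      unfold K4dCtx.a
      rw [← Real.rpow_add hN0]
      congr 1
      ring
    rw [e, ← mul_assoc]
    calc z * R.a (R.dep Q + c') * R.N ^ (c' - c) ≤ R.N ^ (σ / 4) * R.N ^ (σ / 4) := by
          refine mul_le_mul (h1.trans hK'N) (Real.rpow_le_rpow_of_exponent_le hN1 hcc2) (Real.rpow_nonneg hN0.le _) (Real.rpow_nonneg hN0.le _)
      _ = R.N ^ (σ / 4 + σ / 4) := (Real.rpow_add hN0 _ _).symm
      _ ≤ R.N ^ σ := Real.rpow_le_rpow_of_exponent_le hN1 (by linarith)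
  constructor
  · intro p hp
    have hinc := h.sub hp
    have hlo : 1 ≤ R.N ^ σ * |R.ev (kbDw P) p.1 p.2| := (h.dw_lo p hp).trans (by gcongr)
    refine ⟨⟨⟨h.adm, fun t y w => key2 _ (abs_nonneg _) (h.dww t y w), hinc.1⟩, fun t ht => ⟨(h.val p hp t ht).trans (key1 _), (h.dw p hp t ht).trans hKM⟩, p.2, hinc.2, ?_⟩, hinc.2, hlo⟩
    rw [mul_assoc]
    linarith
  · have hq : 0 < R.q Q := by unfold K4dCtx.q kbQ; positivity
    have key3 : K' * (R.q Q * R.a (R.d * c + σ)) ≤ R.q Q * R.a (R.d * c') := by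
      have hd : R.d * (c' - c) ≤ σ / 4 := by
        have h1 : R.d * (c' - c) ≤ R.d * (σ / 4) := mul_le_mul_of_nonneg_left hcc2 hR.d_nonneg
        have h2 : R.d * (σ / 4) ≤ 1 * (σ / 4) := mul_le_mul_of_nonneg_right hR.d_le (by linarith)
        linarith
      have : K' * R.a (R.d * c + σ) ≤ R.a (R.d * c') := by
        unfold K4dCtx.a
        calc K' * R.N ^ (-(R.d * c + σ)) ≤ R.N ^ (σ / 4) * R.N ^ (-(R.d * c + σ)) := by gcongr
          _ = R.N ^ (σ / 4 + -(R.d * c + σ)) := (Real.rpow_add hN0 _ _).symm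
          _ ≤ R.N ^ (-(R.d * c')) := Real.rpow_le_rpow_of_exponent_le hN1 (by nlinarith)
      calc K' * (R.q Q * R.a (R.d * c + σ)) = R.q Q * (K' * R.a (R.d * c + σ)) := by ring
        _ ≤ _ := by gcongr
    have h1 : ENNReal.ofReal K' * (ENNReal.ofReal (R.q Q * R.a (R.d * c + σ)) * R.νQ Q) ≤ ENNReal.ofReal K' * res Cn := by
      rw [← mul_assoc, ← ENNReal.ofReal_mul hK'0.le]
      refine le_trans ?_ h.mass
      gcongr
    exact (ENNReal.mul_le_mul_iff_right (by simpa using hK'0) ENNReal.ofReal_ne_top).1 h1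

/-- **a strip candidate is eligible for every nearby scenario.** -/
theorem k4d_strip_elig {R : K4dCtx KbVer.two} {K K' c c' σ smax : ℝ} (hR : R.Ok K) (hK' : 1 ≤ K') (hK'N : K' ≤ R.N ^ (σ / 4)) (hcc : |c' - c| ≤ σ / 4)
    (res : Measure (R.L × ℝ)) (Q : R.Lab) (ρ : Fin 2 → ℝ) (Cn : Set (R.L × ℝ)) (h : K4dStripCand R res K' c' Q ρ Cn) :
    Cn ⊆ (k4dStrip R c σ smax).Cnt Q ρ ∧ (k4dStrip R c σ smax).θ Q ≤ res Cn := by
  have hN1 : 1 ≤ R.N := by linarith [hR.N_ge]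
  have hN0 : 0 < R.N := by linarith
  have hσ : 0 ≤ σ := by linarith [abs_nonneg (c' - c)]
  have hcc1 := (abs_le.1 hcc).1
  have hcc2 := (abs_le.1 hcc).2
  have hK'0 : 0 < K' := by linarith
  have key1 : ∀ x : ℝ, K' * R.a (x + c') ≤ R.N ^ σ * R.a (x + c) := by
    intro x
    unfold K4dCtx.a
    calc K' * R.N ^ (-(x + c')) ≤ R.N ^ (σ / 4) * R.N ^ (-(x + c')) := by gcongr
      _ = R.N ^ (σ / 4 + -(x + c')) := (Real.rpow_add hN0 _ _).symm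
      _ ≤ R.N ^ (σ + -(x + c)) := Real.rpow_le_rpow_of_exponent_le hN1 (by linarith)
      _ = R.N ^ σ * R.N ^ (-(x + c)) := Real.rpow_add hN0 _ _
  constructor
  · intro p hp
    have hinc := h.sub hp
    exact ⟨⟨hinc.1, (h.row p hp).trans (key1 _)⟩, hinc.2⟩
  · have hq : 0 < R.q Q := by unfold K4dCtx.q kbQ; positivity
    have key3 : K' * (R.q Q * R.a σ) ≤ R.q Q := by
      have : K' * R.a σ ≤ 1 := by
        unfold K4dCtx.a
        calc K' * R.N ^ (-σ) ≤ R.N ^ (σ / 4) * R.N ^ (-σ) := by gcongr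
          _ = R.N ^ (σ / 4 + -σ) := (Real.rpow_add hN0 _ _).symm
          _ ≤ R.N ^ (0 : ℝ) := Real.rpow_le_rpow_of_exponent_le hN1 (by linarith)
          _ = 1 := Real.rpow_zero _
      calc K' * (R.q Q * R.a σ) = R.q Q * (K' * R.a σ) := by ring
        _ ≤ R.q Q * 1 := by gcongr
        _ = R.q Q := mul_one _
    have h1 : ENNReal.ofReal K' * (ENNReal.ofReal (R.q Q * R.a σ) * R.νQ Q) ≤ ENNReal.ofReal K' * res Cn := by
      rw [← mul_assoc, ← ENNReal.ofReal_mul hK'0.le]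
      refine le_trans ?_ h.mass
      gcongr
    exact (ENNReal.mul_le_mul_iff_right (by simpa using hK'0) ENNReal.ofReal_ne_top).1 h1

/-- ENNReal cancellation common to both counts -/
theorem k4d_count_aux45 {R : K4dCtx v} {K : ℝ} (hR : R.Ok K) (x : ℝ) (Q : R.Lab) (hν : R.νQ Q ≠ 0) (k : ℕ)
    (h : (k : ℝ≥0∞) * (ENNReal.ofReal (R.q Q * R.a x) * R.νQ Q) ≤ ENNReal.ofReal (K * R.q Q) * R.νQ Q) : (k : ℝ) ≤ K * R.N ^ x := by
  have hN0 : 0 < R.N := by linarith [hR.N_ge]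
  have hq : 0 < R.q Q := by unfold K4dCtx.q kbQ; positivity
  have ha : 0 < R.a x := Real.rpow_pos_of_pos hN0 _
  have hK : 0 ≤ K := by linarith [hR.K_ge]
  have hνt : R.νQ Q ≠ ∞ := ne_top_of_le_ne_top ENNReal.one_ne_top ((measure_mono (Set.subset_univ _)).trans hR.mass_le)
  rw [← mul_assoc] at h
  have h1 := (ENNReal.mul_le_mul_iff_left hν hνt).1 h
  rw [← ENNReal.ofReal_natCast, ← ENNReal.ofReal_mul (Nat.cast_nonneg _)] at h1
  have h2 := (ENNReal.ofReal_le_ofReal_iff (mul_nonneg hK hq.le)).1 h1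
  have h3 : (k : ℝ) * R.a x ≤ K := by
    have : ((k : ℝ) * R.a x) * R.q Q ≤ K * R.q Q := by nlinarith
    exact le_of_mul_le_mul_right this hq
  have e : R.a x * R.N ^ x = 1 := by
    unfold K4dCtx.a
    rw [← Real.rpow_add hN0]
    simp
  calc (k : ℝ) = (k : ℝ) * R.a x * R.N ^ x := by rw [mul_assoc, e, mul_one]
    _ ≤ K * R.N ^ x := by gcongr

/-- rational gains and slacks: `0 < σ ≤ κ c`, `|c - c_*| < σ / 8` -/
theorem k4d_menu_pick (cs κ : ℝ) (hcs : 0 < cs) (hκ : 0 < κ) : ∃ c σ : ℚ, 0 < (σ : ℝ) ∧ (σ : ℝ) ≤ κ * c ∧ |(c : ℝ) - cs| < σ / 8 := by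
  obtain ⟨σ, hσ0, hσ1⟩ := exists_rat_btwn (mul_pos hκ hcs)
  obtain ⟨c, hc0, hc1⟩ := exists_rat_btwn (show cs < cs + (σ : ℝ) / 8 by linarith)
  refine ⟨c, σ, hσ0, ?_, ?_⟩
  · have : κ * cs ≤ κ * c := mul_le_mul_of_nonneg_left hc0.le hκ.le
    linarith
  · rw [abs_lt]
    constructor <;> linarith

/-! ## 4. The number of choices  (leaf L-252-S4D-COUNT) -/

/-! ## 4. The number of choices  (leaf L-252-S4D-COUNT) -/

theorem k4d_time_count {R : K4dCtx v} {K : ℝ} (hR : R.Ok K) (c σ smax : ℝ) (X : K4dAsg (k4dTime R c σ smax)) (hX : X.Max K)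
    (Q : R.Lab) (hQ : Q ∈ k4dAct R smax) : (X.k Q : ℝ) ≤ K * R.N ^ (R.d * c + σ) := by
  exact k4d_count_aux45 hR (R.d * c + σ) Q hQ.2 (X.k Q) (hX.count Q hQ)

theorem k4d_strip_count {R : K4dCtx KbVer.two} {K : ℝ} (hR : R.Ok K) (c σ smax : ℝ) (X : K4dAsg (k4dStrip R c σ smax)) (hX : X.Max K)
    (Q : R.Lab) (hQ : Q ∈ k4dAct R smax) : (X.k Q : ℝ) ≤ K * R.N ^ σ := by
  exact k4d_count_aux45 hR σ Q hQ.2 (X.k Q) (hX.count Q hQ)

/-! ## 5. The coverage theorems (sequence level)  (leaf L-252-S4D-COVER) -/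

/-! ## 5. The coverage theorems (sequence level)  (leaf L-252-S4D-COVER) -/

/-- the candidate hypothesis, time candidates only (version 1, `ℓ = 0`): every residual SET of prepared mass `≥ η` supplies a candidate -/
def K4dHypT (Rs : KbRes) (R : ∀ _ : ℕ, K4dCtx v) (η : ℝ≥0∞) : Prop :=
  ∀ E : ∀ n, Set ((R n).L × ℝ), (∀ n, MeasurableSet (E n)) → (∀ᶠ n in uf, η ≤ (R n).lam0 (E n)) →
    ∃ (K' c : ℕ → ℝ) (cs : ℝ) (smax : ℕ), KbSubP Rs K' ∧ 0 < cs ∧ Tendsto c uf (𝓝 cs) ∧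
      ∀ᶠ n in uf, ∃ Q : (R n).Lab, (R n).dep Q ≤ smax ∧ (R n).νQ Q ≠ 0 ∧ ∃ P Cn, K4dTimeCand (R n) ((R n).lam0.restrict (E n)) (K' n) (c n) Q P Cn

/-- the candidate hypothesis, time or strip candidates (`0 < ℓ < ∞`) -/
def K4dHyp2 (Rs : KbRes) (R : ∀ _ : ℕ, K4dCtx KbVer.two) (η : ℝ≥0∞) : Prop :=
  ∀ E : ∀ n, Set ((R n).L × ℝ), (∀ n, MeasurableSet (E n)) → (∀ᶠ n in uf, η ≤ (R n).lam0 (E n)) →
    ∃ (K' c : ℕ → ℝ) (cs : ℝ) (smax : ℕ), KbSubP Rs K' ∧ 0 < cs ∧ Tendsto c uf (𝓝 cs) ∧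
      ∀ᶠ n in uf, ∃ Q : (R n).Lab, (R n).dep Q ≤ smax ∧ (R n).νQ Q ≠ 0 ∧
        ((∃ P Cn, K4dTimeCand (R n) ((R n).lam0.restrict (E n)) (K' n) (c n) Q P Cn) ∨ ∃ ρ Cn, K4dStripCand (R n) ((R n).lam0.restrict (E n)) (K' n) (c n) Q ρ Cn)

/-- the menu of scenarios: `(smax, c, σ)` with `0 < σ ≤ κ c` -/
abbrev k4dMenu (κ : ℝ) : Type := {x : ℕ × ℚ × ℚ // 0 < (x.2.2 : ℝ) ∧ (x.2.2 : ℝ) ≤ κ * x.2.1}

/-- the choice of the menu item for a candidate sequence -/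
theorem k4d_cover_pick (Rs : KbRes) (κ : ℝ) (hκ : 0 < κ) (K' c : ℕ → ℝ) (cs : ℝ) (hK' : KbSubP Rs K') (hcs : 0 < cs)
    (hc : Tendsto c uf (𝓝 cs)) : ∃ c₀ σ : ℚ, 0 < (σ : ℝ) ∧ (σ : ℝ) ≤ κ * c₀ ∧
      ∀ᶠ n in uf, 1 ≤ K' n ∧ K' n ≤ Rs.N n ^ ((σ : ℝ) / 4) ∧ |c n - c₀| ≤ (σ : ℝ) / 4 := by
  obtain ⟨c₀, σ, hσ, hσκ, hcc⟩ := k4d_menu_pick cs κ hcs hκ
  refine ⟨c₀, σ, hσ, hσκ, ?_⟩
  have h1 : ∀ᶠ n in uf, |c n - cs| < (σ : ℝ) / 8 := by
    have h2 := (Metric.tendsto_nhds.1 hc) ((σ : ℝ) / 8) (by positivity)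
    simpa only [Real.dist_eq] using h2
  filter_upwards [h1, hK' ((σ : ℝ) / 4) (by positivity)] with n h2 h3
  refine ⟨h3.1, h3.2, ?_⟩
  have h4 : |c n - c₀| ≤ |c n - cs| + |cs - c₀| := abs_sub_le _ _ _
  rw [abs_sub_comm cs] at h4
  linarith

/-- **coverage by one fixed time scenario.**   `κ` = the smallness condition `σ ≤ κ c` of the menu.
PLAN: `k4d_cover_abs` with `I = {x : ℕ × ℚ × ℚ // 0 < σ ∧ σ ≤ κ c}`; `hyp` from `K4dHypT`: `k4d_menu_pick` gives `(c, σ)`, eventually `|c n - c| ≤ σ/4` and `K' n ≤ N^{σ/4}` (`KbSubP`), then `k4d_time_elig`; `k4d_time_wf`. -/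
theorem k4d_cover_time (Rs : KbRes) (R : ∀ _ : ℕ, K4dCtx v) (hN : ∀ n, (R n).N = Rs.N n) (K : ℕ → ℝ)
    (hOk : ∀ᶠ n in uf, (R n).Ok (K n)) (κ : ℝ) (hκ : 0 < κ)
    (η₀ : ℝ≥0∞) (hη₀ : η₀ ≠ 0) (hη₀t : η₀ ≠ ∞) (hmass : ∀ᶠ n in uf, η₀ ≤ (R n).lam0 Set.univ) (hyp : K4dHypT Rs R (η₀ / 2))
    (X : ∀ (smax : ℕ) (c σ : ℚ) (n : ℕ), K4dAsg (k4dTime (R n) c σ smax)) (hX : ∀ smax c σ, ∀ᶠ n in uf, (X smax c σ n).Max (K n)) :
    ∃ (smax : ℕ) (c σ : ℚ) (η : ℝ≥0∞), 0 < (σ : ℝ) ∧ (σ : ℝ) ≤ κ * c ∧ η ≠ 0 ∧ ∀ᶠ n in uf, η ≤ (R n).lam0 (X smax c σ n).cov := by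
  have hyp' : ∀ E : ∀ n, Set ((R n).L × ℝ), (∀ n, MeasurableSet (E n)) → (∀ᶠ n in uf, η₀ / 2 ≤ (R n).lam0 (E n)) →
      ∃ i : k4dMenu κ, ∀ᶠ n in uf, ∃ Q ∈ (k4dTime (R n) i.1.2.1 i.1.2.2 i.1.1).act,
        ∃ (t : (k4dTime (R n) i.1.2.1 i.1.2.2 i.1.1).ι) (Cn : Set ((R n).L × ℝ)),
          Cn ⊆ (k4dTime (R n) i.1.2.1 i.1.2.2 i.1.1).Cnt Q t ∧
            (k4dTime (R n) i.1.2.1 i.1.2.2 i.1.1).θ Q ≤ ((R n).lam0.restrict (E n)) Cn := by
    intro E hE hEm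
    obtain ⟨K', c, cs, smax, hK', hcs, hc, hev⟩ := hyp E hE hEm
    obtain ⟨c₀, σ, hσ, hσκ, hp⟩ := k4d_cover_pick Rs κ hκ K' c cs hK' hcs hc
    refine ⟨⟨(smax, c₀, σ), hσ, hσκ⟩, ?_⟩
    filter_upwards [hOk, hp, hev] with n hR h1 h2
    obtain ⟨Q, hQ1, hQ2, P, Cn, hcand⟩ := h2
    have h3 := k4d_time_elig (c := c₀) (σ := σ) (smax := smax) hR h1.1 (by rw [hN]; exact h1.2.1) h1.2.2 _ Q P Cn hcand
    exact ⟨Q, ⟨hQ1, hQ2⟩, P, Cn, h3.1, h3.2⟩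
  obtain ⟨i, η, hη, hc⟩ := k4d_cover_abs (I := k4dMenu κ) R K (fun i n => k4dTime (R n) i.1.2.1 i.1.2.2 i.1.1)
    (hOk.mono fun n hR i => k4d_time_wf hR _ _ _) (fun i n => X i.1.1 i.1.2.1 i.1.2.2 n) (fun i => hX _ _ _)
    η₀ hη₀ hη₀t hmass hyp'
  exact ⟨i.1.1, i.1.2.1, i.1.2.2, η, i.2.1, i.2.2, hη, hc⟩

/-- the double menu: time scenarios and strip scenarios -/
def k4dFam2 (R : K4dCtx KbVer.two) (κ : ℝ) : k4dMenu κ ⊕ k4dMenu κ → K4dFam R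
  | .inl i => k4dTime R i.1.2.1 i.1.2.2 i.1.1
  | .inr i => k4dStrip R i.1.2.1 i.1.2.2 i.1.1

/-- the assignments of the double menu -/
def k4dAsg2 (R : ∀ _ : ℕ, K4dCtx KbVer.two) (κ : ℝ) (X : ∀ (smax : ℕ) (c σ : ℚ) (n : ℕ), K4dAsg (k4dTime (R n) c σ smax))
    (X' : ∀ (smax : ℕ) (c σ : ℚ) (n : ℕ), K4dAsg (k4dStrip (R n) c σ smax)) :
    ∀ (i : k4dMenu κ ⊕ k4dMenu κ) (n : ℕ), K4dAsg (k4dFam2 (R n) κ i)
  | .inl i, n => X i.1.1 i.1.2.1 i.1.2.2 n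
  | .inr i, n => X' i.1.1 i.1.2.1 i.1.2.2 n

/-- **coverage by one fixed time or strip scenario.**   PLAN: the same with the menu `I ⊕ I`. -/
theorem k4d_cover_two (Rs : KbRes) (R : ∀ _ : ℕ, K4dCtx KbVer.two) (hN : ∀ n, (R n).N = Rs.N n) (K : ℕ → ℝ)
    (hOk : ∀ᶠ n in uf, (R n).Ok (K n)) (κ : ℝ) (hκ : 0 < κ)
    (η₀ : ℝ≥0∞) (hη₀ : η₀ ≠ 0) (hη₀t : η₀ ≠ ∞) (hmass : ∀ᶠ n in uf, η₀ ≤ (R n).lam0 Set.univ) (hyp : K4dHyp2 Rs R (η₀ / 2))
    (X : ∀ (smax : ℕ) (c σ : ℚ) (n : ℕ), K4dAsg (k4dTime (R n) c σ smax)) (hX : ∀ smax c σ, ∀ᶠ n in uf, (X smax c σ n).Max (K n))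
    (X' : ∀ (smax : ℕ) (c σ : ℚ) (n : ℕ), K4dAsg (k4dStrip (R n) c σ smax)) (hX' : ∀ smax c σ, ∀ᶠ n in uf, (X' smax c σ n).Max (K n)) :
    ∃ (smax : ℕ) (c σ : ℚ) (η : ℝ≥0∞), 0 < (σ : ℝ) ∧ (σ : ℝ) ≤ κ * c ∧ η ≠ 0 ∧
      ((∀ᶠ n in uf, η ≤ (R n).lam0 (X smax c σ n).cov) ∨ ∀ᶠ n in uf, η ≤ (R n).lam0 (X' smax c σ n).cov) := by
  have hyp' : ∀ E : ∀ n, Set ((R n).L × ℝ), (∀ n, MeasurableSet (E n)) → (∀ᶠ n in uf, η₀ / 2 ≤ (R n).lam0 (E n)) →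
      ∃ i : k4dMenu κ ⊕ k4dMenu κ, ∀ᶠ n in uf, ∃ Q ∈ (k4dFam2 (R n) κ i).act,
        ∃ (t : (k4dFam2 (R n) κ i).ι) (Cn : Set ((R n).L × ℝ)),
          Cn ⊆ (k4dFam2 (R n) κ i).Cnt Q t ∧ (k4dFam2 (R n) κ i).θ Q ≤ ((R n).lam0.restrict (E n)) Cn := by
    intro E hE hEm
    obtain ⟨K', c, cs, smax, hK', hcs, hc, hev⟩ := hyp E hE hEm
    obtain ⟨c₀, σ, hσ, hσκ, hp⟩ := k4d_cover_pick Rs κ hκ K' c cs hK' hcs hc
    rcases Claimed.Agent.R255.uf_em (fun n => ∃ Q : (R n).Lab, (R n).dep Q ≤ smax ∧ (R n).νQ Q ≠ 0 ∧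
        ∃ P Cn, K4dTimeCand (R n) ((R n).lam0.restrict (E n)) (K' n) (c n) Q P Cn) with hT | hT
    · refine ⟨Sum.inl ⟨(smax, c₀, σ), hσ, hσκ⟩, ?_⟩
      filter_upwards [hOk, hp, hT] with n hR h1 h2
      obtain ⟨Q, hQ1, hQ2, P, Cn, hcand⟩ := h2
      have h3 := k4d_time_elig (c := c₀) (σ := σ) (smax := smax) hR h1.1 (by rw [hN]; exact h1.2.1) h1.2.2 _ Q P Cn hcand
      exact ⟨Q, ⟨hQ1, hQ2⟩, P, Cn, h3.1, h3.2⟩
    · refine ⟨Sum.inr ⟨(smax, c₀, σ), hσ, hσκ⟩, ?_⟩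
      filter_upwards [hOk, hp, hT, hev] with n hR h1 h2 h4
      obtain ⟨Q, hQ1, hQ2, h5⟩ := h4
      rcases h5 with h5 | ⟨ρ, Cn, hcand⟩
      · exact absurd ⟨Q, hQ1, hQ2, h5⟩ h2
      · have h3 := k4d_strip_elig (c := c₀) (σ := σ) (smax := smax) hR h1.1 (by rw [hN]; exact h1.2.1) h1.2.2 _ Q ρ Cn hcand
        exact ⟨Q, ⟨hQ1, hQ2⟩, ρ, Cn, h3.1, h3.2⟩
  obtain ⟨i, η, hη, hc⟩ := k4d_cover_abs (I := k4dMenu κ ⊕ k4dMenu κ) R K (fun i n => k4dFam2 (R n) κ i)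
    (hOk.mono fun n hR i => by
      rcases i with i | i
      · exact k4d_time_wf hR _ _ _
      · exact k4d_strip_wf hR _ _ _)
    (k4dAsg2 R κ X X') (fun i => by
      rcases i with i | i
      · exact hX _ _ _
      · exact hX' _ _ _)
    η₀ hη₀ hη₀t hmass hyp'
  rcases i with i | i
  · exact ⟨i.1.1, i.1.2.1, i.1.2.2, η, i.2.1, i.2.2, hη, Or.inl hc⟩
  · exact ⟨i.1.1, i.1.2.1, i.1.2.2, η, i.2.1, i.2.2, hη, Or.inr hc⟩

/-! ## 6. One node  (leaf L-252-S4D-COUNT) -/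

/-- the coverage at the labels of one depth -/
def K4dAsg.covAt {R : K4dCtx v} {F : K4dFam R} (X : K4dAsg F) (s : ℝ) : Set (R.L × ℝ) := ⋃ Q ∈ F.act, ⋃ (_ : R.dep Q = s), X.used Q ×ˢ R.blk Q

/-- (a03:covered-fraction): one node among `G = #depths`.   PLAN: `X.cov = ⋃ s ∈ depths, X.covAt s` (`dep_mem`), `k4d_pigeon`. -/
theorem k4d_cov_node {R : K4dCtx v} {K : ℝ} (hR : R.Ok K) {F : K4dFam R} (X : K4dAsg F) (η : ℝ≥0∞) (hη : η ≠ 0) (h : η ≤ R.lam0 X.cov) :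
    ∃ s ∈ R.depths, η ≤ (R.depths.card : ℝ≥0∞) * R.lam0 (X.covAt s) := by
  have e : X.cov ⊆ ⋃ s ∈ R.depths, X.covAt s := by
    intro p hp
    obtain ⟨Q, hQ, hp⟩ := Set.mem_iUnion₂.1 hp
    exact Set.mem_iUnion₂.2 ⟨R.dep Q, hR.dep_mem Q, Set.mem_iUnion₂.2 ⟨Q, hQ, Set.mem_iUnion.2 ⟨rfl, hp⟩⟩⟩
  exact k4d_pigeon R.lam0 R.depths X.covAt η hη (h.trans (measure_mono e))

/-- the blocks of one depth: `∑ q ν_Q ≤ 1`.   PLAN: `prior (inc Q) = ν_Q q` (`Measure.prod_prod`, `kbI n i ⊆ [0,1]` by `iv_lt`); the `inc Q` of one depth are pairwise disjoint (same `lev` by `lev_dep`; different `iv`: disjoint dyadic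
intervals; same `iv`: `disj`) and measurable; `prior univ ≤ 1`. -/
theorem k4d_sum_qnu {R : K4dCtx v} {K : ℝ} (hR : R.Ok K) (s : ℝ) :
    ∑ Q ∈ Finset.univ.filter (fun Q => R.dep Q = s), ENNReal.ofReal (R.q Q) * R.νQ Q ≤ 1 := by
  classical
  have : IsFiniteMeasure R.ν := ⟨lt_of_le_of_lt hR.mass_le ENNReal.one_lt_top⟩
  have : SFinite KbPb.tm := by unfold KbPb.tm; infer_instance
  have htm : ∀ Q : R.Lab, KbPb.tm (R.blk Q) = ENNReal.ofReal (R.q Q) := by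
    intro Q
    have hq : 0 < kbQ (R.lev Q) := by unfold kbQ; positivity
    have hsub : R.blk Q ⊆ Set.Icc (0 : ℝ) 1 := by
      intro t ht
      refine ⟨le_trans (by positivity) ht.1, ht.2.le.trans ?_⟩
      have h1 : ((R.iv Q : ℝ) + 1) ≤ 2 ^ R.lev Q := by exact_mod_cast hR.iv_lt Q
      calc ((R.iv Q : ℝ) + 1) * kbQ (R.lev Q) ≤ 2 ^ R.lev Q * kbQ (R.lev Q) := by gcongr
        _ = 1 := by unfold kbQ; rw [← mul_pow]; norm_num
    unfold KbPb.tm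
    rw [Measure.restrict_apply (show MeasurableSet (R.blk Q) from measurableSet_Ico), Set.inter_eq_left.2 hsub]
    unfold K4dCtx.blk kbI K4dCtx.q
    rw [Real.volume_Ico]
    congr 1
    ring
  have hinc : ∀ Q : R.Lab, R.prior (R.inc Q) = ENNReal.ofReal (R.q Q) * R.νQ Q := by
    intro Q
    unfold K4dCtx.prior K4dCtx.inc
    rw [Measure.prod_prod, htm, mul_comm]
    rfl
  have hdisj : Set.PairwiseDisjoint (↑(Finset.univ.filter (fun Q => R.dep Q = s)) : Set R.Lab) R.inc := by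
    intro Q hQ Q' hQ' hne
    have hd : R.dep Q = R.dep Q' := by
      rw [(Finset.mem_filter.1 hQ).2, (Finset.mem_filter.1 hQ').2]
    have hl := hR.lev_dep Q Q' hd
    by_cases hi : R.iv Q = R.iv Q'
    · exact Set.Disjoint.set_prod_left (hR.disj Q Q' hd hi hne) _ _
    · refine Set.Disjoint.set_prod_right ?_ _ _
      have hq : 0 < kbQ (R.lev Q') := by unfold kbQ; positivity
      unfold K4dCtx.blk kbI
      rw [hl, Set.disjoint_left]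
      intro t ht ht'
      rcases lt_or_gt_of_ne hi with h | h
      · have h1 : ((R.iv Q : ℝ) + 1) ≤ R.iv Q' := by exact_mod_cast h
        have h2 : ((R.iv Q : ℝ) + 1) * kbQ (R.lev Q') ≤ R.iv Q' * kbQ (R.lev Q') := by gcongr
        linarith [ht.2, ht'.1]
      · have h1 : ((R.iv Q' : ℝ) + 1) ≤ R.iv Q := by exact_mod_cast h
        have h2 : ((R.iv Q' : ℝ) + 1) * kbQ (R.lev Q') ≤ R.iv Q * kbQ (R.lev Q') := by gcongr
        linarith [ht'.2, ht.1]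
  calc ∑ Q ∈ Finset.univ.filter (fun Q => R.dep Q = s), ENNReal.ofReal (R.q Q) * R.νQ Q
      = ∑ Q ∈ Finset.univ.filter (fun Q => R.dep Q = s), R.prior (R.inc Q) := Finset.sum_congr rfl fun Q _ => (hinc Q).symm
    _ = R.prior (⋃ Q ∈ Finset.univ.filter (fun Q => R.dep Q = s), R.inc Q) :=
        (measure_biUnion_finset hdisj fun Q _ => (hR.m_asg Q).prod measurableSet_Ico).symm
    _ ≤ R.prior Set.univ := measure_mono (Set.subset_univ _)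
    _ = R.ν Set.univ * KbPb.tm Set.univ := by
        unfold K4dCtx.prior
        rw [← Set.univ_prod_univ, Measure.prod_prod]
    _ ≤ 1 * 1 := by
        refine mul_le_mul' hR.mass_le ?_
        unfold KbPb.tm
        rw [Measure.restrict_apply MeasurableSet.univ, Set.univ_inter, Real.volume_Icc]
        simp
    _ = 1 := one_mul _

/-! ## 7. The excluded times of the time scenario  (leaves L-252-S4D-QUAD, EXCL) -/

/-! ## 7. The excluded times of the time scenario  (leaves L-252-S4D-QUAD, EXCL) -/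

/-- sublevel sets of a quadratic polynomial which is `≥ m` somewhere.   PLAN: `rmz_sublevel` with `d = 2`, `θ = 21 ε`, `η = ε²` : `rmzC 2 θ * η = 432 / 441 < 1`. -/
theorem k4d_quad_good_time (c0 c1 c2 t₀ q m ε : ℝ) (hq : 0 < q) (hm : 0 < m) (hε : 0 < ε) (hsup : ∃ t ∈ Set.Icc t₀ (t₀ + q), m ≤ |c0 + c1 * t + c2 * t ^ 2|) :
    volume {t : ℝ | t ∈ Set.Icc t₀ (t₀ + q) ∧ |c0 + c1 * t + c2 * t ^ 2| ≤ ε ^ 2 * m} ≤ ENNReal.ofReal (21 * ε * q) := by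
  obtain ⟨x₀, hx₀, hp₀⟩ := hsup
  have hev : ∀ t : ℝ, (Polynomial.C c2 * Polynomial.X ^ 2 + Polynomial.C c1 * Polynomial.X +
      Polynomial.C c0 : Polynomial ℝ).eval t = c0 + c1 * t + c2 * t ^ 2 := by
    intro t
    simp only [Polynomial.eval_add, Polynomial.eval_mul, Polynomial.eval_C, Polynomial.eval_pow, Polynomial.eval_X]
    ring
  have hsm : rmzC 2 (21 * ε) * ε ^ 2 < 1 := by
    unfold rmzC
    have e : (((2 : ℕ) : ℝ) + 1) * (4 * (((2 : ℕ) : ℝ) + 1) / (21 * ε)) ^ 2 * ε ^ 2 = 432 / 441 := by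
      push_cast
      field_simp
      norm_num
    rw [e]
    norm_num
  have h := rmz_sublevel 2 _ Polynomial.natDegree_quadratic_le t₀ (t₀ + q) (21 * ε) (ε ^ 2) m (by linarith)
    (by positivity) hm (by positivity) hsm x₀ hx₀ (by rw [hev]; exact hp₀)
  simp only [hev] at h
  rw [show 21 * ε * (t₀ + q - t₀) = 21 * ε * q by ring] at h
  exact h

theorem k4d_W_quad (l : KbTj v) : ∃ a0 a1 a2 : ℝ, ∀ t, kbW l t = a0 + a1 * t + a2 * t ^ 2 := by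
  cases v with
  | one =>
    refine ⟨l.2.2 (0 : Fin 3), l.2.2 (1 : Fin 3), l.2.2 (2 : Fin 3), fun t => ?_⟩
    show ∑ i : Fin 3, l.2.2 i * t ^ (i : ℕ) = _
    rw [Fin.sum_univ_three]
    simp
  | two =>
    refine ⟨l.2.2 (0 : Fin 2), l.2.2 (1 : Fin 2), 0, fun t => ?_⟩
    show ∑ i : Fin 2, l.2.2 i * t ^ (i : ℕ) = _
    rw [Fin.sum_univ_two]
    simp

/-- the hidden derivative of a quadratic test along a trajectory is a polynomial of degree `≤ 2` in `t`.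
PLAN: `T = Q.ev`: `kbDw T t y w = cw + ctw t + cyw ⬝ y + 2 cww w` (`ring`); `kbY l t = y₀ + t V`; `kbW l t = ∑ i : Fin v.e, w_i t^i`, `v.e ≤ 3` (cases on `v`, `Fin.sum_univ_succ`). -/
theorem k4d_dw_quad (T : KbTest v) (hT : KbIsQuad T) (l : KbTj v) : ∃ c0 c1 c2 : ℝ, ∀ t, kbX (kbDw T) l t = c0 + c1 * t + c2 * t ^ 2 := by
  obtain ⟨Q, hQ⟩ := hT
  obtain ⟨a0, a1, a2, ha⟩ := k4d_W_quad l
  refine ⟨Q.cw + Q.cyw ⬝ᵥ l.1 + 2 * Q.cww * a0, Q.ctw + Q.cyw ⬝ᵥ l.2.1 + 2 * Q.cww * a1, 2 * Q.cww * a2, fun t => ?_⟩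
  unfold kbX kbDw
  rw [hQ, hQ, ha]
  unfold KbQuad.ev kbY
  have e : Q.cyw ⬝ᵥ (l.1 + t • l.2.1) = Q.cyw ⬝ᵥ l.1 + t * (Q.cyw ⬝ᵥ l.2.1) := by
    rw [dotProduct_add, dotProduct_smul, smul_eq_mul]
  rw [e]
  ring

/-- the covered incidences at which the derivative of the ASSIGNED test is `≤ 1 / M'` -/
def k4dTExc (R : K4dCtx v) (c σ smax : ℝ) (X : K4dAsg (k4dTime R c σ smax)) (M' : ℝ) : Set (R.L × ℝ) :=
  ⋃ Q ∈ k4dAct R smax, ⋃ n, ⋃ (_ : n < X.k Q), {p | p.1 ∈ X.piece Q n ∧ p.2 ∈ R.blk Q ∧ M' * |R.ev (kbDw (X.T Q n)) p.1 p.2| ≤ 1}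

/-- one piece of the excluded times -/
theorem k4d_excl_piece {R : K4dCtx v} {K : ℝ} (hR : R.Ok K) (c σ smax : ℝ) (X : K4dAsg (k4dTime R c σ smax))
    (ε : ℝ) (hε : 0 < ε) (Q : R.Lab) (n : ℕ) :
    R.lam0 {p | p.1 ∈ X.piece Q n ∧ p.2 ∈ R.blk Q ∧ (2 * R.N ^ σ / ε ^ 2) * |R.ev (kbDw (X.T Q n)) p.1 p.2| ≤ 1}
      ≤ ENNReal.ofReal K * (ENNReal.ofReal (21 * ε * R.q Q) * R.ν (X.piece Q n)) := by
  have hfin : IsFiniteMeasure R.ν := ⟨lt_of_le_of_lt hR.mass_le ENNReal.one_lt_top⟩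
  have hsf : SFinite KbPb.tm := by unfold KbPb.tm; infer_instance
  have hN0 : 0 < R.N := by linarith [hR.N_ge]
  have hNσ : 0 < R.N ^ σ := Real.rpow_pos_of_pos hN0 _
  have hq : 0 < R.q Q := by unfold K4dCtx.q kbQ; positivity
  have hwf := k4d_time_wf hR c σ smax
  have hpm : MeasurableSet (X.piece Q n) := X.piece_meas hwf Q n
  have hps : X.piece Q n ⊆ k4dTLine R c (R.N ^ σ) Q (X.T Q n) := k4d_free_sub _ _ _
  by_cases hP : KbAdm (X.T Q n)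
  · have hquad : KbIsQuad (X.T Q n) := hP.1
    have hquad' : KbIsQuad (kbDw (X.T Q n)) := k4d_dw_isQuad _ hquad
    refine k4d_fibre_mass R.ν KbPb.tm R.lam0 (ENNReal.ofReal K) hR.le (X.piece Q n) hpm _ ?_ ?_ _ ?_
    · have m1 : Measurable fun p : R.L × ℝ => R.ev (kbDw (X.T Q n)) p.1 p.2 :=
        (k4d_cont_quad _ hquad').measurable.comp ((hR.m_co.comp measurable_fst).prodMk measurable_snd)
      have e : {p : R.L × ℝ | p.1 ∈ X.piece Q n ∧ p.2 ∈ R.blk Q ∧ (2 * R.N ^ σ / ε ^ 2) * |R.ev (kbDw (X.T Q n)) p.1 p.2| ≤ 1}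
          = (X.piece Q n ×ˢ R.blk Q) ∩ {p | (2 * R.N ^ σ / ε ^ 2) * |R.ev (kbDw (X.T Q n)) p.1 p.2| ≤ 1} := by
        ext p
        constructor
        · rintro ⟨h1, h2, h3⟩
          exact ⟨⟨h1, h2⟩, h3⟩
        · rintro ⟨⟨h1, h2⟩, h3⟩
          exact ⟨h1, h2, h3⟩
      rw [e]
      exact (hpm.prod measurableSet_Ico).inter (measurableSet_le (m1.abs.const_mul _) measurable_const)
    · rintro p ⟨h1, -, -⟩
      exact ⟨h1, Set.mem_univ _⟩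
    · intro l hl
      obtain ⟨-, -, t₁, ht₁, hlo⟩ := hps hl
      obtain ⟨c0, c1, c2, hc⟩ := k4d_dw_quad (X.T Q n) hquad (R.co l)
      have hev : ∀ t, R.ev (kbDw (X.T Q n)) l t = c0 + c1 * t + c2 * t ^ 2 := hc
      have hblk : R.blk Q ⊆ Set.Icc (R.t0 Q) (R.t0 Q + R.q Q) := by
        intro t ht
        refine ⟨ht.1, ?_⟩
        have h2 := ht.2.le
        unfold K4dCtx.t0 K4dCtx.q
        linarith
      have hgt := k4d_quad_good_time c0 c1 c2 (R.t0 Q) (R.q Q) (1 / (2 * R.N ^ σ)) ε hq (by positivity) hε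
        ⟨t₁, hblk ht₁, by
          rw [← hev, div_le_iff₀ (by positivity)]
          linarith⟩
      refine le_trans (Measure.restrict_le_self _) (le_trans (measure_mono ?_) hgt)
      rintro t ⟨-, h2, h3⟩
      refine ⟨hblk h2, ?_⟩
      rw [← hev]
      have h4 : (2 * R.N ^ σ / ε ^ 2) * |R.ev (kbDw (X.T Q n)) l t| ≤ 1 := h3
      have h5 : |R.ev (kbDw (X.T Q n)) l t| ≤ 1 / (2 * R.N ^ σ / ε ^ 2) := by
        rw [le_div_iff₀ (by positivity)]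
        linarith
      refine h5.trans (le_of_eq ?_)
      field_simp
  · have e : {p : R.L × ℝ | p.1 ∈ X.piece Q n ∧ p.2 ∈ R.blk Q ∧ (2 * R.N ^ σ / ε ^ 2) * |R.ev (kbDw (X.T Q n)) p.1 p.2| ≤ 1} = ∅ := by
      ext p
      simp only [Set.mem_empty_iff_false, iff_false]
      rintro ⟨h1, -, -⟩
      exact hP (hps h1).1.1
    rw [e, measure_empty]
    exact bot_le

/-- one label of the excluded times -/
theorem k4d_excl_label {R : K4dCtx v} {K : ℝ} (hR : R.Ok K) (c σ smax : ℝ) (X : K4dAsg (k4dTime R c σ smax))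
    (ε : ℝ) (hε : 0 < ε) (Q : R.Lab) :
    R.lam0 (⋃ n, ⋃ (_ : n < X.k Q), {p | p.1 ∈ X.piece Q n ∧ p.2 ∈ R.blk Q ∧ (2 * R.N ^ σ / ε ^ 2) * |R.ev (kbDw (X.T Q n)) p.1 p.2| ≤ 1})
      ≤ ENNReal.ofReal (21 * K * ε) * (ENNReal.ofReal (R.q Q) * R.νQ Q) := by
  have hK0 : 0 ≤ K := le_trans zero_le_one hR.K_ge
  have hwf := k4d_time_wf hR c σ smax
  have hq : 0 < R.q Q := by unfold K4dCtx.q kbQ; positivity
  have e : (⋃ n, ⋃ (_ : n < X.k Q), {p : R.L × ℝ | p.1 ∈ X.piece Q n ∧ p.2 ∈ R.blk Q ∧ (2 * R.N ^ σ / ε ^ 2) * |R.ev (kbDw (X.T Q n)) p.1 p.2| ≤ 1})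
      = ⋃ n ∈ Finset.range (X.k Q), {p : R.L × ℝ | p.1 ∈ X.piece Q n ∧ p.2 ∈ R.blk Q ∧ (2 * R.N ^ σ / ε ^ 2) * |R.ev (kbDw (X.T Q n)) p.1 p.2| ≤ 1} := by
    simp only [Finset.mem_range]
  rw [e]
  calc R.lam0 (⋃ n ∈ Finset.range (X.k Q), {p : R.L × ℝ | p.1 ∈ X.piece Q n ∧ p.2 ∈ R.blk Q ∧ (2 * R.N ^ σ / ε ^ 2) * |R.ev (kbDw (X.T Q n)) p.1 p.2| ≤ 1})
      ≤ ∑ n ∈ Finset.range (X.k Q), R.lam0 {p : R.L × ℝ | p.1 ∈ X.piece Q n ∧ p.2 ∈ R.blk Q ∧ (2 * R.N ^ σ / ε ^ 2) * |R.ev (kbDw (X.T Q n)) p.1 p.2| ≤ 1} :=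
        measure_biUnion_finset_le _ _
    _ ≤ ∑ n ∈ Finset.range (X.k Q), ENNReal.ofReal K * (ENNReal.ofReal (21 * ε * R.q Q) * R.ν (X.piece Q n)) :=
        Finset.sum_le_sum fun n _ => k4d_excl_piece hR c σ smax X ε hε Q n
    _ = ENNReal.ofReal K * (ENNReal.ofReal (21 * ε * R.q Q) * R.ν (X.used Q)) := by
        rw [← Finset.mul_sum, ← Finset.mul_sum]
        congr 2
        exact (k4d_used_measure (hwf.line_meas Q) (X.T Q) R.ν (X.k Q)).symm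
    _ ≤ ENNReal.ofReal K * (ENNReal.ofReal (21 * ε * R.q Q) * R.νQ Q) := by
        have : R.ν (X.used Q) ≤ R.νQ Q := measure_mono (X.used_sub hwf Q)
        gcongr
    _ = ENNReal.ofReal (21 * K * ε) * (ENNReal.ofReal (R.q Q) * R.νQ Q) := by
        rw [← mul_assoc, ← mul_assoc, ← ENNReal.ofReal_mul hK0, ← ENNReal.ofReal_mul (by positivity)]
        congr 2
        ring

/-- **the excluded times** (04 l.1339-1347).   With `ε = N^{-σ/2}` : derivative lower bound `N^{-2σ}/2` off a set of mass `≤ 21 K G N^{-σ/2}`.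
PLAN: on a line of `X.piece Q n` the derivative is a quadratic polynomial (`k4d_dw_quad`) which is `> 1/(2 N^σ)` somewhere in the block: `k4d_quad_good_time`; `k4d_fibre_mass` on every piece (`hR.le`; measurability: `k4d_cont_quad`,
`k4d_dw_isQuad`, `hR.m_co`; an empty piece if `X.T Q n` is not `KbAdm`); the pieces of one label are disjoint (`k4d_used_measure`): `≤ 21 K ε q ν_Q` per label; `k4d_sum_qnu` and `dep_mem`. -/
theorem k4d_time_excluded {R : K4dCtx v} {K : ℝ} (hR : R.Ok K) (c σ smax : ℝ) (X : K4dAsg (k4dTime R c σ smax))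
    (ε : ℝ) (hε : 0 < ε) : R.lam0 (k4dTExc R c σ smax X (2 * R.N ^ σ / ε ^ 2)) ≤ ENNReal.ofReal (21 * K * ε * R.depths.card) := by
  classical
  have hK0 : 0 ≤ K := le_trans zero_le_one hR.K_ge
  have hsub : k4dTExc R c σ smax X (2 * R.N ^ σ / ε ^ 2) ⊆ ⋃ Q ∈ (Finset.univ : Finset R.Lab),
      ⋃ n, ⋃ (_ : n < X.k Q), {p : R.L × ℝ | p.1 ∈ X.piece Q n ∧ p.2 ∈ R.blk Q ∧ (2 * R.N ^ σ / ε ^ 2) * |R.ev (kbDw (X.T Q n)) p.1 p.2| ≤ 1} := by
    intro p hp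
    obtain ⟨Q, -, hp⟩ := Set.mem_iUnion₂.1 hp
    exact Set.mem_iUnion₂.2 ⟨Q, Finset.mem_univ _, hp⟩
  calc R.lam0 (k4dTExc R c σ smax X (2 * R.N ^ σ / ε ^ 2))
      ≤ R.lam0 (⋃ Q ∈ (Finset.univ : Finset R.Lab),
          ⋃ n, ⋃ (_ : n < X.k Q), {p : R.L × ℝ | p.1 ∈ X.piece Q n ∧ p.2 ∈ R.blk Q ∧ (2 * R.N ^ σ / ε ^ 2) * |R.ev (kbDw (X.T Q n)) p.1 p.2| ≤ 1}) := measure_mono hsub
    _ ≤ ∑ Q : R.Lab, R.lam0 (⋃ n, ⋃ (_ : n < X.k Q), {p : R.L × ℝ | p.1 ∈ X.piece Q n ∧ p.2 ∈ R.blk Q ∧ (2 * R.N ^ σ / ε ^ 2) * |R.ev (kbDw (X.T Q n)) p.1 p.2| ≤ 1}) :=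
        measure_biUnion_finset_le _ _
    _ ≤ ∑ Q : R.Lab, ENNReal.ofReal (21 * K * ε) * (ENNReal.ofReal (R.q Q) * R.νQ Q) :=
        Finset.sum_le_sum fun Q _ => k4d_excl_label hR c σ smax X ε hε Q
    _ = ∑ s ∈ R.depths, ∑ Q ∈ Finset.univ.filter (fun Q => R.dep Q = s), ENNReal.ofReal (21 * K * ε) * (ENNReal.ofReal (R.q Q) * R.νQ Q) :=
        (Finset.sum_fiberwise_of_maps_to (fun Q _ => hR.dep_mem Q) _).symm
    _ ≤ ∑ _s ∈ R.depths, ENNReal.ofReal (21 * K * ε) := by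
        refine Finset.sum_le_sum fun s _ => ?_
        rw [← Finset.mul_sum]
        calc ENNReal.ofReal (21 * K * ε) * ∑ Q ∈ Finset.univ.filter (fun Q => R.dep Q = s), ENNReal.ofReal (R.q Q) * R.νQ Q
            ≤ ENNReal.ofReal (21 * K * ε) * 1 := by
              have := k4d_sum_qnu hR s
              gcongr
          _ = _ := mul_one _
    _ = ENNReal.ofReal (21 * K * ε * R.depths.card) := by
        rw [Finset.sum_const, nsmul_eq_mul, ENNReal.ofReal_mul (show 0 ≤ 21 * K * ε by positivity) (q := (R.depths.card : ℝ)), ENNReal.ofReal_natCast, mul_comm]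

/-- Stores the on-demand equation lemmas of the definitions above in THIS module (rule 6 hygiene). -/
theorem k4d_scen_eqns_cite : True := by
  have := @k4dZ.eq_1
  have := @k4dY.eq_1
  have := @k4dTLine.eq_1
  have := @k4dTCnt.eq_1
  have := @k4dSLine.eq_1
  have := @k4dAct.eq_1
  have := @k4dTime.eq_1
  have := @k4dStrip.eq_1
  have := @K4dHypT.eq_1
  have := @K4dHyp2.eq_1
  have := @k4dMenu.eq_1
  have := @k4dFam2.eq_1
  have := @k4dAsg2.eq_1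
  have := @K4dAsg.covAt.eq_1
  have := @k4dTExc.eq_1
  have := @k4dFam2.eq_2
  have := @k4dAsg2.eq_2
  trivial

end

end Claimed.Agent.R252
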