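import Claimed.Agent.R252.S4.Sam
import Claimed.Agent.R252.S4D.Scen
import Claimed.Agent.R252.S4D.Pick

/-!
# ROW 252 (S0492), unit S4D (sub-architect helper230, under helper269), file 5: THE INSTANCE `KpTan → K4dCtx`.      CONTRACT file: the `sorry`s are the leaves L-252-S4D-I*.

`X.k4d p : K4dCtx v` for `X : KpTan v` (S4/Tan, helper269):   `L := W × Lam` (discrete σ-algebra on the worlds), `ν := ∑ ω_γ δ_γ × ν_γ`, `lam0 := tot⁻¹ • (ν × dt)|_{Ev}` = THE NORMALISED PREPARED PATH `μ_prep` (mass one),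
`Lab := Σ m ≤ G, (X.Q m).C`, `dep ⟨m, c⟩ := X.dep m`.      (Same shape as `KpTan.prep` of `State/KsTan`, helper31; not imported.)
* `k4dSel P Rs` : a family of selections as ONE set;   `k4dSlice P E γ` : back.
* `k4d_tan_lam0` : `lam0 (k4dSel Rs) = tot⁻¹ * P.mass Rs`.
* `k4d_tan_ok`   : `X.Ok p τ → (X.k4d p).Ok (N^τ)`.
* `k4d_tan_hyp2`, `k4d_tan_hypT` : `KpCandHyp` gives the candidate hypotheses of `Scen.lean`.
* `k4d_tan_cover2`, `k4d_tan_coverT` (PROVED from the leaves) : THE EXIT OF THE FIRST STEP on `KpTan`: under `KpCandHyp` one fixed scenario covers a fixed fraction of `μ_prep` eventually; assignments = `k4dPick`.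
-/

set_option autoImplicit false

namespace Claimed.Agent.R252

open MeasureTheory Filter Topology
open scoped ENNReal BigOperators
open Claimed.Agent.R255 (uf)

noncomputable section

variable {v : KbVer}

/-! ## 1. The mixture  (leaf L-252-S4D-I1) -/

/-- the σ-algebra on `W × Lam` (discrete on the worlds) -/
@[reducible] def k4dMS (P : KbPb v) : MeasurableSpace (P.W × P.Lam) := @Prod.instMeasurableSpace _ _ ⊤ P.mLam

/-- the mixture of the priors -/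
def k4dNu (P : KbPb v) : @Measure (P.W × P.Lam) (k4dMS P) :=
  letI := k4dMS P
  letI : MeasurableSpace P.W := ⊤
  ∑ γ, P.om γ • (P.nu γ).map (Prod.mk γ)

/-- a family of selections as ONE set of incidences -/
def k4dSel (P : KbPb v) (Rs : P.W → Set (P.Lam × ℝ)) : Set ((P.W × P.Lam) × ℝ) := {x | (x.1.2, x.2) ∈ Rs x.1.1}

/-- the part of a set of incidences in one world -/
def k4dSlice (P : KbPb v) (E : Set ((P.W × P.Lam) × ℝ)) (γ : P.W) : Set (P.Lam × ℝ) := {x | ((γ, x.1), x.2) ∈ E}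

/-- a set of lines in one world -/
def k4dLn (P : KbPb v) (γ : P.W) (A : Set P.Lam) : Set (P.W × P.Lam) := {x | x.1 = γ ∧ x.2 ∈ A}

theorem k4d_sel_slice (P : KbPb v) (E : Set ((P.W × P.Lam) × ℝ)) : k4dSel P (k4dSlice P E) = E := rfl

theorem k4d_slice_sel (P : KbPb v) (Rs : P.W → Set (P.Lam × ℝ)) : k4dSlice P (k4dSel P Rs) = Rs := rfl

/-- PLAN: `k4dSel P Rs = ⋃ γ, ({γ} ×ˢ univ) ×ˢ univ ∩ preimage of Rs γ`, finite union; `{γ}` is measurable for `⊤`. -/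
theorem k4d_sel_meas (P : KbPb v) (Rs : P.W → Set (P.Lam × ℝ)) (h : ∀ γ, MeasurableSet (Rs γ)) :
    @MeasurableSet _ (@Prod.instMeasurableSpace _ _ (k4dMS P) inferInstance) (k4dSel P Rs) := by
  letI : MeasurableSpace P.W := ⊤
  have e : k4dSel P Rs = ⋃ γ, ((fun x : (P.W × P.Lam) × ℝ => x.1.1) ⁻¹' {γ} ∩ (fun x : (P.W × P.Lam) × ℝ => (x.1.2, x.2)) ⁻¹' Rs γ) := by
    ext x
    simp only [k4dSel, Set.mem_ofPred_eq, Set.mem_iUnion, Set.mem_inter_iff, Set.mem_preimage, Set.mem_singleton_iff]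
    constructor
    · intro hx
      exact ⟨_, rfl, hx⟩
    · rintro ⟨γ, rfl, hx⟩
      exact hx
  rw [e]
  refine MeasurableSet.iUnion fun γ => MeasurableSet.inter ?_ ?_
  · exact (measurable_fst.comp measurable_fst) (show MeasurableSet ({γ} : Set P.W) from trivial)
  · exact ((measurable_snd.comp measurable_fst).prodMk measurable_snd) (h γ)

/-- PLAN: preimage under the measurable map `x ↦ ((γ, x.1), x.2)`. -/
theorem k4d_slice_meas (P : KbPb v) (E : Set ((P.W × P.Lam) × ℝ)) (h : @MeasurableSet _ (@Prod.instMeasurableSpace _ _ (k4dMS P) inferInstance) E) (γ : P.W) :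
    MeasurableSet (k4dSlice P E γ) := by
  letI : MeasurableSpace P.W := ⊤
  have hm : Measurable fun x : P.Lam × ℝ => (((γ, x.1), x.2) : (P.W × P.Lam) × ℝ) := (measurable_const.prodMk measurable_fst).prodMk measurable_snd
  exact hm h

theorem k4d_ln_meas (P : KbPb v) (γ : P.W) (A : Set P.Lam) (h : MeasurableSet A) : @MeasurableSet _ (k4dMS P) (k4dLn P γ A) := by
  letI : MeasurableSpace P.W := ⊤
  have e : k4dLn P γ A = (Prod.fst ⁻¹' {γ}) ∩ (Prod.snd ⁻¹' A) := rfl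
  rw [e]
  exact (measurable_fst (show MeasurableSet ({γ} : Set P.W) from trivial)).inter (measurable_snd h)

/-- PLAN: `Measure.finset_sum_apply`/`Measure.coe_finset_sum`, `Measure.map_apply`; the preimage of `k4dLn P γ A` under `Prod.mk γ'` is `A` or `∅`. -/
theorem k4d_nu_ln (P : KbPb v) (γ : P.W) (A : Set P.Lam) (h : MeasurableSet A) : k4dNu P (k4dLn P γ A) = P.om γ * P.nu γ A := by
  classical
  letI : MeasurableSpace P.W := ⊤
  have hm := k4d_ln_meas P γ A h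
  unfold k4dNu
  rw [Measure.finsetSum_apply]
  rw [Finset.sum_eq_single γ]
  · rw [Measure.smul_apply, Measure.map_apply measurable_prodMk_left hm, smul_eq_mul]
    congr 2
    ext l
    simp [k4dLn]
  · intro γ' _ hne
    rw [Measure.smul_apply, Measure.map_apply measurable_prodMk_left hm, smul_eq_mul]
    have : Prod.mk γ' ⁻¹' k4dLn P γ A = ∅ := by
      ext l
      simp [k4dLn, hne]
    rw [this, measure_empty, mul_zero]
  · intro hh
    exact absurd (Finset.mem_univ _) hh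

theorem k4d_nu_univ (P : KbPb v) (hP : P.WF) : k4dNu P Set.univ = 1 := by
  letI : MeasurableSpace P.W := ⊤
  unfold k4dNu
  rw [Measure.finsetSum_apply, ← hP.om_sum]
  refine Finset.sum_congr rfl fun γ _ => ?_
  haveI := hP.prob γ
  rw [Measure.smul_apply, Measure.map_apply measurable_prodMk_left MeasurableSet.univ, smul_eq_mul, Set.preimage_univ, measure_univ, mul_one]

/-- PLAN: `Measure.prod_apply`, `lintegral_finset_sum_measure`, `lintegral_smul_measure`, `lintegral_map`, `Measure.prod_apply` backwards (the priors are probability measures). -/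
theorem k4d_prior_sel (P : KbPb v) (hP : P.WF) (Rs : P.W → Set (P.Lam × ℝ)) (h : ∀ γ, MeasurableSet (Rs γ)) :
    (@Measure.prod _ _ (k4dMS P) _ (k4dNu P) KbPb.tm) (k4dSel P Rs) = ∑ γ, P.om γ * ((P.nu γ).prod KbPb.tm) (Rs γ) := by
  letI : MeasurableSpace P.W := ⊤
  have : SFinite KbPb.tm := by unfold KbPb.tm; infer_instance
  have hm := k4d_sel_meas P Rs h
  rw [Measure.prod_apply hm]
  unfold k4dNu
  rw [lintegral_finsetSum_measure]
  refine Finset.sum_congr rfl fun γ _ => ?_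
  rw [lintegral_smul_measure, lintegral_map (measurable_measure_prodMk_left hm) measurable_prodMk_left, Measure.prod_apply (h γ), smul_eq_mul]
  rfl

/-! ## 2. The instance -/

/-! ## 2. The instance -/

/-- **the labelled prepared path of tangent data** -/
def KpTan.k4d (X : KpTan v) (p : KpPrm) : K4dCtx v where
  L := X.P.W × X.P.Lam
  mL := k4dMS X.P
  N := X.N
  d := p.d
  ell := p.ell
  co := fun x => X.P.co x.1 x.2
  ν := k4dNu X.P
  lam0 := X.P.tot⁻¹ • (@Measure.prod _ _ (k4dMS X.P) _ (k4dNu X.P) KbPb.tm).restrict (k4dSel X.P X.P.Ev)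
  Lab := Σ m : Fin (X.G + 1), (X.Q m).C
  fLab := inferInstance
  dep := fun Q => X.dep Q.1
  asg := fun Q => k4dLn X.P ((X.Q Q.1).wd Q.2) ((X.Q Q.1).A Q.2)
  lev := fun Q => (X.Q Q.1).n
  iv := fun Q => (X.Q Q.1).iv Q.2
  ch := fun Q => (X.Q Q.1).ch Q.2
  depths := (Finset.range (X.G + 1)).image X.dep

/-- **LEAF I2.**  `μ_prep` of a family of selections -/
theorem k4d_tan_lam0 (X : KpTan v) (p : KpPrm) (hP : X.P.WF) (Rs : X.P.W → Set (X.P.Lam × ℝ)) (h : ∀ γ, MeasurableSet (Rs γ)) :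
    (X.k4d p).lam0 (k4dSel X.P Rs) = X.P.tot⁻¹ * X.P.mass Rs := by
  have hm := k4d_sel_meas X.P Rs h
  change (X.P.tot⁻¹ • (@Measure.prod _ _ (k4dMS X.P) _ (k4dNu X.P) KbPb.tm).restrict (k4dSel X.P X.P.Ev)) (k4dSel X.P Rs) = _
  rw [Measure.smul_apply, Measure.restrict_apply hm, smul_eq_mul]
  congr 1
  have e : k4dSel X.P Rs ∩ k4dSel X.P X.P.Ev = k4dSel X.P (fun γ => Rs γ ∩ X.P.Ev γ) := rfl
  rw [e, k4d_prior_sel X.P hP _ (fun γ => (h γ).inter (hP.Ev_meas γ))]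
  unfold KbPb.mass KbPb.mu
  refine Finset.sum_congr rfl fun γ _ => ?_
  rw [Measure.restrict_apply (h γ)]

/-- **LEAF I2.** -/
theorem k4d_tan_tot {X : KpTan v} {p : KpPrm} {τ : ℝ} (hX : X.Ok p τ) : X.P.tot ≠ 0 ∧ X.P.tot ≤ 1 ∧ 1 ≤ ENNReal.ofReal (X.N ^ τ) * X.P.tot := by
  have h3 : 1 ≤ ENNReal.ofReal (X.N ^ τ) * X.P.tot := hX.ntv.mass
  have : SFinite KbPb.tm := by unfold KbPb.tm; infer_instance
  refine ⟨?_, ?_, h3⟩
  · intro h0
    rw [h0, mul_zero] at h3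
    exact absurd h3 (by simp)
  · unfold KbPb.tot KbPb.mass
    rw [← hX.wf.om_sum]
    refine Finset.sum_le_sum fun γ _ => ?_
    have := hX.wf.prob γ
    have h1 : X.P.mu γ Set.univ ≤ 1 := by
      unfold KbPb.mu
      refine (Measure.restrict_apply_le _ _).trans ?_
      rw [← Set.univ_prod_univ, Measure.prod_prod, measure_univ, one_mul]
      unfold KbPb.tm
      rw [Measure.restrict_apply MeasurableSet.univ, Set.univ_inter, Real.volume_Icc]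
      simp
    calc X.P.om γ * X.P.mu γ Set.univ ≤ X.P.om γ * 1 := by gcongr
      _ = X.P.om γ := mul_one _

/-- **LEAF I2.**  mass one -/
theorem k4d_tan_lam0_univ {X : KpTan v} {p : KpPrm} {τ : ℝ} (hX : X.Ok p τ) : (X.k4d p).lam0 Set.univ = 1 := by
  obtain ⟨h0, h1, -⟩ := k4d_tan_tot hX
  have e : (Set.univ : Set ((X.P.W × X.P.Lam) × ℝ)) = k4dSel X.P (fun _ => Set.univ) := rfl
  change (X.k4d p).lam0 (Set.univ : Set ((X.P.W × X.P.Lam) × ℝ)) = 1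
  rw [e, k4d_tan_lam0 X p hX.wf _ (fun _ => MeasurableSet.univ)]
  exact ENNReal.inv_mul_cancel h0 (ne_top_of_le_ne_top ENNReal.one_ne_top h1)

/-- the depths of the nodes are strictly increasing, hence injective on `[0, G]` -/
theorem k4d_dep_inj45 {X : KpTan v} {p : KpPrm} {τ : ℝ} (hX : X.Ok p τ) (m m' : ℕ) (hm : m ≤ X.G) (hm' : m' ≤ X.G) (h : X.dep m = X.dep m') : m = m' := by
  have hlt : ∀ a b : ℕ, a < b → b ≤ X.G → X.dep a < X.dep b := by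
    intro a b hab
    induction b, hab using Nat.le_induction with
    | base => exact fun hb => (hX.dep_step a hb).1
    | succ b hab ih => exact fun hb => (ih (by omega)).trans (hX.dep_step b hb).1
  rcases lt_trichotomy m m' with h1 | h1 | h1
  · exact absurd h (hlt m m' h1 hm').ne
  · exact h1
  · exact absurd h.symm (hlt m' m h1 hm).ne

/-- **LEAF I3.**  PLAN: `le`: `tot⁻¹ ≤ ofReal (N^τ)` (`k4d_tan_tot`), `Measure.restrict_le_self`;  `lev_dep`, `disj`: `X.dep` is strictly increasing on `[0, G]` (`dep_step`), so equal depths = equal nodes; `(X.Q m).WF.A_disj`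
(different worlds: `k4dLn` disjoint);  `m_co`: measurable on each `{γ} × Lam`. -/
theorem k4d_tan_ok {X : KpTan v} {p : KpPrm} {τ : ℝ} (hp : p.Ok) (hτ : 0 < τ) (hX : X.Ok p τ) : (X.k4d p).Ok (X.N ^ τ) := by
  have hN1 : 1 ≤ X.N := by linarith [hX.N_two]
  obtain ⟨t0, t1, t2⟩ := k4d_tan_tot hX
  have hmono := k4d_dep_inj45 hX
  refine ⟨hX.N_two, Real.one_le_rpow hN1 hτ.le, hp.d_nonneg, hp.d_lt.le, (k4d_nu_univ X.P hX.wf).le, ?_, ?_, ?_, ?_, ?_, ?_, ?_⟩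
  · -- m_co
    letI : MeasurableSpace X.P.W := ⊤
    haveI : MeasurableSingletonClass X.P.W := ⟨fun _ => trivial⟩
    exact measurable_from_prod_countable_right fun γ => hX.wf.co_meas γ
  · intro Q
    exact k4d_ln_meas X.P _ _ ((hX.sys_wf Q.1 (Nat.lt_succ_iff.1 Q.1.2)).A_meas Q.2)
  · -- le
    have hinv : X.P.tot⁻¹ ≤ ENNReal.ofReal (X.N ^ τ) := by
      calc X.P.tot⁻¹ = X.P.tot⁻¹ * 1 := (mul_one _).symm
        _ ≤ X.P.tot⁻¹ * (ENNReal.ofReal (X.N ^ τ) * X.P.tot) := by gcongr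
        _ = ENNReal.ofReal (X.N ^ τ) * (X.P.tot⁻¹ * X.P.tot) := by ring
        _ = ENNReal.ofReal (X.N ^ τ) := by rw [ENNReal.inv_mul_cancel t0 (ne_top_of_le_ne_top ENNReal.one_ne_top t1), mul_one]
    change (X.P.tot⁻¹ • (@Measure.prod _ _ (k4dMS X.P) _ (k4dNu X.P) KbPb.tm).restrict (k4dSel X.P X.P.Ev)) ≤ (ENNReal.ofReal (X.N ^ τ) • (@Measure.prod _ _ (k4dMS X.P) _ (k4dNu X.P) KbPb.tm))
    intro s
    rw [Measure.smul_apply, Measure.smul_apply, smul_eq_mul, smul_eq_mul]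
    exact mul_le_mul' hinv (Measure.restrict_apply_le _ _)
  · intro Q
    exact Finset.mem_image.2 ⟨Q.1, Finset.mem_range.2 Q.1.2, rfl⟩
  · rintro ⟨m, c⟩ ⟨m', c'⟩ hd
    have : (m : ℕ) = m' := hmono m m' (Nat.lt_succ_iff.1 m.2) (Nat.lt_succ_iff.1 m'.2) hd
    change (X.Q m).n = (X.Q m').n
    rw [this]
  · intro Q
    exact (hX.sys_wf Q.1 (Nat.lt_succ_iff.1 Q.1.2)).iv_lt Q.2
  · rintro ⟨m, c⟩ ⟨m', c'⟩ hd hi hne
    have hmm : m = m' := Fin.ext (hmono m m' (Nat.lt_succ_iff.1 m.2) (Nat.lt_succ_iff.1 m'.2) hd)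
    subst hmm
    have hcc : c ≠ c' := fun h => hne (by rw [h])
    rw [Set.disjoint_left]
    rintro x ⟨h1, h2⟩ ⟨h1', h2'⟩
    exact Set.disjoint_left.1 ((hX.sys_wf m (Nat.lt_succ_iff.1 m.2)).A_disj c c' hcc (h1.symm.trans h1') hi) h2 h2'

/-! ## 3. The candidate hypothesis  (leaves L-252-S4D-I4, I5) -/

/-! ## 3. The candidate hypothesis  (leaves L-252-S4D-I4, I5) -/

/-- the residual law of a set of incidences in ONE world -/
theorem k4d_tan_one45 (X : KpTan v) (p : KpPrm) (hP : X.P.WF) (Rs : X.P.W → Set (X.P.Lam × ℝ)) (γ₀ : X.P.W) (S : Set (X.P.Lam × ℝ)) (hS : MeasurableSet S) (hsub : S ⊆ Rs γ₀) :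
    ((X.k4d p).lam0.restrict (k4dSel X.P Rs)) (k4dSel X.P fun γ => {x | γ = γ₀ ∧ x ∈ S}) = X.P.tot⁻¹ * (X.P.om γ₀ * X.P.mu γ₀ S) := by
  classical
  have hm : ∀ γ, MeasurableSet ({x | γ = γ₀ ∧ x ∈ S} : Set (X.P.Lam × ℝ)) := by
    intro γ
    by_cases h : γ = γ₀
    · simpa [h] using hS
    · simp [h]
  have hM := k4d_sel_meas X.P _ hm
  have e1 : ((X.k4d p).lam0.restrict (k4dSel X.P Rs)) (k4dSel X.P fun γ => {x | γ = γ₀ ∧ x ∈ S})
      = (X.k4d p).lam0 ((k4dSel X.P fun γ => {x | γ = γ₀ ∧ x ∈ S}) ∩ k4dSel X.P Rs) := Measure.restrict_apply hM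
  have e2 : (k4dSel X.P fun γ => {x | γ = γ₀ ∧ x ∈ S}) ∩ k4dSel X.P Rs = k4dSel X.P fun γ => {x | γ = γ₀ ∧ x ∈ S} := by
    refine Set.inter_eq_left.2 ?_
    rintro ⟨⟨γ, l⟩, s⟩ ⟨h1, h2⟩
    change γ = γ₀ at h1
    subst h1
    exact hsub h2
  have e3 : (X.k4d p).lam0 ((k4dSel X.P fun γ => {x | γ = γ₀ ∧ x ∈ S}) ∩ k4dSel X.P Rs) = (X.k4d p).lam0 (k4dSel X.P fun γ => {x | γ = γ₀ ∧ x ∈ S}) :=
    congrArg (X.k4d p).lam0 e2
  rw [e1, e3, k4d_tan_lam0 X p hP _ hm]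
  congr 1
  unfold KbPb.mass
  rw [Finset.sum_eq_single γ₀]
  · simp
  · intro γ _ hne
    simp [hne]
  · intro hh
    exact absurd (Finset.mem_univ _) hh

/-- **LEAF I4**, one scale: a time candidate of `X` in the residual `Rs` is a `K4dTimeCand` for the law `lam0.restrict (k4dSel Rs)`.
PLAN: `Cn := k4dSel` of (`S'` in the world of `c`, `∅` elsewhere); `a (dep + g) = X.a m * N^{-g}`; mass: `ν_Q = ω ν_c` (`k4d_nu_ln`), `(lam0.restrict E) Cn = tot⁻¹ ω mu S'` (`k4d_tan_lam0`), `tot ≤ 1`. -/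
theorem k4d_tan_time {X : KpTan v} {p : KpPrm} {τ : ℝ} (hX : X.Ok p τ) (Rs : X.P.W → Set (X.P.Lam × ℝ)) (hRs : X.Res Rs) (m : Fin (X.G + 1)) (c : (X.Q m).C) (g K : ℝ) (hK : 0 ≤ K)
    (h : X.TimeCand p Rs m c g K) : ∃ P Cn, K4dTimeCand (X.k4d p) ((X.k4d p).lam0.restrict (k4dSel X.P Rs)) K g ⟨m, c⟩ P Cn := by
  obtain ⟨T, A', S', hT, hA'm, hA's, hS'm, hS's, hval, hdw, hdww, hlo, hmass⟩ := h
  have hN0 : 0 < X.N := by linarith [hX.N_two]
  obtain ⟨t0, t1, -⟩ := k4d_tan_tot hX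
  have hm : (m : ℕ) ≤ X.G := Nat.lt_succ_iff.1 m.2
  have ha : (X.k4d p).a ((X.k4d p).dep ⟨m, c⟩ + g) = X.a m * X.N ^ (-g) := by
    change X.N ^ (-(X.dep m + g)) = X.N ^ (-X.dep m) * X.N ^ (-g)
    rw [neg_add, Real.rpow_add hN0]
  refine ⟨T, k4dSel X.P (fun γ => {x | γ = (X.Q m).wd c ∧ x ∈ S'}), ⟨hT, ?_, ?_, ?_, ?_, ?_, ?_⟩⟩
  · rintro ⟨⟨γ, l⟩, s⟩ ⟨h1, h2⟩
    exact ⟨⟨h1, hA's (hS's h2).2.1⟩, (hS's h2).2.2⟩
  · rintro ⟨⟨γ, l⟩, s⟩ ⟨h1, h2⟩ t ht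
    rw [ha]
    change γ = (X.Q m).wd c at h1
    subst h1
    exact hval l (hS's h2).2.1 t ht
  · rintro ⟨⟨γ, l⟩, s⟩ ⟨h1, h2⟩ t ht
    change γ = (X.Q m).wd c at h1
    subst h1
    exact hdw l (hS's h2).2.1 t ht
  · intro t y w
    rw [ha]
    exact hdww t y w
  · rintro ⟨⟨γ, l⟩, s⟩ ⟨h1, h2⟩
    change γ = (X.Q m).wd c at h1
    subst h1
    exact hlo _ h2
  · rw [k4d_tan_one45 X p hX.wf Rs _ S' hS'm (fun x hx => (hS's hx).1)]
    have hν : (X.k4d p).νQ ⟨m, c⟩ = X.P.om ((X.Q m).wd c) * (X.Q m).nuC c := k4d_nu_ln X.P _ _ ((hX.sys_wf m hm).A_meas c)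
    have hq : (X.k4d p).q ⟨m, c⟩ * (X.k4d p).a ((X.k4d p).d * g) = X.N ^ (-p.d * g) * (X.Q m).q := by
      change (X.Q m).q * X.N ^ (-(p.d * g)) = _
      rw [mul_comm, neg_mul]
    rw [hν, hq]
    calc ENNReal.ofReal (X.N ^ (-p.d * g) * (X.Q m).q) * (X.P.om ((X.Q m).wd c) * (X.Q m).nuC c)
        = X.P.om ((X.Q m).wd c) * (ENNReal.ofReal (X.N ^ (-p.d * g) * (X.Q m).q) * (X.Q m).nuC c) := by ring
      _ ≤ X.P.om ((X.Q m).wd c) * (ENNReal.ofReal K * X.P.mu ((X.Q m).wd c) S') := by gcongr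
      _ = ENNReal.ofReal K * (1 * (X.P.om ((X.Q m).wd c) * X.P.mu ((X.Q m).wd c) S')) := by ring
      _ ≤ ENNReal.ofReal K * (X.P.tot⁻¹ * (X.P.om ((X.Q m).wd c) * X.P.mu ((X.Q m).wd c) S')) := by
          gcongr
          exact ENNReal.one_le_inv.2 t1

/-- **LEAF I4**, one scale, strips -/
theorem k4d_tan_strip {X : KpTan KbVer.two} {p : KpPrm} {τ : ℝ} (hX : X.Ok p τ) (Rs : X.P.W → Set (X.P.Lam × ℝ)) (hRs : X.Res Rs) (m : Fin (X.G + 1)) (c : (X.Q m).C) (g K : ℝ) (hK : 0 ≤ K)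
    (h : X.StripCand p Rs m c g K) : ∃ ρ Cn, K4dStripCand (X.k4d p) ((X.k4d p).lam0.restrict (k4dSel X.P Rs)) K g ⟨m, c⟩ ρ Cn := by
  obtain ⟨r₀, r₁, A', hA'm, hA's, hrow, hmass⟩ := h
  have hN0 : 0 < X.N := by linarith [hX.N_two]
  obtain ⟨t0, t1, -⟩ := k4d_tan_tot hX
  have hm : (m : ℕ) ≤ X.G := Nat.lt_succ_iff.1 m.2
  have hSm : MeasurableSet (Rs ((X.Q m).wd c) ∩ A' ×ˢ (X.Q m).I c) := (hRs _).1.inter (hA'm.prod measurableSet_Ico)
  refine ⟨![r₀, r₁], k4dSel X.P (fun γ => {x | γ = (X.Q m).wd c ∧ x ∈ Rs ((X.Q m).wd c) ∩ A' ×ˢ (X.Q m).I c}), ⟨?_, ?_, ?_⟩⟩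
  · rintro ⟨⟨γ, l⟩, s⟩ ⟨h1, h2⟩
    exact ⟨⟨h1, hA's h2.2.1⟩, h2.2.2⟩
  · rintro ⟨⟨γ, l⟩, s⟩ ⟨h1, h2⟩
    change γ = (X.Q m).wd c at h1
    subst h1
    have h3 := hrow l h2.2.1
    have ha : (X.k4d p).a ((X.k4d p).ell * (X.k4d p).dep ⟨m, c⟩ + g) = X.N ^ (-p.ell * X.dep m - g) := by
      change X.N ^ (-(p.ell * X.dep m + g)) = _
      congr 1
      ring
    rw [ha]
    exact h3
  · rw [k4d_tan_one45 X p hX.wf Rs _ _ hSm (fun x hx => hx.1)]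
    have hν : (X.k4d p).νQ ⟨m, c⟩ = X.P.om ((X.Q m).wd c) * (X.Q m).nuC c := k4d_nu_ln X.P _ _ ((hX.sys_wf m hm).A_meas c)
    rw [hν]
    change ENNReal.ofReal (X.Q m).q * _ ≤ _
    calc ENNReal.ofReal (X.Q m).q * (X.P.om ((X.Q m).wd c) * (X.Q m).nuC c)
        = X.P.om ((X.Q m).wd c) * (ENNReal.ofReal (X.Q m).q * (X.Q m).nuC c) := by ring
      _ ≤ X.P.om ((X.Q m).wd c) * (ENNReal.ofReal K * X.P.mu ((X.Q m).wd c) (Rs ((X.Q m).wd c) ∩ A' ×ˢ (X.Q m).I c)) := by gcongr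
      _ = ENNReal.ofReal K * (1 * (X.P.om ((X.Q m).wd c) * X.P.mu ((X.Q m).wd c) (Rs ((X.Q m).wd c) ∩ A' ×ˢ (X.Q m).I c))) := by ring
      _ ≤ ENNReal.ofReal K * (X.P.tot⁻¹ * (X.P.om ((X.Q m).wd c) * X.P.mu ((X.Q m).wd c) (Rs ((X.Q m).wd c) ∩ A' ×ˢ (X.Q m).I c))) := by
          gcongr
          exact ENNReal.one_le_inv.2 t1

/-- **LEAF I4** : a candidate in a residual which is EMPTY in the worlds of weight `0` lives in a label of positive mixture mass.   PLAN: `ν_Q = ω ν_c`, `ν_c > 0` by `nu_lo`, `J > 0`; if `ω = 0` the candidate mass is `0`. -/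
theorem k4d_tan_pos {X : KpTan v} {p : KpPrm} {τ : ℝ} (hX : X.Ok p τ) (Rs : X.P.W → Set (X.P.Lam × ℝ)) (h0 : ∀ γ, X.P.om γ = 0 → Rs γ = ∅) (m : Fin (X.G + 1)) (c : (X.Q m).C) (g K : ℝ)
    (h : X.TimeCand p Rs m c g K ∨ X.StripCand p Rs m c g K) : (X.k4d p).νQ ⟨m, c⟩ ≠ 0 := by
  have hN0 : 0 < X.N := by linarith [hX.N_two]
  have hm : (m : ℕ) ≤ X.G := Nat.lt_succ_iff.1 m.2
  have hq : 0 < (X.Q m).q := by unfold KbSys.q kbQ; positivity
  have hJ : 0 < ((X.Q m).ch c).J := lt_of_lt_of_le (mul_pos (pow_pos hq _) (Real.rpow_pos_of_pos hN0 _)) (hX.J_lo m hm c)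
  have hnu : (X.Q m).nuC c ≠ 0 := by
    intro h0
    have h1 := hX.nu_lo m hm c
    rw [h0, nonpos_iff_eq_zero, ENNReal.ofReal_eq_zero, ← not_lt] at h1
    exact h1 (mul_pos (Real.rpow_pos_of_pos hN0 _) hJ)
  have hν : (X.k4d p).νQ ⟨m, c⟩ = X.P.om ((X.Q m).wd c) * (X.Q m).nuC c := k4d_nu_ln X.P _ _ ((hX.sys_wf m hm).A_meas c)
  rw [hν]
  refine mul_ne_zero (fun hom => ?_) hnu
  have hE := h0 _ hom
  rcases h with h | h
  · obtain ⟨T, A', S', hT, hA'm, hA's, hS'm, hS's, hval, hdw, hdww, hlo, hmass⟩ := h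
    have hS0 : S' = ∅ := by
      rw [Set.eq_empty_iff_forall_notMem]
      intro x hx
      have := (hS's hx).1
      rw [hE] at this
      exact this
    rw [hS0, measure_empty, mul_zero, nonpos_iff_eq_zero, mul_eq_zero] at hmass
    rcases hmass with h1 | h1
    · rw [ENNReal.ofReal_eq_zero, ← not_lt] at h1
      exact h1 (mul_pos (Real.rpow_pos_of_pos hN0 _) hq)
    · exact hnu h1
  · obtain ⟨r₀, r₁, A', hA'm, hA's, hrow, hmass⟩ := h
    rw [hE, Set.empty_inter, measure_empty, mul_zero, nonpos_iff_eq_zero, mul_eq_zero] at hmass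
    rcases hmass with h1 | h1
    · rw [ENNReal.ofReal_eq_zero, ← not_lt] at h1
      exact h1 hq
    · exact hnu h1

/-- the residual of a set of incidences: the part in the prepared path, in the worlds of positive weight -/
def k4dRs45 (P : KbPb v) (E : Set ((P.W × P.Lam) × ℝ)) : P.W → Set (P.Lam × ℝ) :=
  fun γ => {x | (P.WF ∧ P.om γ ≠ 0) ∧ x ∈ k4dSlice P E γ ∩ P.Ev γ}

theorem k4d_rs_pos45 (P : KbPb v) (E : Set ((P.W × P.Lam) × ℝ)) (γ : P.W) (hc : P.WF ∧ P.om γ ≠ 0) : k4dRs45 P E γ = k4dSlice P E γ ∩ P.Ev γ := by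
  ext x
  exact ⟨fun h => h.2, fun h => ⟨hc, h⟩⟩

theorem k4d_rs_neg45 (P : KbPb v) (E : Set ((P.W × P.Lam) × ℝ)) (γ : P.W) (hc : ¬ (P.WF ∧ P.om γ ≠ 0)) : k4dRs45 P E γ = ∅ := by
  ext x
  exact ⟨fun h => hc h.1, fun h => h.elim⟩

theorem k4d_rs_mass45 (X : KpTan v) (p : KpPrm) (hP : X.P.WF) (E : Set ((X.P.W × X.P.Lam) × ℝ))
    (hE : @MeasurableSet _ (@Prod.instMeasurableSpace _ _ (k4dMS X.P) inferInstance) E) : (X.k4d p).lam0 E = X.P.tot⁻¹ * X.P.mass (k4dRs45 X.P E) := by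
  have e : (X.k4d p).lam0 E = (X.k4d p).lam0 (k4dSel X.P (k4dSlice X.P E)) := rfl
  rw [e, k4d_tan_lam0 X p hP _ (k4d_slice_meas X.P E hE)]
  congr 1
  unfold KbPb.mass
  refine Finset.sum_congr rfl fun γ _ => ?_
  by_cases h0 : X.P.om γ = 0
  · rw [h0, zero_mul, zero_mul]
  · congr 1
    have e1 : k4dRs45 X.P E γ = k4dSlice X.P E γ ∩ X.P.Ev γ := k4d_rs_pos45 _ _ _ ⟨hP, h0⟩
    rw [e1]
    unfold KbPb.mu
    rw [Measure.restrict_apply (k4d_slice_meas X.P E hE γ), Measure.restrict_apply ((k4d_slice_meas X.P E hE γ).inter (hP.Ev_meas γ)), Set.inter_assoc, Set.inter_self]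

theorem k4d_tan_hyp_core45 {R : KbRes} {X : ℕ → KpTan v} {p : KpPrm} (hX : KpSeqOk R X p) (h : KpCandHyp R X p) (η : ℝ≥0∞) (hη : η ≠ 0)
    (E : ∀ n, Set (((X n).k4d p).L × ℝ)) (hEm : ∀ n, MeasurableSet (E n)) (hEη : ∀ᶠ n in uf, η ≤ ((X n).k4d p).lam0 (E n)) :
    ∃ (Rs : ∀ n, (X n).P.W → Set ((X n).P.Lam × ℝ)) (K' c : ℕ → ℝ) (cs : ℝ) (smax : ℕ), KbSubP R K' ∧ 0 < cs ∧ Tendsto c uf (𝓝 cs) ∧
      ∀ᶠ n in uf, (X n).Ok p 1 ∧ (X n).Res (Rs n) ∧ k4dSel (X n).P (Rs n) ⊆ E n ∧ 0 ≤ K' n ∧ ∃ (m : Fin ((X n).G + 1)) (cc : ((X n).Q m).C),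
        (X n).dep m ≤ smax ∧ ((X n).k4d p).νQ ⟨m, cc⟩ ≠ 0 ∧
        ((X n).TimeCand p (Rs n) m cc (c n) (K' n) ∨ (0 < p.ell ∧ (X n).StripCand p (Rs n) m cc (c n) (K' n))) := by
  classical
  set Rs : ∀ n, (X n).P.W → Set ((X n).P.Lam × ℝ) := fun n => k4dRs45 (X n).P (E n) with hRs
  have hRes : ∀ n, (X n).Res (Rs n) := by
    intro n γ
    by_cases hc : (X n).P.WF ∧ (X n).P.om γ ≠ 0
    · have e1 : Rs n γ = k4dSlice (X n).P (E n) γ ∩ (X n).P.Ev γ := k4d_rs_pos45 _ _ _ hc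
      rw [e1]
      exact ⟨(k4d_slice_meas (X n).P (E n) (hEm n) γ).inter (hc.1.Ev_meas γ), Set.inter_subset_right⟩
    · have e1 : Rs n γ = ∅ := k4d_rs_neg45 _ _ _ hc
      rw [e1]
      exact ⟨MeasurableSet.empty, Set.empty_subset _⟩
  have hsubE : ∀ n, k4dSel (X n).P (Rs n) ⊆ E n := by
    rintro n ⟨⟨γ, l⟩, s⟩ hx
    change (l, s) ∈ Rs n γ at hx
    by_cases hc : (X n).P.WF ∧ (X n).P.om γ ≠ 0
    · have e1 : Rs n γ = k4dSlice (X n).P (E n) γ ∩ (X n).P.Ev γ := k4d_rs_pos45 _ _ _ hc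
      rw [e1] at hx
      exact hx.1
    · have e1 : Rs n γ = ∅ := k4d_rs_neg45 _ _ _ hc
      rw [e1] at hx
      exact hx.elim
  have h0 : ∀ n γ, (X n).P.om γ = 0 → Rs n γ = ∅ := fun n γ hγ => k4d_rs_neg45 _ _ _ fun hc => hc.2 hγ
  have hOk1 := hX.2 1 one_pos
  -- substantial
  have hmin0 : min η 1 ≠ 0 := by
    intro hh
    rcases min_eq_iff.1 hh with ⟨h1, -⟩ | ⟨h1, -⟩
    · exact hη h1
    · exact one_ne_zero h1
  have hmint : min η 1 ≠ ∞ := ne_top_of_le_ne_top ENNReal.one_ne_top (min_le_right _ _)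
  have hsubst : KpSubst X Rs := by
    refine ⟨hRes, (min η 1).toReal, ENNReal.toReal_pos hmin0 hmint, ?_⟩
    filter_upwards [hOk1, hEη] with n hn hE
    obtain ⟨t0, t1, -⟩ := k4d_tan_tot hn
    have tt : (X n).P.tot ≠ ∞ := ne_top_of_le_ne_top ENNReal.one_ne_top t1
    rw [ENNReal.ofReal_toReal hmint]
    rw [k4d_rs_mass45 (X n) p hn.wf (E n) (hEm n)] at hE
    calc min η 1 * (X n).P.tot ≤ ((X n).P.tot⁻¹ * (X n).P.mass (Rs n)) * (X n).P.tot := by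
          gcongr
          exact (min_le_left _ _).trans hE
      _ = ((X n).P.tot⁻¹ * (X n).P.tot) * (X n).P.mass (Rs n) := by ring
      _ = (X n).P.mass (Rs n) := by rw [ENNReal.inv_mul_cancel t0 tt, one_mul]
  obtain ⟨D₀, c₀, C₀, K, hc₀, hK, hcand⟩ := h Rs hsubst
  -- the gains
  let Cg : ℕ → ℝ → Prop := fun n g => ∃ m ≤ (X n).G, (X n).dep m ≤ D₀ ∧ ∃ c : ((X n).Q m).C, c₀ ≤ g ∧ g ≤ C₀ ∧
    ((X n).TimeCand p (Rs n) m c g (K n) ∨ (0 < p.ell ∧ (X n).StripCand p (Rs n) m c g (K n)))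
  let g : ℕ → ℝ := fun n => if hh : ∃ g, Cg n g then hh.choose else c₀
  have hg : ∀ n, (∃ g, Cg n g) → Cg n (g n) := by
    intro n hh
    have : g n = hh.choose := dif_pos hh
    rw [this]
    exact hh.choose_spec
  have hcand' : ∀ᶠ n in uf, Cg n (g n) := by
    filter_upwards [hcand] with n hn
    obtain ⟨m, hm, hd, c, g', h1, h2, h3⟩ := hn
    exact hg n ⟨g', m, hm, hd, c, h1, h2, h3⟩
  have hbd : Claimed.Agent.R255.UBdd g := by
    refine Claimed.Agent.R255.UBdd.of_le c₀ C₀ ?_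
    filter_upwards [hcand'] with n hn
    obtain ⟨m, hm, hd, c, h1, h2, h3⟩ := hn
    exact ⟨h1, h2⟩
  have hlim := Claimed.Agent.R255.ulim_tendsto g hbd
  have hpos : c₀ ≤ Claimed.Agent.R255.ulim g := by
    refine Claimed.Agent.R255.const_le_ulim g c₀ hbd ?_
    filter_upwards [hcand'] with n hn
    obtain ⟨m, hm, hd, c, h1, h2, h3⟩ := hn
    exact h1
  refine ⟨Rs, K, g, Claimed.Agent.R255.ulim g, ⌈D₀⌉₊, hK, lt_of_lt_of_le hc₀ hpos, hlim, ?_⟩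
  filter_upwards [hOk1, hcand', hK 1 one_pos] with n hn hc hK1
  obtain ⟨m, hm, hd, c, h1, h2, h3⟩ := hc
  refine ⟨hn, hRes n, hsubE n, by linarith [hK1.1], ⟨m, Nat.lt_succ_iff.2 hm⟩, c, hd.trans (Nat.le_ceil _), ?_, h3⟩
  refine k4d_tan_pos hn (Rs n) (h0 n) ⟨m, Nat.lt_succ_iff.2 hm⟩ c (g n) (K n) ?_
  rcases h3 with h3 | ⟨-, h3⟩
  · exact Or.inl h3
  · exact Or.inr h3

/-- **LEAF I5.**  PLAN: given `E n`, put `Rs n γ := k4dSlice E γ ∩ Ev γ` if `ω_γ ≠ 0`, `∅` otherwise: `X.Res`, `mass (Rs n) = tot * lam0 (E n)` (`k4d_tan_lam0`), so `KpSubst`; `KpCandHyp` gives `D₀ c₀ C₀ K`; choose the gains `g n ∈ [c₀, C₀]`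
(`Classical.choose`, `c₀` where there is no candidate): bounded, so `Tendsto g uf (𝓝 (ulim g))` (`R255.ulim_tendsto`), `c₀ ≤ ulim g`; `smax := ⌈D₀⌉₊`; `k4d_tan_time`, `k4d_tan_strip`, `k4d_tan_pos`;
`lam0.restrict (k4dSel Rs) ≤ lam0.restrict (E n)` transports the mass floor. -/
theorem k4d_tan_hyp2 {R : KbRes} {X : ℕ → KpTan KbVer.two} {p : KpPrm} (hp : p.Ok) (hX : KpSeqOk R X p) (h : KpCandHyp R X p) (η : ℝ≥0∞) (hη : η ≠ 0) :
    K4dHyp2 R (fun n => (X n).k4d p) η := by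
  intro E hEm hEη
  obtain ⟨Rs, K', c, cs, smax, h1, h2, h3, h4⟩ := k4d_tan_hyp_core45 hX h η hη E hEm hEη
  refine ⟨K', c, cs, smax, h1, h2, h3, h4.mono ?_⟩
  rintro n ⟨hOk, hRes, hsub, hK, m, cc, hdep, hν, hc⟩
  have hle : ((X n).k4d p).lam0.restrict (k4dSel (X n).P (Rs n)) ≤ ((X n).k4d p).lam0.restrict (E n) :=
    Measure.restrict_mono (μ := ((X n).k4d p).lam0) (ν := ((X n).k4d p).lam0) hsub (le_refl ((X n).k4d p).lam0)
  refine ⟨⟨m, cc⟩, hdep, hν, ?_⟩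
  rcases hc with hc | ⟨-, hc⟩
  · obtain ⟨P, Cn, hh⟩ := k4d_tan_time hOk (Rs n) hRes m cc (c n) (K' n) hK hc
    exact Or.inl ⟨P, Cn, ⟨hh.adm, hh.sub, hh.val, hh.dw, hh.dww, hh.dw_lo, hh.mass.trans (by gcongr)⟩⟩
  · obtain ⟨ρ, Cn, hh⟩ := k4d_tan_strip hOk (Rs n) hRes m cc (c n) (K' n) hK hc
    exact Or.inr ⟨ρ, Cn, ⟨hh.sub, hh.row, hh.mass.trans (by gcongr)⟩⟩

/-- **LEAF I5**, time candidates only -/
theorem k4d_tan_hypT {R : KbRes} {X : ℕ → KpTan v} {p : KpPrm} (hp : p.Ok) (hell : p.ell = 0) (hX : KpSeqOk R X p) (h : KpCandHyp R X p) (η : ℝ≥0∞) (hη : η ≠ 0) :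
    K4dHypT R (fun n => (X n).k4d p) η := by
  intro E hEm hEη
  obtain ⟨Rs, K', c, cs, smax, h1, h2, h3, h4⟩ := k4d_tan_hyp_core45 hX h η hη E hEm hEη
  refine ⟨K', c, cs, smax, h1, h2, h3, h4.mono ?_⟩
  rintro n ⟨hOk, hRes, hsub, hK, m, cc, hdep, hν, hc⟩
  have hle : ((X n).k4d p).lam0.restrict (k4dSel (X n).P (Rs n)) ≤ ((X n).k4d p).lam0.restrict (E n) :=
    Measure.restrict_mono (μ := ((X n).k4d p).lam0) (ν := ((X n).k4d p).lam0) hsub (le_refl ((X n).k4d p).lam0)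
  refine ⟨⟨m, cc⟩, hdep, hν, ?_⟩
  rcases hc with hc | ⟨h0, -⟩
  · obtain ⟨P, Cn, hh⟩ := k4d_tan_time hOk (Rs n) hRes m cc (c n) (K' n) hK hc
    exact ⟨P, Cn, ⟨hh.adm, hh.sub, hh.val, hh.dw, hh.dww, hh.dw_lo, hh.mass.trans (by gcongr)⟩⟩
  · rw [hell] at h0
    exact absurd h0 (lt_irrefl _)

/-! ## 4. The exit of the first step -/

/-! ## 4. The exit of the first step -/

/-- **coverage by one fixed scenario on `KpTan`, version 2.**   The assignments are `k4dPick` (independent of all slacks). -/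
theorem k4d_tan_cover2 {R : KbRes} {X : ℕ → KpTan KbVer.two} {p : KpPrm} (hp : p.Ok) (hX : KpSeqOk R X p) (h : KpCandHyp R X p) (κ : ℝ) (hκ : 0 < κ) :
    ∃ (smax : ℕ) (c σ : ℚ) (η : ℝ≥0∞), 0 < (σ : ℝ) ∧ (σ : ℝ) ≤ κ * c ∧ η ≠ 0 ∧
      ((∀ᶠ n in uf, η ≤ ((X n).k4d p).lam0 (k4dPick (k4dTime ((X n).k4d p) c σ smax)).cov) ∨
        ∀ᶠ n in uf, η ≤ ((X n).k4d p).lam0 (k4dPick (k4dStrip ((X n).k4d p) c σ smax)).cov) := by
  have hOk : ∀ᶠ n in uf, ((X n).k4d p).Ok ((X n).N ^ (1 : ℝ)) := (hX.2 1 one_pos).mono fun n hn => k4d_tan_ok hp one_pos hn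
  exact k4d_cover_two R (fun n => (X n).k4d p) (fun n => hX.1 n) (fun n => (X n).N ^ (1 : ℝ)) hOk κ hκ 1 one_ne_zero ENNReal.one_ne_top
    ((hX.2 1 one_pos).mono fun n hn => (k4d_tan_lam0_univ hn).ge) (k4d_tan_hyp2 hp hX h _ (by simp))
    (fun smax c σ n => k4dPick _) (fun smax c σ => hOk.mono fun n hn => k4d_pick_max hn _ (k4d_time_wf hn _ _ _))
    (fun smax c σ n => k4dPick _) (fun smax c σ => hOk.mono fun n hn => k4d_pick_max hn _ (k4d_strip_wf hn _ _ _))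

/-- **coverage by one fixed time scenario on `KpTan`, `ℓ = 0`.** -/
theorem k4d_tan_coverT {R : KbRes} {X : ℕ → KpTan v} {p : KpPrm} (hp : p.Ok) (hell : p.ell = 0) (hX : KpSeqOk R X p) (h : KpCandHyp R X p) (κ : ℝ) (hκ : 0 < κ) :
    ∃ (smax : ℕ) (c σ : ℚ) (η : ℝ≥0∞), 0 < (σ : ℝ) ∧ (σ : ℝ) ≤ κ * c ∧ η ≠ 0 ∧
      ∀ᶠ n in uf, η ≤ ((X n).k4d p).lam0 (k4dPick (k4dTime ((X n).k4d p) c σ smax)).cov := by
  have hOk : ∀ᶠ n in uf, ((X n).k4d p).Ok ((X n).N ^ (1 : ℝ)) := (hX.2 1 one_pos).mono fun n hn => k4d_tan_ok hp one_pos hn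
  exact k4d_cover_time R (fun n => (X n).k4d p) (fun n => hX.1 n) (fun n => (X n).N ^ (1 : ℝ)) hOk κ hκ 1 one_ne_zero ENNReal.one_ne_top
    ((hX.2 1 one_pos).mono fun n hn => (k4d_tan_lam0_univ hn).ge) (k4d_tan_hypT hp hell hX h _ (by simp))
    (fun smax c σ n => k4dPick _) (fun smax c σ => hOk.mono fun n hn => k4d_pick_max hn _ (k4d_time_wf hn _ _ _))

/-- Stores the on-demand equation lemmas of the definitions above in THIS module (rule 6 hygiene). -/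
theorem k4d_inst_eqns_cite : True := by
  have := @k4dMS.eq_1
  have := @k4dNu.eq_1
  have := @k4dSel.eq_1
  have := @k4dSlice.eq_1
  have := @k4dLn.eq_1
  have := @KpTan.k4d.eq_1
  have := @k4dRs45.eq_1
  trivial

end

end Claimed.Agent.R252
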