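import Claimed.Agent.R252.S4D.Scen

/-!
# ROW 252 (S0492), unit S4D (sub-architect helper230, under helper269), file 4: CONVERSION OF STRIP COVERAGE INTO A NARROWER ATLAS, one scale, on Base.      CONTRACT file: the `sorry`s are the leaves L-252-S4D-S*.

Paper: 04-critical-paths.tex l.1351-1420.      Prefix `k4d` / `K4d`.
* s1  real-number cores: misaligned rows confine the velocity (a03:strip-velocity-saving), neighbouring bins, binned rows, the position at the block start.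
* s2  `k4d_charge` : the joint numerator ceiling charges a set of bad velocity bins per state (a03:good-joint-numerator + angular ceiling), abstract.
* s3  `K4dSD P` : the data of a conversion at ONE node `Z.Y : KbSys P` (`P : KbPb two`): chosen rows `row c n`, assigned pieces `pc c n` (`n < k c`), gain factor `g = N^{-c/4}`, retained incidences `Sel` (covered and aligned).
      `Z.tau c = (J_c / q²) g`;   output label = (old label `c`, row bin `b` at width `tau c`, bin `u` of `Y - r₁ Z` at the block START at width `q tau c`)   [the paper takes the midpoint: immaterial];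
      `Z.sys : KbSys P` : same level, world, interval, test; centre: old `Z`-centre, `Y - r₁ Z` = `u q tau + r₀ (t - t_c)`; columns `q (1, r₁)`, `q (0, tau)`.
      `k4d_sd_wf, _geo, _J, _known, _tmp, _mass` : `Z.sys` is an atlas with slack `C K^C`, determinant `J_c g`, lists from (old label, deeper label, exact base), the mass of `Sel`.
NOT formalised (not needed in the measurable model): the bound of the coefficients of the UNBINNED stored rows (l.1379-1388); rows with large slope are omitted from the output (`Z.Kr`).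
-/

set_option autoImplicit false

namespace Claimed.Agent.R252

open MeasureTheory Filter Topology
open scoped ENNReal BigOperators

noncomputable section

/-! ## s1. Real numbers  (leaf L-252-S4D-S1) -/

/-- **misaligned rows** (a03:strip-velocity-saving).   `D = R - A_deep`. -/
theorem k4d_misaligned {D0 D1 x x' e Δ K : ℝ} (hK : 1 ≤ K) (heΔ : 2 * e ≤ Δ) (hD : Δ < |D0| + |D1|) (hx : |x| ≤ K)
    (h : |D0 + D1 * x| ≤ e) (h' : |D0 + D1 * x'| ≤ e) : Δ ≤ 4 * K * |D1| ∧ |x - x'| * Δ ≤ 8 * K * e := by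
  have h0 : |D0| ≤ e + K * |D1| := by
    have e1 : D0 = (D0 + D1 * x) - D1 * x := by ring
    have h1 : |D0| ≤ |D0 + D1 * x| + |D1 * x| := by
      conv_lhs => rw [e1]
      exact abs_sub _ _
    rw [abs_mul] at h1
    have h2 : |D1| * |x| ≤ |D1| * K := mul_le_mul_of_nonneg_left hx (abs_nonneg _)
    linarith
  have hD1 : 0 ≤ |D1| := abs_nonneg _
  have h1 : Δ ≤ 4 * K * |D1| := by nlinarith
  refine ⟨h1, ?_⟩
  have h2 : |D1| * |x - x'| ≤ 2 * e := by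
    rw [← abs_mul]
    have e1 : D1 * (x - x') = (D0 + D1 * x) - (D0 + D1 * x') := by ring
    rw [e1]
    exact (abs_sub _ _).trans (by linarith)
  calc |x - x'| * Δ ≤ |x - x'| * (4 * K * |D1|) := mul_le_mul_of_nonneg_left h1 (abs_nonneg _)
    _ = 4 * K * (|D1| * |x - x'|) := by ring
    _ ≤ 4 * K * (2 * e) := mul_le_mul_of_nonneg_left h2 (by linarith)
    _ = 8 * K * e := by ring

theorem k4d_bin_near {x y τ : ℝ} (hτ : 0 < τ) (h : |x - y| ≤ τ) : |⌊x / τ⌋ - ⌊y / τ⌋| ≤ 1 := by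
  have h1 := abs_le.1 h
  have e1 : x / τ ≤ y / τ + 1 := by
    rw [div_add_one hτ.ne']
    exact div_le_div_of_nonneg_right (by linarith) hτ.le
  have e2 : y / τ ≤ x / τ + 1 := by
    rw [div_add_one hτ.ne']
    exact div_le_div_of_nonneg_right (by linarith) hτ.le
  have f1 : ⌊x / τ⌋ ≤ ⌊y / τ⌋ + 1 := by
    rw [← Int.floor_add_one]
    exact Int.floor_le_floor e1
  have f2 : ⌊y / τ⌋ ≤ ⌊x / τ⌋ + 1 := by
    rw [← Int.floor_add_one]
    exact Int.floor_le_floor e2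
  rw [abs_le]
  constructor <;> linarith

theorem k4d_bin_val {x τ : ℝ} (hτ : 0 < τ) : |x - (⌊x / τ⌋ : ℝ) * τ| ≤ τ := by
  have h1 := Int.floor_le (x / τ)
  have h2 := Int.lt_floor_add_one (x / τ)
  have e : x = x / τ * τ := by field_simp
  rw [abs_le]
  constructor
  · nlinarith
  · nlinarith

/-- the binned row on an assigned line -/
theorem k4d_row_bin {Y' x ρ0 ρ1 r0 r1 e τ K : ℝ} (h : |Y' - (ρ0 + ρ1 * x)| ≤ e) (h0 : |ρ0 - r0| ≤ τ) (h1 : |ρ1 - r1| ≤ τ) (hx : |x| ≤ K) :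
    |Y' - (r0 + r1 * x)| ≤ e + (1 + K) * τ := by
  have hτ : 0 ≤ τ := (abs_nonneg _).trans h0
  have e1 : Y' - (r0 + r1 * x) = (Y' - (ρ0 + ρ1 * x)) + (ρ0 - r0) + (ρ1 - r1) * x := by ring
  rw [e1]
  have h2 : |(ρ1 - r1) * x| ≤ τ * K := by
    rw [abs_mul]
    exact mul_le_mul h1 hx (abs_nonneg _) hτ
  have h3 := abs_add_three (Y' - (ρ0 + ρ1 * x)) (ρ0 - r0) ((ρ1 - r1) * x)
  linarith

/-- the position bin at the block start from the position at the time `t`: `U t = U0 + (t - tc) U'` -/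
theorem k4d_pos_near {U0 U' r0 t tc q w E : ℝ} (hw : 0 < w) (ht : |t - tc| ≤ q) (hU : |U' - r0| * q ≤ E * w) :
    |⌊U0 / w⌋ - ⌊(U0 + (t - tc) * U' - (t - tc) * r0) / w⌋| ≤ ⌈E⌉ + 1 := by
  set A := U0 / w with hA
  set B := (U0 + (t - tc) * U' - (t - tc) * r0) / w with hB
  have hAB : |A - B| ≤ E := by
    have e1 : A - B = -((t - tc) * (U' - r0)) / w := by
      rw [hA, hB]
      ring
    rw [e1, abs_div, abs_neg, abs_mul, abs_of_pos hw, div_le_iff₀ hw]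
    refine le_trans ?_ hU
    rw [mul_comm]
    exact mul_le_mul_of_nonneg_left ht (abs_nonneg _)
  have h1 := abs_le.1 hAB
  have hE := Int.le_ceil E
  have a1 := Int.floor_le A
  have a2 := Int.lt_floor_add_one A
  have b1 := Int.floor_le B
  have b2 := Int.lt_floor_add_one B
  rw [abs_le]
  constructor
  · have : ((⌊B⌋ : ℤ) : ℝ) < ((⌊A⌋ + 1 + ⌈E⌉ : ℤ) : ℝ) := by push_cast; linarith
    have := Int.cast_lt.1 this
    linarith
  · have : ((⌊A⌋ : ℤ) : ℝ) < ((⌊B⌋ + 1 + ⌈E⌉ : ℤ) : ℝ) := by push_cast; linarith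
    have := Int.cast_lt.1 this
    linarith

/-! ## s2. The charge  (leaf L-252-S4D-S2) -/

/-! ## s2. The charge  (leaf L-252-S4D-S2) -/

/-- **the joint numerator ceiling charges bad velocity bins.**   `s` = state (parent, end history), `vb` = velocity bin, `π` = palette, `Ref` = reference weights; off the null set `Nl` a bad incidence has its bin in `bad (s ω)`.
PLAN: `Bad ⊆ Nl ∪ ⋃ s0, ⋃ b ∈ bad s0, (s ⁻¹' {s0} ∩ vb ⁻¹' {b})`, `measure_biUnion_finset_le`; no measurability is needed. -/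
theorem k4d_charge {Ω S B : Type*} [MeasurableSpace Ω] [Fintype S] (μ : Measure Ω) (s : Ω → S) (vb : Ω → B) (π : S → B → ℝ≥0∞) (Ref : S → ℝ≥0∞) (Kc κ : ℝ≥0∞)
    (hdom : ∀ s0 b, μ (s ⁻¹' {s0} ∩ vb ⁻¹' {b}) ≤ Kc * π s0 b * Ref s0) (Bad Nl : Set Ω) (hNl : μ Nl = 0) (bad : S → Finset B)
    (hBad : ∀ ω ∈ Bad, ω ∉ Nl → vb ω ∈ bad (s ω)) (hκ : ∀ s0, ∑ b ∈ bad s0, π s0 b ≤ κ) : μ Bad ≤ Kc * κ * ∑ s0, Ref s0 := by
  classical
  have hsub : Bad ⊆ Nl ∪ ⋃ s0 ∈ (Finset.univ : Finset S), ⋃ b ∈ bad s0, (s ⁻¹' {s0} ∩ vb ⁻¹' {b}) := by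
    intro ω hω
    by_cases hN : ω ∈ Nl
    · exact Or.inl hN
    · exact Or.inr (Set.mem_iUnion₂.2 ⟨s ω, Finset.mem_univ _, Set.mem_iUnion₂.2 ⟨vb ω, hBad ω hω hN, rfl, rfl⟩⟩)
  calc μ Bad ≤ μ (Nl ∪ ⋃ s0 ∈ (Finset.univ : Finset S), ⋃ b ∈ bad s0, (s ⁻¹' {s0} ∩ vb ⁻¹' {b})) := measure_mono hsub
    _ ≤ μ Nl + μ (⋃ s0 ∈ (Finset.univ : Finset S), ⋃ b ∈ bad s0, (s ⁻¹' {s0} ∩ vb ⁻¹' {b})) := measure_union_le _ _
    _ = μ (⋃ s0 ∈ (Finset.univ : Finset S), ⋃ b ∈ bad s0, (s ⁻¹' {s0} ∩ vb ⁻¹' {b})) := by rw [hNl, zero_add]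
    _ ≤ ∑ s0, μ (⋃ b ∈ bad s0, (s ⁻¹' {s0} ∩ vb ⁻¹' {b})) := measure_biUnion_finset_le _ _
    _ ≤ ∑ s0, ∑ b ∈ bad s0, μ (s ⁻¹' {s0} ∩ vb ⁻¹' {b}) := Finset.sum_le_sum fun s0 _ => measure_biUnion_finset_le _ _
    _ ≤ ∑ s0, ∑ b ∈ bad s0, Kc * π s0 b * Ref s0 := Finset.sum_le_sum fun s0 _ => Finset.sum_le_sum fun b _ => hdom s0 b
    _ = ∑ s0, Kc * (∑ b ∈ bad s0, π s0 b) * Ref s0 := by
        refine Finset.sum_congr rfl fun s0 _ => ?_
        rw [Finset.mul_sum, Finset.sum_mul]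
    _ ≤ ∑ s0, Kc * κ * Ref s0 := Finset.sum_le_sum fun s0 _ => by gcongr; exact hκ s0
    _ = Kc * κ * ∑ s0, Ref s0 := by rw [Finset.mul_sum]

/-! ## s3. The strip atlas -/

/-! ## s3. The strip atlas -/

/-- **the data of a strip conversion at one node** (data only) -/
structure K4dSD (P : KbPb KbVer.two) where
  /-- the true labels of the node -/
  Y : KbSys P
  /-- the priority assignment: number of rows, rows, assigned pieces -/
  k : Y.C → ℕ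
  row : Y.C → ℕ → Fin 2 → ℝ
  pc : Y.C → ℕ → Set P.Lam
  /-- the gain factor `N^{-c/4}` -/
  g : ℝ
  /-- range of the bins -/
  B : ℕ
  /-- bound of the slopes of the output -/
  Kr : ℝ
  /-- the retained incidences -/
  Sel : P.W → Set (P.Lam × ℝ)

namespace K4dSD

variable {P : KbPb KbVer.two} (Z : K4dSD P)

/-- `τ = (J_s / q_s²) N^{-c/4}` -/
def tau (c : Z.Y.C) : ℝ := (Z.Y.ch c).J / Z.Y.q ^ 2 * Z.g

/-- the row bin -/
def rb (c : Z.Y.C) (ρ : Fin 2 → ℝ) : ℤ × ℤ := (⌊ρ 0 / Z.tau c⌋, ⌊ρ 1 / Z.tau c⌋)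

/-- the values `R₀^b, R₁^b` -/
def r0 (c : Z.Y.C) (b : ℤ × ℤ) : ℝ := b.1 * Z.tau c
def r1 (c : Z.Y.C) (b : ℤ × ℤ) : ℝ := b.2 * Z.tau c

/-- `Y - R₁^b Z` at the block start -/
def pos (c : Z.Y.C) (b : ℤ × ℤ) (l : P.Lam) : ℝ :=
  k4dY (kbY (P.co (Z.Y.wd c) l) (Z.Y.tc c)) - Z.r1 c b * k4dZ (kbY (P.co (Z.Y.wd c) l) (Z.Y.tc c))

/-- the position bin -/
def pb (c : Z.Y.C) (b : ℤ × ℤ) (l : P.Lam) : ℤ := ⌊Z.pos c b l / (Z.Y.q * Z.tau c)⌋

/-- raw labels -/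
abbrev Raw : Type := Z.Y.C × (ℤ × ℤ) × ℤ

/-- the admitted labels: bins in the range, bounded slope -/
def Good (x : Z.Raw) : Prop := |x.2.1.1| ≤ Z.B ∧ |x.2.1.2| ≤ Z.B ∧ |x.2.2| ≤ Z.B ∧ |Z.r1 x.1 x.2.1| ≤ Z.Kr

/-- the output labels -/
abbrev C1 : Type := {x : Z.Raw // Z.Good x}

theorem finite_C1 : Finite Z.C1 := by
  have hfin : (Set.univ ×ˢ ((Set.Icc (-(Z.B : ℤ)) Z.B ×ˢ Set.Icc (-(Z.B : ℤ)) Z.B) ×ˢ Set.Icc (-(Z.B : ℤ)) Z.B) : Set Z.Raw).Finite :=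
    Set.finite_univ.prod (((Set.finite_Icc _ _).prod (Set.finite_Icc _ _)).prod (Set.finite_Icc _ _))
  refine Set.Finite.to_subtype (hfin.subset ?_)
  rintro x ⟨h1, h2, h3, -⟩
  exact ⟨Set.mem_univ _, ⟨abs_le.1 h1, abs_le.1 h2⟩, abs_le.1 h3⟩

/-- merged assignments -/
def asg (x : Z.Raw) : Set P.Lam := {l | ∃ n, n < Z.k x.1 ∧ l ∈ Z.pc x.1 n ∧ Z.rb x.1 (Z.row x.1 n) = x.2.1 ∧ Z.pb x.1 x.2.1 l = x.2.2}

/-- the narrower chart -/
def chart (x : Z.Raw) : KbChart KbVer.two where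
  y0 := (![k4dZ (Z.Y.ch x.1).y0,
    x.2.2 * (Z.Y.q * Z.tau x.1) - Z.r0 x.1 x.2.1 * Z.Y.tc x.1 + Z.r1 x.1 x.2.1 * k4dZ (Z.Y.ch x.1).y0] : Fin 2 → ℝ)
  y1 := (![k4dZ (Z.Y.ch x.1).y1, Z.r0 x.1 x.2.1 + Z.r1 x.1 x.2.1 * k4dZ (Z.Y.ch x.1).y1] : Fin 2 → ℝ)
  D := (!![Z.Y.q, 0; Z.Y.q * Z.r1 x.1 x.2.1, Z.Y.q * Z.tau x.1] : Matrix (Fin 2) (Fin 2) ℝ)
  Di := (!![1 / Z.Y.q, 0; -Z.r1 x.1 x.2.1 / (Z.Y.q * Z.tau x.1), 1 / (Z.Y.q * Z.tau x.1)] : Matrix (Fin 2) (Fin 2) ℝ)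
  T := (Z.Y.ch x.1).T

/-- **the strip atlas** -/
def sys : KbSys P where
  n := Z.Y.n
  C := Z.C1
  fC := @Fintype.ofFinite _ Z.finite_C1
  wd := fun x => Z.Y.wd x.1.1
  iv := fun x => Z.Y.iv x.1.1
  A := fun x => Z.asg x.1
  S := fun x => Z.Y.S x.1.1 ∩ Z.Sel (Z.Y.wd x.1.1) ∩ Z.asg x.1 ×ˢ Set.univ
  ch := fun x => Z.chart x.1

/-- the requirements, slack `K`, thickness `a` -/
structure Ok (K a : ℝ) : Prop where
  K_ge : 1 ≤ K
  wf : Z.Y.WF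
  geo : Z.Y.Geo K a
  g_pos : 0 < Z.g
  g_le : Z.g ≤ 1
  Kr_le : Z.Kr ≤ K
  co_meas : ∀ γ, Measurable (P.co γ)
  sel_meas : ∀ γ, MeasurableSet (Z.Sel γ)
  pc_meas : ∀ c n, MeasurableSet (Z.pc c n)
  pc_sub : ∀ c n, Z.pc c n ⊆ Z.Y.A c
  pc_disj : ∀ c n n', n ≠ n' → Disjoint (Z.pc c n) (Z.pc c n')
  /-- bounded major velocity -/
  vel : ∀ c, ∀ l ∈ Z.Y.A c, |k4dZ (kbV (P.co (Z.Y.wd c) l))| ≤ K
  /-- the line inequality, after the power buffer `N^σ g_s N^{-c} ≤ τ` -/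
  line : ∀ c n, n < Z.k c → ∀ l ∈ Z.pc c n, |k4dY (kbV (P.co (Z.Y.wd c) l)) - (Z.row c n 0 + Z.row c n 1 * k4dZ (kbV (P.co (Z.Y.wd c) l)))| ≤ Z.tau c

/-- every retained incidence is covered, with admitted bins -/
def Cov : Prop :=
  ∀ γ, ∀ x ∈ Z.Sel γ, ∃ c n, Z.Y.wd c = γ ∧ x ∈ Z.Y.S c ∧ n < Z.k c ∧ x.1 ∈ Z.pc c n ∧ Z.Good (c, Z.rb c (Z.row c n), Z.pb c (Z.rb c (Z.row c n)) x.1)

/-- the retained incidences are ALIGNED with the rows `Ad` of a deeper system `Yd` (a03:strip-row-alignment; `g_s N^{-c/2} ≤ τ`) -/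
def Al (Yd : KbSys P) (Ad : Yd.C → Fin 2 → ℝ) : Prop :=
  ∀ c n, n < Z.k c → ∀ x ∈ Z.Sel (Z.Y.wd c) ∩ Z.Y.S c, x.1 ∈ Z.pc c n →
    ∃ e, Yd.wd e = Z.Y.wd c ∧ x ∈ Yd.S e ∧ |Z.row c n 0 - Ad e 0| ≤ Z.tau c ∧ |Z.row c n 1 - Ad e 1| ≤ Z.tau c

end K4dSD

variable {P : KbPb KbVer.two}

/-- `τ > 0`.   PLAN: `D * Di = 1` gives `det D ≠ 0`; `kbQ n > 0`. -/
theorem k4d_sd_tau_pos (Z : K4dSD P) {K a : ℝ} (h : Z.Ok K a) (c : Z.Y.C) : 0 < Z.tau c := by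
  have hdet : (Z.Y.ch c).D.det ≠ 0 := by
    intro h0
    have h1 := congrArg Matrix.det (h.wf.inv c)
    rw [Matrix.det_mul, h0, zero_mul, Matrix.det_one] at h1
    exact zero_ne_one h1
  have hq : 0 < Z.Y.q := by unfold KbSys.q kbQ; positivity
  unfold K4dSD.tau KbChart.J
  have := abs_pos.2 hdet
  have := h.g_pos
  positivity

/-- `τ ≤ K²`.   PLAN: `|det D| ≤ (kbMn D)²` for a `2 × 2` matrix (`Matrix.det_fin_two`), `Geo.size`. -/
theorem k4d_sd_tau_le (Z : K4dSD P) {K a : ℝ} (h : Z.Ok K a) (c : Z.Y.C) : Z.tau c ≤ K ^ 2 := by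
  have hq : 0 < Z.Y.q := by unfold KbSys.q kbQ; positivity
  have hJ : (Z.Y.ch c).J ≤ (kbMn (Z.Y.ch c).D) ^ 2 := by
    unfold KbChart.J kbMn
    have e : (KbVer.two).j = 2 := rfl
    set D : Matrix (Fin 2) (Fin 2) ℝ := (Z.Y.ch c).D with hD
    change |D.det| ≤ (∑ i : Fin 2, ∑ k : Fin 2, |D i k|) ^ 2
    rw [Matrix.det_fin_two, Fin.sum_univ_two, Fin.sum_univ_two, Fin.sum_univ_two]
    have h1 := abs_sub (D 0 0 * D 1 1) (D 0 1 * D 1 0)
    rw [abs_mul, abs_mul] at h1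
    have a := abs_nonneg (D 0 0)
    have b := abs_nonneg (D 0 1)
    have c' := abs_nonneg (D 1 0)
    have d := abs_nonneg (D 1 1)
    nlinarith [mul_nonneg a b, mul_nonneg a c', mul_nonneg a d, mul_nonneg b c', mul_nonneg b d, mul_nonneg c' d]
  have hMn : 0 ≤ kbMn (Z.Y.ch c).D := by
    unfold kbMn
    exact Finset.sum_nonneg fun i _ => Finset.sum_nonneg fun k _ => abs_nonneg _
  have hJ2 : (Z.Y.ch c).J ≤ (Z.Y.q * K) ^ 2 := hJ.trans (pow_le_pow_left₀ hMn (h.geo.size c) 2)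
  have hJ0 : 0 ≤ (Z.Y.ch c).J := abs_nonneg _
  have h1 : (Z.Y.ch c).J / Z.Y.q ^ 2 ≤ K ^ 2 := by
    rw [div_le_iff₀ (by positivity)]
    calc (Z.Y.ch c).J ≤ (Z.Y.q * K) ^ 2 := hJ2
      _ = K ^ 2 * Z.Y.q ^ 2 := by ring
  unfold K4dSD.tau
  calc (Z.Y.ch c).J / Z.Y.q ^ 2 * Z.g ≤ K ^ 2 * 1 := mul_le_mul h1 h.g_le h.g_pos.le (by positivity)
    _ = K ^ 2 := mul_one _

/-- the merged assignments are measurable -/
theorem k4d_sd_asg_meas45 (Z : K4dSD P) {K a : ℝ} (h : Z.Ok K a) (x : Z.Raw) : MeasurableSet (Z.asg x) := by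
  have hY : ∀ t : ℝ, Measurable fun l => kbY (P.co (Z.Y.wd x.1) l) t := by
    intro t
    have hc : Continuous fun l : KbTj KbVer.two => kbY l t := by
      unfold kbY
      fun_prop
    exact hc.measurable.comp (h.co_meas _)
  have hpos : Measurable (Z.pos x.1 x.2.1) := by
    unfold K4dSD.pos
    exact ((measurable_pi_apply _).comp (hY _)).sub (((measurable_pi_apply _).comp (hY _)).const_mul _)
  have hpb : Measurable (Z.pb x.1 x.2.1) := by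
    unfold K4dSD.pb
    exact (hpos.div_const _).floor
  have e : Z.asg x = ⋃ n, ⋃ (_ : n < Z.k x.1), ⋃ (_ : Z.rb x.1 (Z.row x.1 n) = x.2.1), (Z.pc x.1 n ∩ Z.pb x.1 x.2.1 ⁻¹' {x.2.2}) := by
    ext l
    simp only [Set.mem_iUnion, Set.mem_inter_iff, Set.mem_preimage, Set.mem_singleton_iff, exists_prop]
    constructor
    · rintro ⟨n, h1, h2, h3, h4⟩
      exact ⟨n, h1, h3, h2, h4⟩
    · rintro ⟨n, h1, h3, h2, h4⟩
      exact ⟨n, h1, h2, h3, h4⟩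
  rw [e]
  exact MeasurableSet.iUnion fun n => MeasurableSet.iUnion fun _ => MeasurableSet.iUnion fun _ => (h.pc_meas _ _).inter (hpb (measurableSet_singleton _))

/-- **LEAF S3.**  PLAN: `A_disj`: `x ≠ x'` with the same world and interval: different old labels: `pc_sub` + `Y.WF.A_disj`; same old label, different row bins: the pieces `n ≠ n'` are disjoint; same row bin: the position bin is a function.
`A_meas`: finite union over `n < k`; `pb` is measurable (`Int.measurable_floor`/`measurableSet_eq_fun`, `co_meas`).   `inv`: `Matrix.mul_fin_two`, `field_simp` (`k4d_sd_tau_pos`). -/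
theorem k4d_sd_wf (Z : K4dSD P) {K a : ℝ} (h : Z.Ok K a) : Z.sys.WF := by
  have hq : 0 < Z.Y.q := by unfold KbSys.q kbQ; positivity
  refine ⟨fun x => h.wf.iv_lt x.1.1, fun x => k4d_sd_asg_meas45 Z h x.1, ?_, ?_, ?_, ?_, ?_, fun x => h.wf.adm x.1.1⟩
  · rintro x l ⟨n, -, hl, -⟩
    exact h.wf.A_sub _ (h.pc_sub _ _ hl)
  · rintro ⟨⟨c, b, u⟩, hG⟩ ⟨⟨c', b', u'⟩, hG'⟩ hne hw hi
    rw [Set.disjoint_left]
    rintro l ⟨n, -, hl, hb, hu⟩ ⟨n', -, hl', hb', hu'⟩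
    simp only at hl hb hu hl' hb' hu'
    by_cases hc : c = c'
    · subst hc
      have hn : n = n' := by
        by_contra hn
        exact Set.disjoint_left.1 (h.pc_disj c n n' hn) hl hl'
      subst hn
      have hbb : b = b' := hb.symm.trans hb'
      subst hbb
      have huu : u = u' := hu.symm.trans hu'
      subst huu
      exact hne rfl
    · exact Set.disjoint_left.1 (h.wf.A_disj c c' hc hw hi) (h.pc_sub _ _ hl) (h.pc_sub _ _ hl')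
  · intro x
    exact ((h.wf.S_meas x.1.1).inter (h.sel_meas _)).inter ((k4d_sd_asg_meas45 Z h x.1).prod MeasurableSet.univ)
  · rintro x p ⟨⟨h1, -⟩, h3, -⟩
    have h4 := h.wf.S_sub x.1.1 h1
    exact ⟨h4.1, h3, h4.2.2⟩
  · intro x
    have hτ := k4d_sd_tau_pos Z h x.1.1
    change (!![Z.Y.q, 0; Z.Y.q * Z.r1 x.1.1 x.1.2.1, Z.Y.q * Z.tau x.1.1] : Matrix (Fin 2) (Fin 2) ℝ) *
      (!![1 / Z.Y.q, 0; -Z.r1 x.1.1 x.1.2.1 / (Z.Y.q * Z.tau x.1.1), 1 / (Z.Y.q * Z.tau x.1.1)] : Matrix (Fin 2) (Fin 2) ℝ) = 1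
    rw [Matrix.mul_fin_two, Matrix.one_fin_two]
    have hq' := hq.ne'
    have hτ' := hτ.ne'
    congr 1
    field_simp
    simp [hq', hτ']

/-- an entry of `D z` is bounded by `kbMn D * ‖z‖` -/
theorem k4d_mulVec_le45 {m : ℕ} (D : Matrix (Fin m) (Fin m) ℝ) (z : Fin m → ℝ) (i : Fin m) : |(D.mulVec z) i| ≤ kbMn D * ‖z‖ := by
  unfold kbMn Matrix.mulVec dotProduct
  calc |∑ k, D i k * z k| ≤ ∑ k, |D i k * z k| := Finset.abs_sum_le_sum_abs _ _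
    _ ≤ ∑ k, |D i k| * ‖z‖ := by
        refine Finset.sum_le_sum fun k _ => ?_
        rw [abs_mul]
        exact mul_le_mul_of_nonneg_left (norm_le_pi_norm z k) (abs_nonneg _)
    _ = (∑ k, |D i k|) * ‖z‖ := by rw [Finset.sum_mul]
    _ ≤ (∑ i, ∑ k, |D i k|) * ‖z‖ := by
        refine mul_le_mul_of_nonneg_right ?_ (norm_nonneg _)
        exact Finset.single_le_sum (f := fun i => ∑ k, |D i k|) (fun i _ => Finset.sum_nonneg fun k _ => abs_nonneg _) (Finset.mem_univ i)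

theorem k4d_box_first45 (q r1 qτ : ℝ) (y : Fin 2 → ℝ) (a0 a1 b0 b1 t : ℝ) :
    ((!![1 / q, 0; -r1 / qτ, 1 / qτ] : Matrix (Fin 2) (Fin 2) ℝ).mulVec (y - (![a0, a1] + t • ![b0, b1]))) (0 : Fin 2) = (y 0 - (a0 + t * b0)) / q := by
  simp only [Matrix.mulVec, dotProduct, Fin.sum_univ_two, Matrix.of_apply, Matrix.cons_val_zero, Matrix.cons_val_one, Matrix.cons_val_fin_one,
    Pi.sub_apply, Pi.add_apply, Pi.smul_apply, smul_eq_mul]
  ring

theorem k4d_box_second45 (q r1 qτ : ℝ) (y : Fin 2 → ℝ) (a0 a1 b0 b1 t : ℝ) :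
    ((!![1 / q, 0; -r1 / qτ, 1 / qτ] : Matrix (Fin 2) (Fin 2) ℝ).mulVec (y - (![a0, a1] + t • ![b0, b1]))) (1 : Fin 2) = ((y 1 - (a1 + t * b1)) - r1 * (y 0 - (a0 + t * b0))) / qτ := by
  simp only [Matrix.mulVec, dotProduct, Fin.sum_univ_two, Matrix.of_apply, Matrix.cons_val_zero, Matrix.cons_val_one, Matrix.cons_val_fin_one,
    Pi.sub_apply, Pi.add_apply, Pi.smul_apply, smul_eq_mul]
  ring

/-- **LEAF S4.**  PLAN: `size`: `q (1 + |r₁| + τ) ≤ q (1 + K + K²)`.   `box`: first coordinate `(Z - Z_c)/q`: `y - y_c = D (Di (y - y_c))`, `|D 0 i| ≤ kbMn D ≤ q K`, old box `≤ K`: `≤ 2 K²`;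
second coordinate `(U(t) - U_c(t)) / (q τ)`, `U = Y - r₁ Z`: `|U(t_c) - u q τ| ≤ q τ` (`k4d_bin_val`), `|U' - r₀| ≤ τ + (1 + K) τ` (`k4d_row_bin`, `k4d_bin_val`), `|t - t_c| ≤ q`: `≤ 3 + K`.   The four test clauses are inherited. -/
theorem k4d_sd_geo (Z : K4dSD P) {K a : ℝ} (h : Z.Ok K a) : Z.sys.Geo (4 * K ^ 2) a := by
  have hK1 := h.K_ge
  have hK0 : 0 < K := by linarith
  have hKK : K ≤ 4 * K ^ 2 := by nlinarith
  have hq : 0 < Z.Y.q := by unfold KbSys.q kbQ; positivity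
  refine ⟨?_, ?_, ?_, ?_, ?_, ?_⟩
  · -- size
    intro x
    have hτ0 := k4d_sd_tau_pos Z h x.1.1
    have hτ1 := k4d_sd_tau_le Z h x.1.1
    have hr1 : |Z.r1 x.1.1 x.1.2.1| ≤ K := x.2.2.2.2.trans h.Kr_le
    change kbMn (!![Z.Y.q, 0; Z.Y.q * Z.r1 x.1.1 x.1.2.1, Z.Y.q * Z.tau x.1.1] : Matrix (Fin 2) (Fin 2) ℝ) ≤ Z.Y.q * (4 * K ^ 2)
    unfold kbMn
    rw [Fin.sum_univ_two, Fin.sum_univ_two, Fin.sum_univ_two]
    simp only [Matrix.of_apply, Matrix.cons_val_zero, Matrix.cons_val_one, Matrix.cons_val_fin_one, abs_zero, add_zero]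
    rw [abs_mul, abs_mul, abs_of_pos hq, abs_of_pos hτ0]
    have : 1 + |Z.r1 x.1.1 x.1.2.1| + Z.tau x.1.1 ≤ 4 * K ^ 2 := by nlinarith
    calc Z.Y.q + (Z.Y.q * |Z.r1 x.1.1 x.1.2.1| + Z.Y.q * Z.tau x.1.1) = Z.Y.q * (1 + |Z.r1 x.1.1 x.1.2.1| + Z.tau x.1.1) := by ring
      _ ≤ _ := mul_le_mul_of_nonneg_left this hq.le
  · -- box
    rintro ⟨⟨c, b, u⟩, hG⟩ l ⟨n, hn, hl, hb, hu⟩ t ht
    simp only at hn hl hb hu
    have hτ0 := k4d_sd_tau_pos Z h c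
    have hlA := h.pc_sub c n hl
    have ht' : t ∈ Z.Y.I c := ht
    have htq : |t - Z.Y.tc c| ≤ Z.Y.q := by
      have h1 : Z.Y.tc c ≤ t := ht.1
      have h2 : t < ((Z.Y.iv c : ℝ) + 1) * kbQ Z.Y.n := ht.2
      rw [abs_of_nonneg (by linarith)]
      unfold KbSys.tc KbSys.q at *
      linarith
    set co := P.co (Z.Y.wd c) l with hco
    -- first coordinate
    have hfirst : |k4dZ (kbY co t) - k4dZ ((Z.Y.ch c).yc t)| ≤ Z.Y.q * K * K := by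
      have h1 := h.geo.box c l hlA t ht'
      have h2 := k4d_mulVec_le45 (Z.Y.ch c).D ((Z.Y.ch c).Di.mulVec (kbY co t - (Z.Y.ch c).yc t)) (0 : Fin 2)
      rw [Matrix.mulVec_mulVec, h.wf.inv c, Matrix.one_mulVec] at h2
      have hMn : 0 ≤ kbMn (Z.Y.ch c).D := by
        unfold kbMn
        exact Finset.sum_nonneg fun i _ => Finset.sum_nonneg fun k _ => abs_nonneg _
      refine le_trans h2 (mul_le_mul (h.geo.size c) h1 (norm_nonneg _) (by positivity))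
    -- second coordinate
    have hr0 : |Z.row c n 0 - Z.r0 c b| ≤ Z.tau c := by
      rw [← hb]
      exact k4d_bin_val hτ0
    have hr1 : |Z.row c n 1 - Z.r1 c b| ≤ Z.tau c := by
      rw [← hb]
      exact k4d_bin_val hτ0
    have hrow := k4d_row_bin (h.line c n hn l hl) hr0 hr1 (h.vel c l hlA)
    have hpos : |Z.pos c b l - (u : ℝ) * (Z.Y.q * Z.tau c)| ≤ Z.Y.q * Z.tau c := by
      rw [← hu]
      exact k4d_bin_val (mul_pos hq hτ0)
    have hqτ : 0 < Z.Y.q * Z.tau c := mul_pos hq hτ0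
    change ‖(!![1 / Z.Y.q, 0; -Z.r1 c b / (Z.Y.q * Z.tau c), 1 / (Z.Y.q * Z.tau c)] : Matrix (Fin 2) (Fin 2) ℝ).mulVec (kbY co t - (Z.chart (c, b, u)).yc t)‖ ≤ 4 * K ^ 2
    rw [pi_norm_le_iff_of_nonneg (by positivity)]
    intro i
    fin_cases i
    · have e : ((!![1 / Z.Y.q, 0; -Z.r1 c b / (Z.Y.q * Z.tau c), 1 / (Z.Y.q * Z.tau c)] : Matrix (Fin 2) (Fin 2) ℝ).mulVec (kbY co t - (Z.chart (c, b, u)).yc t)) (0 : Fin 2)
          = (k4dZ (kbY co t) - k4dZ ((Z.Y.ch c).yc t)) / Z.Y.q :=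
        k4d_box_first45 _ _ _ (kbY co t) _ _ _ _ t
      change ‖((!![1 / Z.Y.q, 0; -Z.r1 c b / (Z.Y.q * Z.tau c), 1 / (Z.Y.q * Z.tau c)] : Matrix (Fin 2) (Fin 2) ℝ).mulVec (kbY co t - (Z.chart (c, b, u)).yc t)) (0 : Fin 2)‖ ≤ _
      rw [e, Real.norm_eq_abs, abs_div, abs_of_pos hq, div_le_iff₀ hq]
      nlinarith
    · have e : ((!![1 / Z.Y.q, 0; -Z.r1 c b / (Z.Y.q * Z.tau c), 1 / (Z.Y.q * Z.tau c)] : Matrix (Fin 2) (Fin 2) ℝ).mulVec (kbY co t - (Z.chart (c, b, u)).yc t)) (1 : Fin 2)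
          = ((Z.pos c b l - (u : ℝ) * (Z.Y.q * Z.tau c)) + (t - Z.Y.tc c) * (k4dY (kbV co) - (Z.r0 c b + Z.r1 c b * k4dZ (kbV co)))) / (Z.Y.q * Z.tau c) := by
        refine (k4d_box_second45 _ _ _ (kbY co t) _ _ _ _ t).trans ?_
        congr 1
        have e1 : Z.pos c b l = (k4dY co.1 + Z.Y.tc c * k4dY co.2.1) - Z.r1 c b * (k4dZ co.1 + Z.Y.tc c * k4dZ co.2.1) := rfl
        have e2 : (kbY co t) (1 : Fin 2) = k4dY co.1 + t * k4dY co.2.1 := rfl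
        have e3 : (kbY co t) (0 : Fin 2) = k4dZ co.1 + t * k4dZ co.2.1 := rfl
        have e4 : kbV co = co.2.1 := rfl
        rw [e1, e2, e3, e4]
        ring
      change ‖((!![1 / Z.Y.q, 0; -Z.r1 c b / (Z.Y.q * Z.tau c), 1 / (Z.Y.q * Z.tau c)] : Matrix (Fin 2) (Fin 2) ℝ).mulVec (kbY co t - (Z.chart (c, b, u)).yc t)) (1 : Fin 2)‖ ≤ _
      rw [e, Real.norm_eq_abs, abs_div, abs_of_pos hqτ, div_le_iff₀ hqτ]
      have t1 : |(t - Z.Y.tc c) * (k4dY (kbV co) - (Z.r0 c b + Z.r1 c b * k4dZ (kbV co)))| ≤ Z.Y.q * (Z.tau c + (1 + K) * Z.tau c) := by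
        rw [abs_mul]
        exact mul_le_mul htq hrow (abs_nonneg _) hq.le
      have t2 := abs_add_le (Z.pos c b l - (u : ℝ) * (Z.Y.q * Z.tau c)) ((t - Z.Y.tc c) * (k4dY (kbV co) - (Z.r0 c b + Z.r1 c b * k4dZ (kbV co))))
      have t3 : 3 + K ≤ 4 * K ^ 2 := by nlinarith
      have t4 : (3 + K) * (Z.Y.q * Z.tau c) ≤ 4 * K ^ 2 * (Z.Y.q * Z.tau c) := mul_le_mul_of_nonneg_right t3 hqτ.le
      nlinarith
  · -- val
    rintro x l ⟨n, hn, hl, -⟩ t ht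
    have h1 := h.geo.val x.1.1 l (h.pc_sub _ _ hl) t ht
    have ha : 0 ≤ a := by
      have : 0 ≤ K * a := (abs_nonneg _).trans h1
      exact nonneg_of_mul_nonneg_right this hK0
    exact h1.trans (mul_le_mul_of_nonneg_right hKK ha)
  · rintro x l ⟨n, hn, hl, -⟩ t ht
    have h1 := h.geo.dw x.1.1 l (h.pc_sub _ _ hl) t ht
    have ha : 0 ≤ P.B (Z.Y.wd x.1.1) := by
      have : 0 ≤ K * P.B (Z.Y.wd x.1.1) := (abs_nonneg _).trans h1
      exact nonneg_of_mul_nonneg_right this hK0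
    exact h1.trans (mul_le_mul_of_nonneg_right hKK ha)
  · rintro x p ⟨⟨hp, -⟩, -⟩
    exact (h.geo.dw_low x.1.1 p hp).trans (mul_le_mul_of_nonneg_right hKK (abs_nonneg _))
  · intro x t y w
    exact (h.geo.dww x.1.1 t y w).trans (mul_le_mul_of_nonneg_right hKK (by positivity))

/-- the determinant: `q² τ = J_c g` -/
theorem k4d_sd_J (Z : K4dSD P) {K a : ℝ} (h : Z.Ok K a) (x : Z.sys.C) : (Z.sys.ch x).J = (Z.Y.ch x.1.1).J * Z.g := by
  have hq : 0 < Z.Y.q := by unfold KbSys.q kbQ; positivity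
  have hτ := k4d_sd_tau_pos Z h x.1.1
  change |(!![Z.Y.q, 0; Z.Y.q * Z.r1 x.1.1 x.1.2.1, Z.Y.q * Z.tau x.1.1] : Matrix (Fin 2) (Fin 2) ℝ).det| = _
  rw [Matrix.det_fin_two_of, zero_mul, sub_zero, abs_of_pos (by positivity)]
  unfold K4dSD.tau
  field_simp

/-- **LEAF S5** : the lists.   PLAN: `Lst γ d o` = the admitted `(c, b, u)` with `c ∈ L₀ γ d o`, `b` within `1` (both entries) of `rb c (Ad e)` for some `e ∈ L_d γ d o`, `u` within `⌈K + 2⌉ + 1` of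
`⌊(o.Y - r₁ o.Z - (o.t - t_c) r₀) / (q τ)⌋`  (`k4d_bin_near`, `k4d_pos_near`);   cardinality `≤ K₀ K_d 9 (2 K + 9)`;   measurability: finite Boolean combinations of the measurable sets of `L₀`, `L_d` and of floor conditions. -/
theorem k4d_sd_known (Z : K4dSD P) {K a : ℝ} (h : Z.Ok K a) (Yd : KbSys P) (Ad : Yd.C → Fin 2 → ℝ) (hAl : Z.Al Yd Ad) {D : Type} (ℓ : P.Lab D) (K₀ Kd : ℝ)
    (h₀ : Z.Y.Known ℓ K₀) (hd : Yd.Known ℓ Kd) : Z.sys.Known ℓ (K₀ * Kd * 9 * (2 * K + 9)) := by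
  classical
  obtain ⟨L0, hL0c, hL0m, hL0⟩ := h₀
  obtain ⟨Ld, hLdc, hLdm, hLd⟩ := hd
  have hK1 := h.K_ge
  have hq : 0 < Z.Y.q := by unfold KbSys.q kbQ; positivity
  obtain ⟨M, hM⟩ : ∃ M : ℤ, M = ⌈K + 2⌉ + 1 := ⟨_, rfl⟩
  have hM0 : 0 ≤ M := by
    have : 0 ≤ ⌈K + 2⌉ := Int.ceil_nonneg (by linarith)
    omega
  have hMK : (M : ℝ) ≤ K + 4 := by
    rw [hM]
    push_cast
    have := Int.ceil_lt_add_one (K + 2)
    linarith
  -- the predicted position bin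
  let pr : Z.Y.C → ℤ × ℤ → ℝ × KbB KbVer.two → ℤ := fun c b o => ⌊(k4dY o.2 - Z.r1 c b * k4dZ o.2 - (o.1 - Z.Y.tc c) * Z.r0 c b) / (Z.Y.q * Z.tau c)⌋
  let good : P.W → D → ℝ × KbB KbVer.two → Z.Raw → Prop := fun γ d o x =>
    x.1 ∈ L0 γ d o ∧ ∃ e ∈ Ld γ d o, |x.2.1.1 - (Z.rb x.1 (Ad e)).1| ≤ 1 ∧ |x.2.1.2 - (Z.rb x.1 (Ad e)).2| ≤ 1 ∧ |x.2.2 - pr x.1 x.2.1 o| ≤ M
  refine ⟨fun γ d o => Finset.univ.filter (fun x : Z.sys.C => good γ d o x.1), ?_, ?_, ?_⟩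
  · -- cardinality
    intro γ d o
    set T : Finset Z.Raw := (L0 γ d o).biUnion fun c => (Ld γ d o).biUnion fun e =>
      (Finset.Icc ((Z.rb c (Ad e)).1 - 1) ((Z.rb c (Ad e)).1 + 1) ×ˢ Finset.Icc ((Z.rb c (Ad e)).2 - 1) ((Z.rb c (Ad e)).2 + 1)).biUnion fun b =>
        (Finset.Icc (pr c b o - M) (pr c b o + M)).image fun u => ((c, b, u) : Z.Raw) with hT
    have h1 : (Finset.univ.filter (fun x : Z.sys.C => good γ d o x.1)).card ≤ T.card := by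
      refine Finset.card_le_card_of_injOn (fun x : Z.sys.C => (x.1 : Z.Raw)) ?_ ?_
      · intro x hx
        obtain ⟨g0, e, he, g1, g2, g3⟩ := (Finset.mem_filter.1 (Finset.mem_coe.1 hx)).2
        rw [Finset.mem_coe, hT]
        refine Finset.mem_biUnion.2 ⟨x.1.1, g0, Finset.mem_biUnion.2 ⟨e, he, Finset.mem_biUnion.2 ⟨x.1.2.1, ?_, Finset.mem_image.2 ⟨x.1.2.2, ?_, rfl⟩⟩⟩⟩
        · rw [Finset.mem_product, Finset.mem_Icc, Finset.mem_Icc]
          have a1 := abs_le.1 g1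
          have a2 := abs_le.1 g2
          refine ⟨⟨?_, ?_⟩, ?_, ?_⟩ <;> linarith [a1.1, a1.2, a2.1, a2.2]
        · rw [Finset.mem_Icc]
          have a3 := abs_le.1 g3
          constructor <;> linarith [a3.1, a3.2]
      · intro x _ y _ hxy
        exact Subtype.ext hxy
    have h2 : T.card ≤ (L0 γ d o).card * ((Ld γ d o).card * (9 * (2 * M + 1).toNat)) := by
      refine Finset.card_biUnion_le_card_mul _ _ _ fun c _ => ?_
      refine Finset.card_biUnion_le_card_mul _ _ _ fun e _ => ?_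
      refine (Finset.card_biUnion_le_card_mul _ _ ((2 * M + 1).toNat) fun b _ => ?_).trans ?_
      · refine Finset.card_image_le.trans ?_
        rw [Int.card_Icc]
        apply le_of_eq
        congr 1
        ring
      · rw [Finset.card_product, Int.card_Icc, Int.card_Icc]
        have : ∀ z : ℤ, (z + 1 + 1 - (z - 1)).toNat = 3 := by
          intro z
          omega
        rw [this, this]
    have h3 : (((2 * M + 1).toNat : ℕ) : ℝ) ≤ 2 * K + 9 := by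
      have e : (((2 * M + 1).toNat : ℕ) : ℤ) = 2 * M + 1 := Int.toNat_of_nonneg (by omega)
      have e' : (((2 * M + 1).toNat : ℕ) : ℝ) = 2 * (M : ℝ) + 1 := by exact_mod_cast e
      rw [e']
      linarith
    have c0 := hL0c γ d o
    have cd := hLdc γ d o
    have n0 : (0 : ℝ) ≤ ((L0 γ d o).card : ℝ) := Nat.cast_nonneg _
    have nd : (0 : ℝ) ≤ ((Ld γ d o).card : ℝ) := Nat.cast_nonneg _
    calc ((Finset.univ.filter (fun x : Z.sys.C => good γ d o x.1)).card : ℝ)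
        ≤ (((L0 γ d o).card * ((Ld γ d o).card * (9 * (2 * M + 1).toNat)) : ℕ) : ℝ) := by exact_mod_cast h1.trans h2
      _ = ((L0 γ d o).card : ℝ) * (((Ld γ d o).card : ℝ) * (9 * (((2 * M + 1).toNat : ℕ) : ℝ))) := by push_cast; ring
      _ ≤ K₀ * (Kd * (9 * (2 * K + 9))) := by
          have : (0 : ℝ) ≤ (((2 * M + 1).toNat : ℕ) : ℝ) := Nat.cast_nonneg _
          have hK₀ : 0 ≤ K₀ := n0.trans c0
          have hKd : 0 ≤ Kd := nd.trans cd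
          gcongr
      _ = K₀ * Kd * 9 * (2 * K + 9) := by ring
  · -- measurability
    intro γ d x
    have hpr : Measurable fun o : ℝ × KbB KbVer.two => pr x.1.1 x.1.2.1 o := by
      have hY : Measurable fun o : ℝ × KbB KbVer.two => k4dY o.2 := (measurable_pi_apply _).comp measurable_snd
      have hZ : Measurable fun o : ℝ × KbB KbVer.two => k4dZ o.2 := (measurable_pi_apply _).comp measurable_snd
      exact (((hY.sub (hZ.const_mul _)).sub ((measurable_fst.sub_const _).mul_const _)).div_const _).floor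
    have e : {o | x ∈ Finset.univ.filter (fun x : Z.sys.C => good γ d o x.1)} = {o | x.1.1 ∈ L0 γ d o} ∩ ⋃ e : Yd.C, ({o | e ∈ Ld γ d o} ∩
        ({_o | |x.1.2.1.1 - (Z.rb x.1.1 (Ad e)).1| ≤ 1 ∧ |x.1.2.1.2 - (Z.rb x.1.1 (Ad e)).2| ≤ 1} ∩ (fun o => pr x.1.1 x.1.2.1 o) ⁻¹' {m | |x.1.2.2 - m| ≤ M})) := by
      ext o
      simp only [Finset.mem_filter, Finset.mem_univ, true_and, Set.mem_ofPred_eq, Set.mem_inter_iff, Set.mem_iUnion, Set.mem_preimage]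
      constructor
      · rintro ⟨g0, e, he, g1, g2, g3⟩
        exact ⟨g0, e, he, ⟨g1, g2⟩, g3⟩
      · rintro ⟨g0, e, he, ⟨g1, g2⟩, g3⟩
        exact ⟨g0, e, he, g1, g2, g3⟩
    rw [e]
    exact (hL0m γ d _).inter (MeasurableSet.iUnion fun e => (hLdm γ d e).inter ((MeasurableSet.const _).inter (hpr (MeasurableSet.of_discrete))))
  · -- membership
    rintro ⟨⟨c, b, u⟩, hG⟩ p ⟨⟨hpS, hpSel⟩, ⟨n, hn, hl, hb, hu⟩, -⟩
    simp only at hn hl hb hu hpS hpSel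
    have hτ0 := k4d_sd_tau_pos Z h c
    have hlA := h.pc_sub c n hl
    obtain ⟨e, hew, heS, ha0, ha1⟩ := hAl c n hn p ⟨hpSel, hpS⟩ hl
    have ht : p.2 ∈ Z.Y.I c := (h.wf.S_sub c hpS).2.2
    have htq : |p.2 - Z.Y.tc c| ≤ Z.Y.q := by
      have h1 : Z.Y.tc c ≤ p.2 := ht.1
      have h2 : p.2 < ((Z.Y.iv c : ℝ) + 1) * kbQ Z.Y.n := ht.2
      rw [abs_of_nonneg (by linarith)]
      unfold KbSys.tc KbSys.q at *
      linarith
    have hr0 : |Z.row c n 0 - Z.r0 c b| ≤ Z.tau c := by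
      rw [← hb]
      exact k4d_bin_val hτ0
    have hr1 : |Z.row c n 1 - Z.r1 c b| ≤ Z.tau c := by
      rw [← hb]
      exact k4d_bin_val hτ0
    have hrow := k4d_row_bin (h.line c n hn p.1 hl) hr0 hr1 (h.vel c p.1 hlA)
    refine Finset.mem_filter.2 ⟨Finset.mem_univ _, hL0 c p hpS, e, ?_, ?_, ?_, ?_⟩
    · have := hLd e p heS
      rw [hew] at this
      exact this
    · change |b.1 - (Z.rb c (Ad e)).1| ≤ 1
      rw [← hb]
      exact k4d_bin_near hτ0 ha0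
    · change |b.2 - (Z.rb c (Ad e)).2| ≤ 1
      rw [← hb]
      exact k4d_bin_near hτ0 ha1
    · set co := P.co (Z.Y.wd c) p.1 with hco
      have hU : |(k4dY (kbV co) - Z.r1 c b * k4dZ (kbV co)) - Z.r0 c b| * Z.Y.q ≤ (K + 2) * (Z.Y.q * Z.tau c) := by
        have e1 : (k4dY (kbV co) - Z.r1 c b * k4dZ (kbV co)) - Z.r0 c b = k4dY (kbV co) - (Z.r0 c b + Z.r1 c b * k4dZ (kbV co)) := by ring
        rw [e1]
        calc _ ≤ (Z.tau c + (1 + K) * Z.tau c) * Z.Y.q := mul_le_mul_of_nonneg_right hrow hq.le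
          _ = _ := by ring
      have key := k4d_pos_near (U0 := Z.pos c b p.1) (U' := k4dY (kbV co) - Z.r1 c b * k4dZ (kbV co)) (r0 := Z.r0 c b) (t := p.2) (tc := Z.Y.tc c)
        (q := Z.Y.q) (w := Z.Y.q * Z.tau c) (E := K + 2) (mul_pos hq hτ0) htq hU
      rw [← hM] at key
      have e2 : pr c b (P.bs (Z.Y.wd c) p) = ⌊(Z.pos c b p.1 + (p.2 - Z.Y.tc c) * (k4dY (kbV co) - Z.r1 c b * k4dZ (kbV co)) - (p.2 - Z.Y.tc c) * Z.r0 c b) / (Z.Y.q * Z.tau c)⌋ := by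
        change ⌊(k4dY (kbY co p.2) - Z.r1 c b * k4dZ (kbY co p.2) - (p.2 - Z.Y.tc c) * Z.r0 c b) / (Z.Y.q * Z.tau c)⌋ = _
        congr 2
        have e1 : Z.pos c b p.1 = (k4dY co.1 + Z.Y.tc c * k4dY co.2.1) - Z.r1 c b * (k4dZ co.1 + Z.Y.tc c * k4dZ co.2.1) := rfl
        have e2 : k4dY (kbY co p.2) = k4dY co.1 + p.2 * k4dY co.2.1 := rfl
        have e3 : k4dZ (kbY co p.2) = k4dZ co.1 + p.2 * k4dZ co.2.1 := rfl
        have e4 : kbV co = co.2.1 := rfl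
        rw [e1, e2, e3, e4]
        ring
      change |u - pr c b (P.bs (Z.Y.wd c) p)| ≤ M
      rw [e2, ← hu]
      exact key

/-- **LEAF S6** : polynomial bounds -/
theorem k4d_sd_tmp (Z : K4dSD P) {K a Q : ℝ} (h : Z.Ok K a) (hQ : Z.Y.Tmp Q) (hKQ : K ≤ Q) (hB : (Z.B : ℝ) + 1 ≤ Q) (hg : 1 ≤ Q * Z.g) : Z.sys.Tmp (64 * Q ^ 5) := by
  classical
  have hK1 := h.K_ge
  have hQ1 : 1 ≤ Q := hK1.trans hKQ
  have hQ0 : 0 < Q := by linarith
  have hq : 0 < Z.Y.q := by unfold KbSys.q kbQ; positivity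
  have hq1 : Z.Y.q ≤ 1 := by unfold KbSys.q kbQ; exact pow_le_one₀ (by norm_num) (by norm_num)
  have hB0 : (0 : ℝ) ≤ Z.B := Nat.cast_nonneg _
  have p2 : Q ≤ Q ^ 2 := by nlinarith
  have p3 : Q ^ 2 ≤ Q ^ 3 := by nlinarith
  have p4 : Q ^ 3 ≤ Q ^ 4 := by nlinarith [pow_pos hQ0 3]
  have p5 : Q ^ 4 ≤ Q ^ 5 := by nlinarith [pow_pos hQ0 4]
  refine ⟨?_, ?_, ?_, ?_⟩
  · -- cardinality
    set T : Finset Z.Raw := Finset.univ ×ˢ ((Finset.Icc (-(Z.B : ℤ)) Z.B ×ˢ Finset.Icc (-(Z.B : ℤ)) Z.B) ×ˢ Finset.Icc (-(Z.B : ℤ)) Z.B) with hT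
    have h1 : Fintype.card Z.sys.C ≤ T.card := by
      rw [← Finset.card_univ]
      refine Finset.card_le_card_of_injOn (fun x : Z.sys.C => (x.1 : Z.Raw)) ?_ ?_
      · intro x _
        obtain ⟨g1, g2, g3, -⟩ := x.2
        simp only [hT, Finset.coe_product, Finset.coe_univ, Finset.coe_Icc]
        exact ⟨Set.mem_univ _, ⟨abs_le.1 g1, abs_le.1 g2⟩, abs_le.1 g3⟩
      · intro x _ y _ hxy
        exact Subtype.ext hxy
    have h2 : (T.card : ℝ) = (Fintype.card Z.Y.C : ℝ) * (((2 * (Z.B : ℝ) + 1) * (2 * (Z.B : ℝ) + 1)) * (2 * (Z.B : ℝ) + 1)) := by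
      have hI : (Finset.Icc (-(Z.B : ℤ)) Z.B).card = 2 * Z.B + 1 := by
        rw [Int.card_Icc]
        omega
      rw [hT, Finset.card_product, Finset.card_product, Finset.card_product, hI, Finset.card_univ]
      push_cast
      ring
    have h3 : (2 * (Z.B : ℝ) + 1) ≤ 2 * Q := by linarith
    calc (Fintype.card Z.sys.C : ℝ) ≤ (T.card : ℝ) := by exact_mod_cast h1
      _ = (Fintype.card Z.Y.C : ℝ) * (((2 * (Z.B : ℝ) + 1) * (2 * (Z.B : ℝ) + 1)) * (2 * (Z.B : ℝ) + 1)) := h2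
      _ ≤ Q * (((2 * Q) * (2 * Q)) * (2 * Q)) := by
          have := hQ.card
          gcongr
      _ = 8 * Q ^ 4 := by ring
      _ ≤ 64 * Q ^ 5 := by nlinarith [pow_pos hQ0 4]
  · have := hQ.q_low
    change 1 ≤ 64 * Q ^ 5 * Z.Y.q
    have h5 : Q ≤ 64 * Q ^ 5 := by nlinarith [pow_pos hQ0 5]
    nlinarith
  · intro x
    rw [k4d_sd_J Z h x]
    have h1 := hQ.J_low x.1.1
    have hJ0 : 0 ≤ (Z.Y.ch x.1.1).J := abs_nonneg _
    have h2 : 1 ≤ (Q * (Z.Y.ch x.1.1).J) * (Q * Z.g) := by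
      calc (1 : ℝ) = 1 * 1 := by ring
        _ ≤ _ := mul_le_mul h1 hg (by norm_num) (by positivity)
    have h3 : 0 ≤ (Z.Y.ch x.1.1).J * Z.g := mul_nonneg hJ0 h.g_pos.le
    have h4 : Q ^ 2 ≤ 64 * Q ^ 5 := by nlinarith [pow_pos hQ0 5]
    nlinarith
  · intro x
    obtain ⟨g1, g2, g3, g4⟩ := x.2
    set c := x.1.1 with hc
    set b := x.1.2.1 with hb
    set u := x.1.2.2 with hu
    have hτ0 := k4d_sd_tau_pos Z h c
    have hτ1 : Z.tau c ≤ Q ^ 2 := (k4d_sd_tau_le Z h c).trans (pow_le_pow_left₀ (by linarith) hKQ 2)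
    have hcen := hQ.cen c
    have n0 := norm_nonneg (Z.Y.ch c).y0
    have n1 := norm_nonneg (Z.Y.ch c).y1
    have z0 : |k4dZ (Z.Y.ch c).y0| ≤ Q := by
      have := norm_le_pi_norm (Z.Y.ch c).y0 (0 : Fin 2)
      rw [Real.norm_eq_abs] at this
      unfold k4dZ
      linarith
    have z1 : |k4dZ (Z.Y.ch c).y1| ≤ Q := by
      have := norm_le_pi_norm (Z.Y.ch c).y1 (0 : Fin 2)
      rw [Real.norm_eq_abs] at this
      unfold k4dZ
      linarith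
    have hr1 : |Z.r1 c b| ≤ Q := g4.trans (h.Kr_le.trans hKQ)
    have hb1 : |(b.1 : ℝ)| ≤ Q := by
      have : |(b.1 : ℝ)| ≤ (Z.B : ℝ) := by exact_mod_cast g1
      linarith
    have hu1 : |(u : ℝ)| ≤ Q := by
      have : |(u : ℝ)| ≤ (Z.B : ℝ) := by exact_mod_cast g3
      linarith
    have hr0 : |Z.r0 c b| ≤ Q ^ 3 := by
      unfold K4dSD.r0
      rw [abs_mul, abs_of_pos hτ0]
      calc |(b.1 : ℝ)| * Z.tau c ≤ Q * Q ^ 2 := mul_le_mul hb1 hτ1 hτ0.le hQ0.le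
        _ = Q ^ 3 := by ring
    have htc0 : 0 ≤ Z.Y.tc c := by unfold KbSys.tc kbQ; positivity
    have htc1 : Z.Y.tc c ≤ 1 := by
      unfold KbSys.tc
      have h1 : ((Z.Y.iv c : ℝ)) ≤ 2 ^ Z.Y.n := by exact_mod_cast (h.wf.iv_lt c).le
      calc (Z.Y.iv c : ℝ) * kbQ Z.Y.n ≤ 2 ^ Z.Y.n * kbQ Z.Y.n := by
            have : 0 ≤ kbQ Z.Y.n := by unfold kbQ; positivity
            gcongr
        _ = 1 := by unfold kbQ; rw [← mul_pow]; norm_num
    have e0 : ‖(Z.sys.ch x).y0‖ ≤ 3 * Q ^ 3 := by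
      change ‖(![k4dZ (Z.Y.ch c).y0, u * (Z.Y.q * Z.tau c) - Z.r0 c b * Z.Y.tc c + Z.r1 c b * k4dZ (Z.Y.ch c).y0] : Fin 2 → ℝ)‖ ≤ _
      rw [pi_norm_le_iff_of_nonneg (by positivity)]
      intro i
      fin_cases i
      · simp only [Fin.zero_eta, Matrix.cons_val_zero, Real.norm_eq_abs]
        nlinarith
      · simp only [Fin.mk_one, Matrix.cons_val_one, Matrix.cons_val_fin_one, Real.norm_eq_abs]
        have t1 : |(u : ℝ) * (Z.Y.q * Z.tau c)| ≤ Q * (1 * Q ^ 2) := by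
          rw [abs_mul, abs_mul, abs_of_pos hq, abs_of_pos hτ0]
          exact mul_le_mul hu1 (mul_le_mul hq1 hτ1 hτ0.le (by norm_num)) (by positivity) hQ0.le
        have t2 : |Z.r0 c b * Z.Y.tc c| ≤ Q ^ 3 * 1 := by
          rw [abs_mul, abs_of_nonneg htc0]
          exact mul_le_mul hr0 htc1 htc0 (by positivity)
        have t3 : |Z.r1 c b * k4dZ (Z.Y.ch c).y0| ≤ Q * Q := by
          rw [abs_mul]
          exact mul_le_mul hr1 z0 (abs_nonneg _) hQ0.le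
        have t4 := abs_add_le ((u : ℝ) * (Z.Y.q * Z.tau c) - Z.r0 c b * Z.Y.tc c) (Z.r1 c b * k4dZ (Z.Y.ch c).y0)
        have t5 := abs_sub ((u : ℝ) * (Z.Y.q * Z.tau c)) (Z.r0 c b * Z.Y.tc c)
        nlinarith
    have e1 : ‖(Z.sys.ch x).y1‖ ≤ 2 * Q ^ 3 := by
      change ‖(![k4dZ (Z.Y.ch c).y1, Z.r0 c b + Z.r1 c b * k4dZ (Z.Y.ch c).y1] : Fin 2 → ℝ)‖ ≤ _
      rw [pi_norm_le_iff_of_nonneg (by positivity)]
      intro i
      fin_cases i
      · simp only [Fin.zero_eta, Matrix.cons_val_zero, Real.norm_eq_abs]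
        nlinarith
      · simp only [Fin.mk_one, Matrix.cons_val_one, Matrix.cons_val_fin_one, Real.norm_eq_abs]
        have t3 : |Z.r1 c b * k4dZ (Z.Y.ch c).y1| ≤ Q * Q := by
          rw [abs_mul]
          exact mul_le_mul hr1 z1 (abs_nonneg _) hQ0.le
        have t4 := abs_add_le (Z.r0 c b) (Z.r1 c b * k4dZ (Z.Y.ch c).y1)
        nlinarith
    nlinarith [pow_pos hQ0 5]

/-- **LEAF S6** : the mass.   PLAN: `Sel γ ⊆ ⋃ x, wd x = γ, S x` (`Cov`), subadditivity, exchange of the finite sums. -/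
theorem k4d_sd_mass (Z : K4dSD P) (hC : Z.Cov) : P.mass Z.Sel ≤ Z.sys.mass := by
  classical
  have hsub : ∀ γ, Z.Sel γ ⊆ ⋃ x ∈ (Finset.univ.filter fun x : Z.sys.C => Z.sys.wd x = γ), Z.sys.S x := by
    intro γ p hp
    obtain ⟨c, n, hc, hS, hn, hpc, hG⟩ := hC γ p hp
    refine Set.mem_iUnion₂.2 ⟨⟨_, hG⟩, Finset.mem_filter.2 ⟨Finset.mem_univ _, hc⟩, ⟨hS, ?_⟩, ⟨n, hn, hpc, rfl, rfl⟩, Set.mem_univ _⟩
    change p ∈ Z.Sel (Z.Y.wd c)
    rw [hc]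
    exact hp
  unfold KbPb.mass KbSys.mass KbSys.mC
  calc ∑ γ, P.om γ * P.mu γ (Z.Sel γ)
      ≤ ∑ γ, P.om γ * ∑ x ∈ (Finset.univ.filter fun x : Z.sys.C => Z.sys.wd x = γ), P.mu γ (Z.sys.S x) := by
        refine Finset.sum_le_sum fun γ _ => ?_
        gcongr
        exact (measure_mono (hsub γ)).trans (measure_biUnion_finset_le _ _)
    _ = ∑ γ, ∑ x ∈ (Finset.univ.filter fun x : Z.sys.C => Z.sys.wd x = γ), P.om (Z.sys.wd x) * P.mu (Z.sys.wd x) (Z.sys.S x) := by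
        refine Finset.sum_congr rfl fun γ _ => ?_
        rw [Finset.mul_sum]
        refine Finset.sum_congr rfl fun x hx => ?_
        rw [(Finset.mem_filter.1 hx).2]
    _ = ∑ x, P.om (Z.sys.wd x) * P.mu (Z.sys.wd x) (Z.sys.S x) := Finset.sum_fiberwise _ _ _

/-- Stores the on-demand equation lemmas of the definitions above in THIS module (rule 6 hygiene). -/
theorem k4d_strip_eqns_cite : True := by
  have := @K4dSD.tau.eq_1
  have := @K4dSD.rb.eq_1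
  have := @K4dSD.r0.eq_1
  have := @K4dSD.r1.eq_1
  have := @K4dSD.pos.eq_1
  have := @K4dSD.pb.eq_1
  have := @K4dSD.Raw.eq_1
  have := @K4dSD.Good.eq_1
  have := @K4dSD.C1.eq_1
  have := @K4dSD.asg.eq_1
  have := @K4dSD.chart.eq_1
  have := @K4dSD.sys.eq_1
  have := @K4dSD.Cov.eq_1
  have := @K4dSD.Al.eq_1
  trivial

end

end Claimed.Agent.R252
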