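import Claimed.Agent.R252.S4D.Inst
import Claimed.Agent.R252.S4D.Strip
import Claimed.Agent.R252.S4C.LinContract
import Claimed.Agent.R252.S2s.Api

/-!
# ROW 252 (S0492), unit S4D (sub-architect helper230, under helper269), file 6: THE STRIP BRANCH OF `KpHubUpgrade`.      CONTRACT file: the `sorry`s are the leaves L-252-S4D-H*.

Paper: 04-critical-paths.tex l.1351-1420.      Substantial coverage by ONE strip scenario contradicts the finite guard (`KpSam.Guard`, second clause).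
THE DEEPER LABEL is the END label (last node `G`, depth `≥ 1/τ`): no intermediate node is needed.
* H1 `k4d_tan_anc`          ancestors of an end label.
* H2 `k4d_row_of_chart`     the row `k4dAd ch` of a tilted chart (from `k4c_tilt`, S4C): strip thickness `16 K² J / q²`, slope `≤ 2 K²`.
* H3 `k4d_tan_charge`       (a03:good-joint-numerator + angular ceiling): end label by end label, `n₀` velocity intervals of half length `w` carry mass `≤ 3 n₀ N^{2τ} w^S`.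
* H4 `k4d_sd_mis_confined`  the misaligned rows of the ancestor confine the major velocity (geometry + choice of the centres).
* H5 `k4dSDof`              the data `K4dSD` of a maximal strip assignment at one node;   `k4d_sdof_*`.
* H6 `k4d_strip_core`       ONE SCALE: for `τ` small, `s.Ok p τ` and coverage `≥ η` are incompatible.
* H7 `k4d_strip_false`      the sequence statement (PROVED from H6).
-/

set_option autoImplicit false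

namespace Claimed.Agent.R252

open MeasureTheory Filter Topology
open scoped ENNReal BigOperators
open Claimed.Agent.R255 (uf)

noncomputable section

/-! ## H1. Ancestors -/

/-- **LEAF H1.**  PLAN: prove `∀ d m, m + d ≤ G → ∀ e : (X.Q (m + d)).C, ∃ c : (X.Q m).C, ..` by induction on `d` (`X.up`, `hX.nest`). -/
theorem k4d_tan_anc {v : KbVer} {X : KpTan v} {p : KpPrm} {τ : ℝ} (hX : X.Ok p τ) (m : ℕ) (hm : m ≤ X.G) (e : (X.Q X.G).C) :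
    ∃ c : (X.Q m).C, (X.Q m).wd c = (X.Q X.G).wd e ∧ (X.Q X.G).A e ⊆ (X.Q m).A c ∧ (X.Q X.G).I e ⊆ (X.Q m).I c := by
  have gen : ∀ (d m g : ℕ), g = m + d → g ≤ X.G → ∀ e : (X.Q g).C,
      ∃ c : (X.Q m).C, (X.Q m).wd c = (X.Q g).wd e ∧ (X.Q g).A e ⊆ (X.Q m).A c ∧ (X.Q g).I e ⊆ (X.Q m).I c := by
    intro d
    induction d with
    | zero =>
      intro m g hg _ e
      have hg' : g = m := by omega
      subst hg'
      exact ⟨e, rfl, subset_rfl, subset_rfl⟩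
    | succ d ih =>
      intro m g hg hgG e
      have hg' : g = (m + d) + 1 := by omega
      subst hg'
      obtain ⟨n1, n2, n3⟩ := hX.nest (m + d) (by omega) e
      obtain ⟨c, c1, c2, c3⟩ := ih m (m + d) rfl (by omega) (X.up (m + d) e)
      exact ⟨c, c1.trans n1, n3.trans c2, n2.trans c3⟩
  obtain ⟨d, hd⟩ := Nat.exists_eq_add_of_le hm
  exact gen d m X.G hd le_rfl e

/-! ## H2. The row of a tilted chart -/

/-! ## H2. The row of a tilted chart -/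

/-- the row `(A₀, A₁)` of a chart: `Y' ≈ A₀ + A₁ Z'` -/
def k4dAd (ch : KbChart KbVer.two) : Fin 2 → ℝ := ![k4dY ch.y1 - k4cSlope ch.D * k4dZ ch.y1, k4cSlope ch.D]

theorem k4d_mulVec_two45 (D : Matrix (Fin 2) (Fin 2) ℝ) (z : Fin 2 → ℝ) (i : Fin 2) : (D.mulVec z) i = D i 0 * z 0 + D i 1 * z 1 := by
  simp [Matrix.mulVec, dotProduct, Fin.sum_univ_two]

/-- **LEAF H2.**  PLAN: `k4c_tilt` with the box bound `K`, `t1 = t_c`, `t2 = t_c + q/2` (both in `I c`), `(z0 + t z1, y0 + t y1) = y(t) - y_c(t)`, `ζ = Di (y - y_c)` (`D * Di = 1`, `Geo.box`):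
`|(Y' - c_Y') - A₁ (Z' - c_Z')| q/2 ≤ 4 K J / ρ`;  `ρ ≥ (|D 0 0| + |D 0 1|)/2 ≥ q / (2K)`;  slope: `|A₁| ρ ≤ |D 1 0| + |D 1 1| ≤ kbMn D ≤ q K`. -/
theorem k4d_row_of_chart {P : KbPb KbVer.two} (Y : KbSys P) {K a : ℝ} (hwf : Y.WF) (hgeo : Y.Geo K a) (hK : 1 ≤ K) (c : Y.C)
    (hmaj : Y.q ≤ K * (|(Y.ch c).D (0 : Fin 2) (0 : Fin 2)| + |(Y.ch c).D (0 : Fin 2) (1 : Fin 2)|)) :
    (∀ l ∈ Y.A c, |k4dY (kbV (P.co (Y.wd c) l)) - (k4dAd (Y.ch c) 0 + k4dAd (Y.ch c) 1 * k4dZ (kbV (P.co (Y.wd c) l)))| ≤ 16 * K ^ 2 * (Y.ch c).J / Y.q ^ 2) ∧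
      |k4dAd (Y.ch c) 1| ≤ 2 * K ^ 2 := by
  have hK0 : 0 < K := by linarith
  have hq : 0 < Y.q := by unfold KbSys.q kbQ; positivity
  obtain ⟨D, hD⟩ : ∃ D : Matrix (Fin 2) (Fin 2) ℝ, D = (Y.ch c).D := ⟨_, rfl⟩
  have hmaj' : Y.q ≤ K * (|D 0 0| + |D 0 1|) := by rw [hD]; exact hmaj
  have a0 := abs_nonneg (D 0 0)
  have a1 := abs_nonneg (D 0 1)
  have hsum : 0 < |D 0 0| + |D 0 1| := by
    by_contra hh
    have : |D 0 0| + |D 0 1| = 0 := le_antisymm (not_lt.1 hh) (by positivity)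
    rw [this, mul_zero] at hmaj'
    linarith
  -- lower bound for `ρ`
  have hρlo : (|D 0 0| + |D 0 1|) / 2 ≤ k4cRho D := by
    unfold k4cRho
    refine Real.le_sqrt_of_sq_le ?_
    have e0 := sq_abs (D 0 0)
    have e1 := sq_abs (D 0 1)
    nlinarith [sq_nonneg (|D 0 0| - |D 0 1|)]
  have hρ : 0 < k4cRho D := lt_of_lt_of_le (by positivity) hρlo
  have hρq : Y.q ≤ 2 * K * k4cRho D := by nlinarith
  have hsize : kbMn D ≤ Y.q * K := by rw [hD]; exact hgeo.size c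
  have hslope : |k4cSlope D| ≤ 2 * K ^ 2 := by
    have h2 := (k4c_tilt (D := D) (K := K) (t1 := 0) (t2 := 0) (z0 := 0) (z1 := 0) (y0 := 0) (y1 := 0) hK0.le hρ
      (fun t _ => ⟨0, fun i => by simpa using hK0.le, by simp, by simp⟩)).2
    have h3 : Real.sqrt (D 1 0 ^ 2 + D 1 1 ^ 2) ≤ |D 1 0| + |D 1 1| := by
      refine Real.sqrt_le_iff.2 ⟨by positivity, ?_⟩
      have e0 := sq_abs (D 1 0)
      have e1 := sq_abs (D 1 1)
      nlinarith [mul_nonneg (abs_nonneg (D 1 0)) (abs_nonneg (D 1 1))]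
    have h4 : |D 1 0| + |D 1 1| ≤ kbMn D := by
      unfold kbMn
      rw [Fin.sum_univ_two, Fin.sum_univ_two, Fin.sum_univ_two]
      linarith
    have h5 : |k4cSlope D| * k4cRho D ≤ Y.q * K := h2.trans (h3.trans (h4.trans hsize))
    have h6 : |k4cSlope D| * k4cRho D ≤ (2 * K ^ 2) * k4cRho D := by nlinarith
    exact le_of_mul_le_mul_right h6 hρ
  refine ⟨fun l hl => ?_, ?_⟩
  · set co := P.co (Y.wd c) l with hco
    have ht1 : Y.tc c ∈ Y.I c := by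
      refine ⟨le_rfl, ?_⟩
      unfold KbSys.tc
      have : 0 < kbQ Y.n := hq
      nlinarith
    have ht2 : Y.tc c + Y.q / 2 ∈ Y.I c := by
      have hq' : 0 < kbQ Y.n := hq
      refine ⟨?_, ?_⟩
      · change (Y.iv c : ℝ) * kbQ Y.n ≤ (Y.iv c : ℝ) * kbQ Y.n + kbQ Y.n / 2
        linarith
      · change (Y.iv c : ℝ) * kbQ Y.n + kbQ Y.n / 2 < ((Y.iv c : ℝ) + 1) * kbQ Y.n
        linarith
    have hbox : ∀ t, t = Y.tc c ∨ t = Y.tc c + Y.q / 2 → ∃ ζ : Fin 2 → ℝ, (∀ i, |ζ i| ≤ K) ∧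
        (k4dZ co.1 - k4dZ (Y.ch c).y0) + t * (k4dZ co.2.1 - k4dZ (Y.ch c).y1) = D 0 0 * ζ 0 + D 0 1 * ζ 1 ∧
        (k4dY co.1 - k4dY (Y.ch c).y0) + t * (k4dY co.2.1 - k4dY (Y.ch c).y1) = D 1 0 * ζ 0 + D 1 1 * ζ 1 := by
      intro t ht
      have htI : t ∈ Y.I c := by
        rcases ht with rfl | rfl
        · exact ht1
        · exact ht2
      have hb := hgeo.box c l hl t htI
      obtain ⟨ζ, hζ⟩ : ∃ ζ : Fin 2 → ℝ, ζ = (Y.ch c).Di.mulVec (kbY co t - (Y.ch c).yc t) := ⟨_, rfl⟩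
      have e : D.mulVec ζ = (kbY co t - (Y.ch c).yc t : Fin 2 → ℝ) := by
        have e0 := Matrix.mulVec_mulVec (kbY co t - (Y.ch c).yc t) (Y.ch c).D (Y.ch c).Di
        rw [hwf.inv c, Matrix.one_mulVec] at e0
        rw [hD, hζ]
        exact e0
      refine ⟨ζ, fun i => ?_, ?_, ?_⟩
      · rw [hζ]
        exact (norm_le_pi_norm _ i).trans hb
      · rw [← k4d_mulVec_two45 D ζ 0, e]
        change _ = (k4dZ co.1 + t * k4dZ co.2.1) - (k4dZ (Y.ch c).y0 + t * k4dZ (Y.ch c).y1)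
        ring
      · rw [← k4d_mulVec_two45 D ζ 1, e]
        change _ = (k4dY co.1 + t * k4dY co.2.1) - (k4dY (Y.ch c).y0 + t * k4dY (Y.ch c).y1)
        ring
    have h1 := (k4c_tilt hK0.le hρ hbox).1
    have e2 : |Y.tc c + Y.q / 2 - Y.tc c| = Y.q / 2 := by
      rw [add_sub_cancel_left, abs_of_pos (by positivity)]
    rw [e2] at h1
    have hJ : |D.det| = (Y.ch c).J := by rw [hD]; rfl
    rw [hJ] at h1
    have hJ0 : 0 ≤ (Y.ch c).J := abs_nonneg _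
    have e3 : k4dY (kbV co) - (k4dAd (Y.ch c) 0 + k4dAd (Y.ch c) 1 * k4dZ (kbV co)) = (k4dY co.2.1 - k4dY (Y.ch c).y1) - k4cSlope D * (k4dZ co.2.1 - k4dZ (Y.ch c).y1) := by
      have f0 : k4dAd (Y.ch c) 0 = k4dY (Y.ch c).y1 - k4cSlope D * k4dZ (Y.ch c).y1 := by rw [hD]; rfl
      have f1 : k4dAd (Y.ch c) 1 = k4cSlope D := by rw [hD]; rfl
      have f2 : kbV co = co.2.1 := rfl
      rw [f0, f1, f2]
      ring
    rw [e3]
    set W := |(k4dY co.2.1 - k4dY (Y.ch c).y1) - k4cSlope D * (k4dZ co.2.1 - k4dZ (Y.ch c).y1)| with hW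
    have hW0 : 0 ≤ W := abs_nonneg _
    rw [le_div_iff₀ hρ] at h1
    rw [le_div_iff₀ (by positivity)]
    -- `W q/2 ρ ≤ 4 K J`, `q ≤ 2 K ρ`
    have h7 : W * Y.q * Y.q ≤ W * Y.q * (2 * K * k4cRho D) := mul_le_mul_of_nonneg_left hρq (by positivity)
    have h8 : W * Y.q * (2 * K * k4cRho D) = 4 * K * (W * (Y.q / 2) * k4cRho D) := by ring
    have h9 : 4 * K * (W * (Y.q / 2) * k4cRho D) ≤ 4 * K * (4 * K * (Y.ch c).J) := mul_le_mul_of_nonneg_left h1 (by positivity)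
    nlinarith
  · have f1 : k4dAd (Y.ch c) 1 = k4cSlope D := by rw [hD]; rfl
    rw [f1]
    exact hslope

/-! ## H3. The charge -/

/-! ## H3. The charge -/

/-- an interval of half length `w` meets at most three bins of requested width `w` -/
theorem k4d_h3_bins {w z u : ℝ} (hw : 0 < w) (h : |z - u| ≤ w) : ∃ k ∈ Finset.range 3, kbBin w z = kbBin w (u - w) + (k : ℤ) := by
  have hδ := k2s_dy_pos w
  have hge := k2s_dy_ge hw
  rw [abs_le] at h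
  unfold kbBin
  have h1 : ⌊(u - w) / kbDy w⌋ ≤ ⌊z / kbDy w⌋ := Int.floor_le_floor (div_le_div_of_nonneg_right (by linarith) hδ.le)
  have h2 : ⌊z / kbDy w⌋ ≤ ⌊(u - w) / kbDy w⌋ + 2 := by
    have h3 : z / kbDy w ≤ (u - w) / kbDy w + ((2 : ℤ) : ℝ) := by
      rw [div_add' _ _ _ hδ.ne', div_le_div_iff_of_pos_right hδ]
      push_cast
      linarith
    calc ⌊z / kbDy w⌋ ≤ ⌊(u - w) / kbDy w + ((2 : ℤ) : ℝ)⌋ := Int.floor_le_floor h3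
      _ = ⌊(u - w) / kbDy w⌋ + 2 := Int.floor_add_intCast _ _
  refine ⟨(⌊z / kbDy w⌋ - ⌊(u - w) / kbDy w⌋).toNat, ?_, ?_⟩
  · rw [Finset.mem_range]
    omega
  · omega

/-- a dyadic cube of requested width `w` lies in a ball of radius `w` -/
theorem k4d_h3_cube {v : KbVer} {w : ℝ} (hw : 0 < w) (b : Fin v.j → ℤ) :
    (kpCube w b : Set (KbB v)) ⊆ Metric.closedBall (fun i => ((b i : ℝ) + 1 / 2) * kbDy w) w := by
  intro y hy
  rw [Metric.mem_closedBall, dist_pi_le_iff hw.le]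
  intro i
  have h := (k2s_bin_iff w (y i) (b i)).1 (hy i)
  have hlt := k2s_dy_lt hw
  have hδ := k2s_dy_pos w
  rw [Real.dist_eq, abs_le]
  constructor <;> linarith [h.1, h.2]

/-- joint ceiling + palette cap for one cube -/
theorem k4d_h3_one {v : KbVer} {X : KpTan v} {p : KpPrm} {τ : ℝ} (hX : X.Ok p τ) (w : ℝ) (hw : X.N ^ (-1 / τ) ≤ w) (hw1 : w ≤ 1)
    (e : (X.Q X.G).C) (b : Fin v.j → ℤ) :
    X.P.mu ((X.Q X.G).wd e) ((X.Q X.G).S e ∩ {x | kpPv p (X.vl ((X.Q X.G).wd e) x) ∈ kpCube w b})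
      ≤ ENNReal.ofReal (X.N ^ (2 * τ) * w ^ p.S) * X.ref e := by
  have hN0 : 0 < X.N := by linarith [hX.N_two]
  have hw0 : 0 < w := lt_of_lt_of_le (Real.rpow_pos_of_pos hN0 _) hw
  refine (hX.joint w hw hw1 e b).trans (mul_le_mul' ?_ le_rfl)
  calc ENNReal.ofReal (X.N ^ τ) * X.pal ((X.Q X.G).wd e) (kpCube w b)
      ≤ ENNReal.ofReal (X.N ^ τ) * ENNReal.ofReal (X.N ^ τ * w ^ p.S) :=
        mul_le_mul' le_rfl ((measure_mono (k4d_h3_cube hw0 b)).trans (hX.pal_cap _ w hw hw1 _))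
    _ = ENNReal.ofReal (X.N ^ (2 * τ) * w ^ p.S) := by
        rw [← ENNReal.ofReal_mul (by positivity)]
        congr 1
        rw [two_mul, Real.rpow_add hN0]
        ring

/-- **LEAF H3.**  PLAN: fix `e`, `i`.  `{x ∈ S e : |Z' - u| ≤ w}` is covered by the `≤ 3` sets `S e ∩ {kpPv p (vl x) ∈ kpCube w (b₀, kbBin w 0)}`, `b₀ ∈ [kbBin w (u - w), kbBin w (u + w)]` (side `kbDy w ∈ [w, 2w)`);
`hX.joint` (with `β = w`), `kpCube w b ⊆ closedBall (centre) w`, `hX.pal_cap`: each `≤ N^τ N^τ w^S ref e`.   Sum over `i < n₀`, over `e` in the world (`ref_sum`), over the worlds (`om_sum`). -/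
theorem k4d_tan_charge {X : KpTan KbVer.two} {p : KpPrm} {τ : ℝ} (hX : X.Ok p τ) (hell : 0 < p.ell) (w : ℝ) (hw : X.N ^ (-1 / τ) ≤ w) (hw1 : w ≤ 1) (n₀ : ℕ)
    (u : (X.Q X.G).C → ℕ → ℝ) (Bad : X.P.W → Set (X.P.Lam × ℝ))
    (hBad : ∀ γ, ∀ x ∈ Bad γ, ∃ e, (X.Q X.G).wd e = γ ∧ x ∈ (X.Q X.G).S e ∧ ∃ i, i < n₀ ∧ |k4dZ (X.vl γ x) - u e i| ≤ w) :
    X.P.mass Bad ≤ ENNReal.ofReal (3 * n₀ * X.N ^ (2 * τ) * w ^ p.S) := by
  classical
  have hN0 : 0 < X.N := by linarith [hX.N_two]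
  have hw0 : 0 < w := lt_of_lt_of_le (Real.rpow_pos_of_pos hN0 _) hw
  set C : ℝ≥0∞ := ENNReal.ofReal (X.N ^ (2 * τ) * w ^ p.S) with hC
  let T : (X.Q X.G).C → Set (X.P.Lam × ℝ) := fun e => ⋃ i ∈ Finset.range n₀, ⋃ k ∈ Finset.range 3,
    (X.Q X.G).S e ∩ {x | kpPv p (X.vl ((X.Q X.G).wd e) x) ∈
      kpCube w (fun j => if (j : ℕ) = 0 then kbBin w (u e i - w) + (k : ℤ) else kbBin w 0)}
  have hT : ∀ e, X.P.mu ((X.Q X.G).wd e) (T e) ≤ (n₀ : ℝ≥0∞) * (3 * (C * X.ref e)) := by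
    intro e
    refine (measure_biUnion_finset_le _ _).trans ?_
    refine (Finset.sum_le_sum fun i _ => (measure_biUnion_finset_le _ _).trans
      (Finset.sum_le_sum fun k _ => k4d_h3_one hX w hw hw1 e _)).trans ?_
    simp only [Finset.sum_const, Finset.card_range, nsmul_eq_mul]
    exact le_of_eq (by push_cast; ring)
  have hsub : ∀ γ, Bad γ ⊆ ⋃ e ∈ Finset.univ.filter (fun e => (X.Q X.G).wd e = γ), T e := by
    intro γ x hx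
    obtain ⟨e, rfl, hxS, i, hi, hz⟩ := hBad γ x hx
    obtain ⟨k, hk, hkb⟩ := k4d_h3_bins hw0 hz
    refine Set.mem_biUnion (Finset.mem_coe.2 (Finset.mem_filter.2 ⟨Finset.mem_univ _, rfl⟩)) ?_
    refine Set.mem_biUnion (Finset.mem_coe.2 (Finset.mem_range.2 hi)) (Set.mem_biUnion (Finset.mem_coe.2 hk) ⟨hxS, ?_⟩)
    intro j
    unfold kpPv
    rw [if_pos hell]
    by_cases hj : (j : ℕ) = 0
    · simp only [if_pos hj]
      have hj' : j = (0 : Fin 2) := Fin.ext hj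
      rw [hj']
      exact hkb
    · simp only [if_neg hj]
  have hγ : ∀ γ, X.P.mu γ (Bad γ) ≤ (n₀ : ℝ≥0∞) * (3 * C) := by
    intro γ
    refine (measure_mono (hsub γ)).trans ((measure_biUnion_finset_le _ _).trans ?_)
    have h1 : ∀ e ∈ Finset.univ.filter (fun e => (X.Q X.G).wd e = γ), X.P.mu γ (T e) ≤ (n₀ : ℝ≥0∞) * (3 * (C * X.ref e)) := by
      intro e he
      have h2 := (Finset.mem_filter.1 he).2
      subst h2
      exact hT e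
    refine (Finset.sum_le_sum h1).trans ?_
    rw [← Finset.mul_sum, ← Finset.mul_sum, ← Finset.mul_sum, Finset.sum_filter]
    have h2 := hX.ref_sum γ
    calc (n₀ : ℝ≥0∞) * (3 * (C * ∑ e, if (X.Q X.G).wd e = γ then X.ref e else 0)) ≤ (n₀ : ℝ≥0∞) * (3 * (C * 1)) := by
          gcongr
      _ = (n₀ : ℝ≥0∞) * (3 * C) := by rw [mul_one]
  unfold KbPb.mass
  calc ∑ γ, X.P.om γ * X.P.mu γ (Bad γ) ≤ ∑ γ, X.P.om γ * ((n₀ : ℝ≥0∞) * (3 * C)) :=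
        Finset.sum_le_sum fun γ _ => mul_le_mul' le_rfl (hγ γ)
    _ = (n₀ : ℝ≥0∞) * (3 * C) := by rw [← Finset.sum_mul, hX.wf.om_sum, one_mul]
    _ = ENNReal.ofReal (3 * n₀ * X.N ^ (2 * τ) * w ^ p.S) := by
        have e1 : ENNReal.ofReal (3 * (n₀ : ℝ)) = 3 * (n₀ : ℝ≥0∞) := by
          rw [ENNReal.ofReal_mul (by norm_num), ENNReal.ofReal_natCast, ENNReal.ofReal_ofNat]
        rw [mul_assoc (3 * (n₀ : ℝ)), ENNReal.ofReal_mul (by positivity), e1, ← hC]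
        ring

/-! ## H4. Misaligned rows -/

/-- the covered incidences whose assigned row is NOT within `Δ` of the row of the deeper label -/
def K4dSD.mis {P : KbPb KbVer.two} (Z : K4dSD P) (Yd : KbSys P) (Ad : Yd.C → Fin 2 → ℝ) (Δ : ℝ) : P.W → Set (P.Lam × ℝ) := fun γ =>
  {x | ∃ c n e, Z.Y.wd c = γ ∧ x ∈ Z.Y.S c ∧ n < Z.k c ∧ x.1 ∈ Z.pc c n ∧ Yd.wd e = γ ∧ x ∈ Yd.S e ∧ Δ < |Z.row c n 0 - Ad e 0| + |Z.row c n 1 - Ad e 1|}

/-- two dyadic intervals of one level which meet are equal -/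
theorem k4d_kbI_inj45 {n i j : ℕ} {t : ℝ} (hi : t ∈ kbI n i) (hj : t ∈ kbI n j) : i = j := by
  have hq : 0 < kbQ n := by unfold kbQ; positivity
  by_contra hne
  rcases lt_or_gt_of_ne hne with h | h
  · have h1 : ((i : ℝ) + 1) ≤ j := by exact_mod_cast h
    have h2 : ((i : ℝ) + 1) * kbQ n ≤ j * kbQ n := by gcongr
    linarith [hi.2, hj.1]
  · have h1 : ((j : ℝ) + 1) ≤ i := by exact_mod_cast h
    have h2 : ((j : ℝ) + 1) * kbQ n ≤ i * kbQ n := by gcongr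
    linarith [hj.2, hi.1]

/-- **LEAF H4.**  PLAN: `c(e)` := the ancestor.   `u e i` := the major velocity of SOME line `l ∈ pc (c e) i ∩ Yd.A e` if `(c e, i, e)` is misaligned and such a line exists, `0` otherwise.
If `x ∈ mis γ` with `(c, n, e)`: `x ∈ A e × I e ⊆ A (c e) × I (c e)` and `x ∈ A c × I c`, same world; two dyadic intervals of one level which meet are equal, so `iv c = iv (c e)`, and `c = c e` by `A_disj`.
Both `x.1` and the chosen line satisfy `|D₀ + D₁ v| ≤ e₁ + e₂`, `D = row - Ad e`: `k4d_misaligned`. -/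
theorem k4d_sd_mis_confined {P : KbPb KbVer.two} (Z : K4dSD P) (Yd : KbSys P) (Ad : Yd.C → Fin 2 → ℝ) (Δ e₁ e₂ K : ℝ) (n₀ : ℕ) (hK : 1 ≤ K) (hwf : Z.Y.WF) (hwfd : Yd.WF)
    (hk : ∀ c, Z.k c ≤ n₀) (hanc : ∀ e, ∃ c, Z.Y.wd c = Yd.wd e ∧ Yd.A e ⊆ Z.Y.A c ∧ Yd.I e ⊆ Z.Y.I c)
    (hline : ∀ c n, n < Z.k c → ∀ l ∈ Z.pc c n, |k4dY (kbV (P.co (Z.Y.wd c) l)) - (Z.row c n 0 + Z.row c n 1 * k4dZ (kbV (P.co (Z.Y.wd c) l)))| ≤ e₁)
    (hdeep : ∀ e, ∀ l ∈ Yd.A e, |k4dY (kbV (P.co (Yd.wd e) l)) - (Ad e 0 + Ad e 1 * k4dZ (kbV (P.co (Yd.wd e) l)))| ≤ e₂)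
    (hvel : ∀ e, ∀ l ∈ Yd.A e, |k4dZ (kbV (P.co (Yd.wd e) l))| ≤ K) (hΔ : 2 * (e₁ + e₂) ≤ Δ) :
    ∃ u : Yd.C → ℕ → ℝ, ∀ γ, ∀ x ∈ Z.mis Yd Ad Δ γ, ∃ e, Yd.wd e = γ ∧ x ∈ Yd.S e ∧ ∃ i, i < n₀ ∧ |k4dZ (kbV (P.co γ x.1)) - u e i| * Δ ≤ 8 * K * (e₁ + e₂) := by
  classical
  choose cc hcc using hanc
  let u : Yd.C → ℕ → ℝ := fun e i => if h : ∃ l, l ∈ Z.pc (cc e) i ∧ l ∈ Yd.A e then k4dZ (kbV (P.co (Yd.wd e) h.choose)) else 0
  refine ⟨u, ?_⟩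
  rintro γ x ⟨c, n, e, hc, hxS, hn, hxp, he, hxSd, hmis⟩
  have hd := (hwfd.S_sub e hxSd).2
  have hs := (hwf.S_sub c hxS).2
  obtain ⟨a1, a2, a3⟩ := hcc e
  -- `c` is the ancestor
  have hceq : c = cc e := by
    by_contra hne
    have hw : Z.Y.wd c = Z.Y.wd (cc e) := by rw [hc, a1, he]
    have hiv : Z.Y.iv c = Z.Y.iv (cc e) := k4d_kbI_inj45 hs.2 (a3 hd.2)
    exact Set.disjoint_left.1 (hwf.A_disj c (cc e) hne hw hiv) hs.1 (a2 hd.1)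
  subst hceq
  subst he
  have hex : ∃ l, l ∈ Z.pc (cc e) n ∧ l ∈ Yd.A e := ⟨x.1, hxp, hd.1⟩
  have hu : u e n = k4dZ (kbV (P.co (Yd.wd e) hex.choose)) := dif_pos hex
  obtain ⟨l1, l2⟩ := hex.choose_spec
  refine ⟨e, rfl, hxSd, n, lt_of_lt_of_le hn (hk _), ?_⟩
  rw [hu]
  have key : ∀ l, l ∈ Z.pc (cc e) n → l ∈ Yd.A e →
      |(Z.row (cc e) n 0 - Ad e 0) + (Z.row (cc e) n 1 - Ad e 1) * k4dZ (kbV (P.co (Yd.wd e) l))| ≤ e₁ + e₂ := by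
    intro l h1 h2
    have b1 := hline (cc e) n hn l h1
    rw [a1] at b1
    have b2 := hdeep e l h2
    have e0 : (Z.row (cc e) n 0 - Ad e 0) + (Z.row (cc e) n 1 - Ad e 1) * k4dZ (kbV (P.co (Yd.wd e) l))
        = (k4dY (kbV (P.co (Yd.wd e) l)) - (Ad e 0 + Ad e 1 * k4dZ (kbV (P.co (Yd.wd e) l))))
          - (k4dY (kbV (P.co (Yd.wd e) l)) - (Z.row (cc e) n 0 + Z.row (cc e) n 1 * k4dZ (kbV (P.co (Yd.wd e) l)))) := by ring
    rw [e0]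
    exact (abs_sub _ _).trans (by linarith)
  exact (k4d_misaligned hK hΔ hmis (hvel e x.1 hd.1) (key x.1 hxp hd.1) (key _ l1 l2)).2

/-! ## H5. The data of a maximal strip assignment at one node -/

/-! ## H5. The data of a maximal strip assignment at one node -/

section sdof

variable (X : KpTan KbVer.two) (p : KpPrm) (c σ smax : ℝ) (A : K4dAsg (k4dStrip (X.k4d p) c σ smax)) (m : Fin (X.G + 1))

open Classical in
/-- rows and pieces of the node `m` (no rows in the inactive labels), empty selection -/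
def k4dSD0 (B : ℕ) (Kr : ℝ) : K4dSD X.P where
  Y := X.Q m
  k := fun cc => if (⟨m, cc⟩ : (X.k4d p).Lab) ∈ k4dAct (X.k4d p) smax then A.k ⟨m, cc⟩ else 0
  row := fun cc n => A.T ⟨m, cc⟩ n
  pc := fun cc n => {l | ((X.Q m).wd cc, l) ∈ A.piece ⟨m, cc⟩ n}
  g := X.N ^ (-c / 4)
  B := B
  Kr := Kr
  Sel := fun _ => ∅

/-- the prepared path on the assigned pieces of the node `m` -/
def k4dCovM : X.P.W → Set (X.P.Lam × ℝ) := fun γ =>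
  {x | x ∈ X.P.Ev γ ∧ ∃ cc n, (X.Q m).wd cc = γ ∧ n < (k4dSD0 X p c σ smax A m 0 0).k cc ∧ x.1 ∈ (k4dSD0 X p c σ smax A m 0 0).pc cc n ∧ x.2 ∈ (X.Q m).I cc}

/-- the rows of the end labels -/
def k4dAdG : (X.Q X.G).C → Fin 2 → ℝ := fun e => k4dAd ((X.Q X.G).ch e)

/-- the misaligned part -/
def k4dMisM (Δ : ℝ) : X.P.W → Set (X.P.Lam × ℝ) := (k4dSD0 X p c σ smax A m 0 0).mis (X.Q X.G) (k4dAdG X) Δ

/-- **the data of the conversion**: retained = covered and aligned -/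
def k4dSDof (B : ℕ) (Kr Δ : ℝ) : K4dSD X.P :=
  { k4dSD0 X p c σ smax A m B Kr with Sel := fun γ => k4dCovM X p c σ smax A m γ \ k4dMisM X p c σ smax A m Δ γ }

/-- the alignment threshold `g_s N^{-c/2}` -/
def k4dDel : ℝ := X.N ^ (-(p.ell * X.dep m + c / 2))

variable {X p c σ smax A m}

/-- the pieces of one node are measurable -/
theorem k4d_sdof_pc_meas45 {τ : ℝ} (hp : p.Ok) (hτ : 0 < τ) (hX : X.Ok p τ) (cc : (X.Q m).C) (n : ℕ) :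
    MeasurableSet ((k4dSD0 X p c σ smax A m 0 0).pc cc n) := by
  have hR := k4d_tan_ok hp hτ hX
  have hF := k4d_strip_wf hR c σ smax
  have h1 := A.piece_meas hF ⟨m, cc⟩ n
  letI : MeasurableSpace X.P.W := ⊤
  have h2 : Measurable (Prod.mk ((X.Q m).wd cc) : X.P.Lam → X.P.W × X.P.Lam) := measurable_prodMk_left
  exact h2 h1

/-- **LEAF H5a.**  PLAN: `X.dep` is injective on `[0, G]` (`dep_step`), so the labels of `A.covAt (X.dep m)` are the `⟨m, cc⟩`; `k4d_tan_lam0` for the slices `Rs γ := k4dSlice (covAt) γ` (measurable: `used_meas`, `k4d_slice_meas`);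
`mu γ (Rs γ) = mu γ (Rs γ ∩ Ev γ)` (`mu` is restricted to `Ev`), `Rs γ ∩ Ev γ ⊆ k4dCovM γ` (`k4d_exists_first`); `tot * tot⁻¹ = 1` (`k4d_tan_tot`). -/
theorem k4d_sdof_cov_mass {τ : ℝ} (hp : p.Ok) (hτ : 0 < τ) (hX : X.Ok p τ) :
    X.P.tot * (X.k4d p).lam0 (A.covAt (X.dep m)) ≤ X.P.mass (k4dCovM X p c σ smax A m) := by
  have hR := k4d_tan_ok hp hτ hX
  have hF := k4d_strip_wf hR c σ smax
  obtain ⟨t0, t1, -⟩ := k4d_tan_tot hX
  have tt : X.P.tot ≠ ∞ := ne_top_of_le_ne_top ENNReal.one_ne_top t1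
  have hcm : MeasurableSet (A.covAt (X.dep m)) :=
    MeasurableSet.biUnion (Set.to_countable _) fun Q _ => MeasurableSet.iUnion fun _ => (A.used_meas hF Q).prod measurableSet_Ico
  have hsm := k4d_slice_meas X.P (A.covAt (X.dep m)) hcm
  have e : (X.k4d p).lam0 (A.covAt (X.dep m)) = (X.k4d p).lam0 (k4dSel X.P (k4dSlice X.P (A.covAt (X.dep m)))) := rfl
  rw [e, k4d_tan_lam0 X p hX.wf _ hsm, ← mul_assoc, ENNReal.mul_inv_cancel t0 tt, one_mul]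
  unfold KbPb.mass
  refine Finset.sum_le_sum fun γ _ => mul_le_mul' le_rfl ?_
  have e1 : X.P.mu γ (k4dSlice X.P (A.covAt (X.dep m)) γ) = X.P.mu γ (k4dSlice X.P (A.covAt (X.dep m)) γ ∩ X.P.Ev γ) := by
    unfold KbPb.mu
    rw [Measure.restrict_apply (hsm γ), Measure.restrict_apply ((hsm γ).inter (hX.wf.Ev_meas γ)), Set.inter_assoc, Set.inter_self]
  rw [e1]
  refine measure_mono ?_
  rintro x ⟨hx, hxE⟩
  obtain ⟨⟨m', cc⟩, hQ, hx2⟩ := Set.mem_iUnion₂.1 hx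
  obtain ⟨hdep, hx3⟩ := Set.mem_iUnion.1 hx2
  have hmm : m' = m := Fin.ext (k4d_dep_inj45 hX m' m (Nat.lt_succ_iff.1 m'.2) (Nat.lt_succ_iff.1 m.2) hdep)
  subst hmm
  obtain ⟨n, hn, hfree⟩ := k4d_exists_first hx3.1
  have hγ : γ = (X.Q m').wd cc := (A.used_sub hF _ hx3.1).1
  subst hγ
  refine ⟨hxE, cc, n, rfl, ?_, hfree, hx3.2⟩
  have hk : (k4dSD0 X p c σ smax A m' 0 0).k cc = A.k ⟨m', cc⟩ := if_pos hQ
  rw [hk]
  exact hn

/-- **LEAF H5a.**  measurability (finite unions over `cc`, `n < k cc`, `e`; slices of measurable pieces) -/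
theorem k4d_sdof_meas {τ : ℝ} (hp : p.Ok) (hτ : 0 < τ) (hX : X.Ok p τ) (Δ : ℝ) (γ : X.P.W) :
    MeasurableSet (k4dCovM X p c σ smax A m γ) ∧ MeasurableSet (k4dMisM X p c σ smax A m Δ γ) := by
  have hR := k4d_tan_ok hp hτ hX
  have hF := k4d_strip_wf hR c σ smax
  have hm : (m : ℕ) ≤ X.G := Nat.lt_succ_iff.1 m.2
  have hpc : ∀ cc n, MeasurableSet ((k4dSD0 X p c σ smax A m 0 0).pc cc n) := fun cc n => k4d_sdof_pc_meas45 hp hτ hX cc n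
  constructor
  · have e : k4dCovM X p c σ smax A m γ = X.P.Ev γ ∩ ⋃ cc, ⋃ n, ⋃ (_ : (X.Q m).wd cc = γ ∧ n < (k4dSD0 X p c σ smax A m 0 0).k cc),
        (k4dSD0 X p c σ smax A m 0 0).pc cc n ×ˢ (X.Q m).I cc := by
      ext x
      simp only [k4dCovM, Set.mem_ofPred_eq, Set.mem_inter_iff, Set.mem_iUnion, Set.mem_prod, exists_prop]
      constructor
      · rintro ⟨h1, cc, n, h2, h3, h4, h5⟩
        exact ⟨h1, cc, n, ⟨h2, h3⟩, h4, h5⟩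
      · rintro ⟨h1, cc, n, ⟨h2, h3⟩, h4, h5⟩
        exact ⟨h1, cc, n, h2, h3, h4, h5⟩
    rw [e]
    exact (hX.wf.Ev_meas γ).inter (MeasurableSet.iUnion fun cc => MeasurableSet.iUnion fun n => MeasurableSet.iUnion fun _ => (hpc cc n).prod measurableSet_Ico)
  · have e : k4dMisM X p c σ smax A m Δ γ = ⋃ cc, ⋃ n, ⋃ e, ⋃ (_ : (X.Q m).wd cc = γ ∧ n < (k4dSD0 X p c σ smax A m 0 0).k cc ∧ (X.Q X.G).wd e = γ ∧
        Δ < |(k4dSD0 X p c σ smax A m 0 0).row cc n 0 - k4dAdG X e 0| + |(k4dSD0 X p c σ smax A m 0 0).row cc n 1 - k4dAdG X e 1|),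
        ((X.Q m).S cc ∩ (k4dSD0 X p c σ smax A m 0 0).pc cc n ×ˢ Set.univ) ∩ (X.Q X.G).S e := by
      ext x
      simp only [k4dMisM, K4dSD.mis, Set.mem_ofPred_eq, Set.mem_inter_iff, Set.mem_iUnion, Set.mem_prod, Set.mem_univ, and_true, exists_prop]
      constructor
      · rintro ⟨cc, n, e, h1, h2, h3, h4, h5, h6, h7⟩
        exact ⟨cc, n, e, ⟨h1, h3, h5, h7⟩, ⟨h2, h4⟩, h6⟩
      · rintro ⟨cc, n, e, ⟨h1, h3, h5, h7⟩, ⟨h2, h4⟩, h6⟩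
        exact ⟨cc, n, e, h1, h2, h3, h4, h5, h6, h7⟩
    rw [e]
    exact MeasurableSet.iUnion fun cc => MeasurableSet.iUnion fun n => MeasurableSet.iUnion fun e => MeasurableSet.iUnion fun _ =>
      (((hX.sys_wf m hm).S_meas cc).inter ((hpc cc n).prod MeasurableSet.univ)).inter ((hX.sys_wf X.G le_rfl).S_meas e)

/-- **LEAF H5b.**  `K`, `a` = ANY slack and thickness for which the node has `Geo` (tangent or actual).   `hbuf` = the power buffer.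
PLAN: `wf := hX.sys_wf`; `pc_sub`: `piece ⊆ Line ⊆ asg = k4dLn ..`; `pc_disj := k4d_free_disj`; `pc_meas`: preimage of `A.piece_meas (k4d_strip_wf ..)` under `Prod.mk γ`; `vel`: `Ntv.base`, `A_sub`, `norm_le_pi_norm`;
`line`: membership in `k4dSLine` + `hbuf`; `sel_meas := k4d_sdof_meas`. -/
theorem k4d_sdof_ok {τ : ℝ} (hp : p.Ok) (hτ : 0 < τ) (hX : X.Ok p τ) (B : ℕ) (Kr Δ K a : ℝ) (hK : 1 ≤ K) (hgeo : (X.Q m).Geo K a) (hntv : X.P.Ntv K) (hKr : Kr ≤ K) (hc : 0 ≤ c)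
    (hbuf : ∀ cc, X.N ^ σ * X.N ^ (-(p.ell * X.dep m + c)) ≤ ((X.Q m).ch cc).J / (X.Q m).q ^ 2 * X.N ^ (-c / 4)) :
    (k4dSDof X p c σ smax A m B Kr Δ).Ok K a := by
  have hR := k4d_tan_ok hp hτ hX
  have hF := k4d_strip_wf hR c σ smax
  have hm : (m : ℕ) ≤ X.G := Nat.lt_succ_iff.1 m.2
  have hN1 : 1 ≤ X.N := by linarith [hX.N_two]
  have hN0 : 0 < X.N := by linarith
  have hwf := hX.sys_wf m hm
  refine ⟨hK, hwf, hgeo, Real.rpow_pos_of_pos hN0 _, Real.rpow_le_one_of_one_le_of_nonpos hN1 (by linarith), hKr, hX.wf.co_meas, ?_, ?_, ?_, ?_, ?_, ?_⟩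
  · intro γ
    obtain ⟨h1, h2⟩ := k4d_sdof_meas (c := c) (σ := σ) (smax := smax) (A := A) (m := m) hp hτ hX Δ γ
    exact h1.diff h2
  · intro cc n
    exact k4d_sdof_pc_meas45 hp hτ hX cc n
  · intro cc n l hl
    exact (hF.line_sub _ _ (k4d_free_sub _ _ _ hl)).2
  · intro cc n n' hne
    rw [Set.disjoint_left]
    intro l h1 h2
    exact Set.disjoint_left.1 (k4d_free_disj _ _ hne) h1 h2
  · intro cc l hl
    have h1 := hntv.base ((X.Q m).wd cc) l (hwf.A_sub cc hl) 0 ⟨le_rfl, zero_le_one⟩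
    have h2 := norm_le_pi_norm (kbV (X.P.co ((X.Q m).wd cc) l)) (0 : Fin 2)
    rw [Real.norm_eq_abs] at h2
    have h3 := norm_nonneg (kbY (X.P.co ((X.Q m).wd cc) l) 0)
    exact h2.trans (by linarith)
  · intro cc n _ l hl
    exact (k4d_free_sub _ _ _ hl : _ ∈ k4dSLine (X.k4d p) c (X.N ^ σ) ⟨m, cc⟩ _).2.trans (hbuf cc)

/-- **LEAF H5b.**  PLAN: `x ∈ Ev γ` has an end label (`hX.cover X.G`); `x ∉ mis` gives `|..| + |..| ≤ Δ`. -/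
theorem k4d_sdof_al {τ : ℝ} (hX : X.Ok p τ) (B : ℕ) (Kr Δ : ℝ) (hΔ : ∀ cc, Δ ≤ ((X.Q m).ch cc).J / (X.Q m).q ^ 2 * X.N ^ (-c / 4)) :
    (k4dSDof X p c σ smax A m B Kr Δ).Al (X.Q X.G) (k4dAdG X) := by
  rintro cc n hn x ⟨⟨hcov, hmis⟩, hxS⟩ hxp
  have hsel := hX.cover X.G le_rfl _ hcov.1
  obtain ⟨e, he⟩ := Set.mem_iUnion.1 hsel
  obtain ⟨hew, hxe⟩ := Set.mem_iUnion.1 he
  have h1 : |A.T ⟨m, cc⟩ n 0 - k4dAdG X e 0| + |A.T ⟨m, cc⟩ n 1 - k4dAdG X e 1| ≤ Δ := by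
    by_contra hlt
    rw [not_le] at hlt
    exact hmis ⟨cc, n, e, rfl, hxS, hn, hxp, hew, hxe, hlt⟩
  have h2 := hΔ cc
  have a0 := abs_nonneg (A.T ⟨m, cc⟩ n 0 - k4dAdG X e 0)
  have a1 := abs_nonneg (A.T ⟨m, cc⟩ n 1 - k4dAdG X e 1)
  refine ⟨e, hew, hxe, ?_, ?_⟩
  · change |A.T ⟨m, cc⟩ n 0 - k4dAdG X e 0| ≤ ((X.Q m).ch cc).J / (X.Q m).q ^ 2 * X.N ^ (-c / 4)
    linarith
  · change |A.T ⟨m, cc⟩ n 1 - k4dAdG X e 1| ≤ ((X.Q m).ch cc).J / (X.Q m).q ^ 2 * X.N ^ (-c / 4)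
    linarith

/-- the lines of an assigned piece: assignment and line inequality -/
theorem k4d_h5c_pc {B : ℕ} {Kr : ℝ} {cc : (X.Q m).C} {n : ℕ} {l : X.P.Lam} (hl : l ∈ (k4dSD0 X p c σ smax A m B Kr).pc cc n) :
    l ∈ (X.Q m).A cc ∧ |k4dY (kbV (X.P.co ((X.Q m).wd cc) l)) - ((k4dSD0 X p c σ smax A m B Kr).row cc n 0
      + (k4dSD0 X p c σ smax A m B Kr).row cc n 1 * k4dZ (kbV (X.P.co ((X.Q m).wd cc) l)))| ≤ X.N ^ σ * X.N ^ (-(p.ell * X.dep m + c)) := by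
  have h1 : ((X.Q m).wd cc, l) ∈ k4dSLine (X.k4d p) c ((X.k4d p).N ^ σ) ⟨m, cc⟩ (A.T ⟨m, cc⟩ n) := k4d_free_sub _ _ _ hl
  exact ⟨h1.1.2, h1.2⟩

/-- the integer part of a bounded quotient -/
theorem k4d_h5c_floor {y t T M : ℝ} {B : ℕ} (ht : 0 < t) (hT : 1 ≤ T * t) (hy : |y| ≤ M) (hB : M * T + 1 ≤ B) : |⌊y / t⌋| ≤ (B : ℤ) := by
  have hM : 0 ≤ M := (abs_nonneg _).trans hy
  have h1 : |y / t| ≤ M * T := by
    rw [abs_div, abs_of_pos ht, div_le_iff₀ ht]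
    calc |y| ≤ M := hy
      _ = M * 1 := (mul_one _).symm
      _ ≤ M * (T * t) := mul_le_mul_of_nonneg_left hT hM
      _ = M * T * t := by ring
  rw [abs_le] at h1
  have h2 := Int.floor_le (y / t)
  have h3 := Int.lt_floor_add_one (y / t)
  have h4 : |((⌊y / t⌋ : ℤ) : ℝ)| ≤ (B : ℝ) := by
    rw [abs_le]
    constructor <;> linarith [h1.1, h1.2]
  have h5 : ((|⌊y / t⌋| : ℤ) : ℝ) ≤ ((B : ℤ) : ℝ) := by
    rw [Int.cast_abs, Int.cast_natCast]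
    exact h4
  exact Int.cast_le.1 h5

/-- **LEAF H5c.**  the bins of the retained incidences are admitted.   `M0, M1` bound the rows of the end labels, `T` bounds `1/τ_c` and `1/q`.
PLAN: `x ∈ Sel γ`: `cc, n` from `k4dCovM`; `x ∈ S cc` by `hX.path`; end label `e` (`hX.cover`), aligned: `|row i| ≤ M_i + Δ ≤ M_i + 1`; `|⌊y/τ⌋| ≤ |y| T + 1`; `|r₁| ≤ |row 1| + τ ≤ M1 + 2` (`k4d_bin_val`);
`|pos| ≤ K + Kr K` (`Ntv.base` at `t_c ∈ [0,1]`). -/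
theorem k4d_sdof_cov {τ : ℝ} (hX : X.Ok p τ) (B : ℕ) (Kr Δ K M0 M1 T : ℝ) (hK : 1 ≤ K) (hntv : X.P.Ntv K) (hM0 : ∀ e, |k4dAdG X e 0| ≤ M0) (hM1 : ∀ e, |k4dAdG X e 1| ≤ M1)
    (hΔ : ∀ cc, Δ ≤ ((X.Q m).ch cc).J / (X.Q m).q ^ 2 * X.N ^ (-c / 4)) (htau1 : ∀ cc, ((X.Q m).ch cc).J / (X.Q m).q ^ 2 * X.N ^ (-c / 4) ≤ 1)
    (hT : ∀ cc, 1 ≤ T * (((X.Q m).ch cc).J / (X.Q m).q ^ 2 * X.N ^ (-c / 4))) (hTq : 1 ≤ T * (X.Q m).q) (hKr : M1 + 2 ≤ Kr)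
    (hB0 : (M0 + 1) * T + 1 ≤ B) (hB1 : (M1 + 1) * T + 1 ≤ B) (hB2 : K * (1 + Kr) * T ^ 2 + 1 ≤ B) :
    (k4dSDof X p c σ smax A m B Kr Δ).Cov := by
  have hm : (m : ℕ) ≤ X.G := Nat.lt_succ_iff.1 m.2
  have hN0 : 0 < X.N := by linarith [hX.N_two]
  have hwf := hX.sys_wf m hm
  have hq : 0 < (X.Q m).q := k2s_q_pos _
  rintro γ x ⟨⟨hxE, cc, n, rfl, hn, hpc, hxI⟩, hmis⟩
  have hA := (k4d_h5c_pc hpc).1
  have hxS : x ∈ (X.Q m).S cc := by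
    rw [hX.path m hm cc]
    exact ⟨hxE, hA, hxI⟩
  refine ⟨cc, n, rfl, hxS, hn, hpc, ?_⟩
  -- the end label
  have hsel := hX.cover X.G le_rfl _ hxE
  simp only [KbSys.sel, Set.mem_iUnion, exists_prop] at hsel
  obtain ⟨e, hwe, hxe⟩ := hsel
  have hal : |A.T ⟨m, cc⟩ n 0 - k4dAdG X e 0| + |A.T ⟨m, cc⟩ n 1 - k4dAdG X e 1| ≤ Δ := by
    by_contra hlt
    exact hmis ⟨cc, n, e, rfl, hxS, hn, hpc, hwe, hxe, not_le.1 hlt⟩
  -- the numbers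
  set t : ℝ := ((X.Q m).ch cc).J / (X.Q m).q ^ 2 * X.N ^ (-c / 4) with ht
  have ht0 : 0 < t := by
    have := k2s_J_pos _ hwf cc
    have := Real.rpow_pos_of_pos hN0 (-c / 4)
    positivity
  have hΔt : Δ ≤ 1 := (hΔ cc).trans (htau1 cc)
  have hTt : 1 ≤ T * t := hT cc
  have hT0 : 0 < T := by
    by_contra h
    have : T * t ≤ 0 := mul_nonpos_of_nonpos_of_nonneg (not_lt.1 h) ht0.le
    linarith
  have hr0 : |A.T ⟨m, cc⟩ n 0| ≤ M0 + 1 := by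
    have h1 := abs_sub_abs_le_abs_sub (A.T ⟨m, cc⟩ n 0) (k4dAdG X e 0)
    have h2 := hM0 e
    have h3 := abs_nonneg (A.T ⟨m, cc⟩ n 1 - k4dAdG X e 1)
    linarith
  have hr1 : |A.T ⟨m, cc⟩ n 1| ≤ M1 + 1 := by
    have h1 := abs_sub_abs_le_abs_sub (A.T ⟨m, cc⟩ n 1) (k4dAdG X e 1)
    have h2 := hM1 e
    have h3 := abs_nonneg (A.T ⟨m, cc⟩ n 0 - k4dAdG X e 0)
    linarith
  have hR1 : |(⌊A.T ⟨m, cc⟩ n 1 / t⌋ : ℝ) * t| ≤ Kr := by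
    have h1 := k4d_bin_val (x := A.T ⟨m, cc⟩ n 1) ht0
    have h2 := abs_sub_abs_le_abs_sub ((⌊A.T ⟨m, cc⟩ n 1 / t⌋ : ℝ) * t) (A.T ⟨m, cc⟩ n 1)
    rw [abs_sub_comm] at h2
    have h3 : t ≤ 1 := htau1 cc
    linarith
  have htc : (X.Q m).tc cc ∈ Set.Icc (0 : ℝ) 1 := by
    refine k2s_I_sub _ hwf cc ⟨le_rfl, ?_⟩
    have hq' : 0 < kbQ (X.Q m).n := hq
    show ((X.Q m).iv cc : ℝ) * kbQ (X.Q m).n < (((X.Q m).iv cc : ℝ) + 1) * kbQ (X.Q m).n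
    nlinarith
  have hbase := hntv.base _ x.1 (hX.wf.Ev_sub _ hxE).1 _ htc
  have hnY : ‖kbY (X.P.co ((X.Q m).wd cc) x.1) ((X.Q m).tc cc)‖ ≤ K := by
    have := norm_nonneg (kbV (X.P.co ((X.Q m).wd cc) x.1))
    linarith
  have hY1 : |k4dY (kbY (X.P.co ((X.Q m).wd cc) x.1) ((X.Q m).tc cc))| ≤ K :=
    (norm_le_pi_norm (kbY (X.P.co ((X.Q m).wd cc) x.1) ((X.Q m).tc cc)) (1 : Fin 2)).trans hnY
  have hZ1 : |k4dZ (kbY (X.P.co ((X.Q m).wd cc) x.1) ((X.Q m).tc cc))| ≤ K :=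
    (norm_le_pi_norm (kbY (X.P.co ((X.Q m).wd cc) x.1) ((X.Q m).tc cc)) (0 : Fin 2)).trans hnY
  have hKr0 : 0 ≤ Kr := (abs_nonneg _).trans hR1
  have hpos : |k4dY (kbY (X.P.co ((X.Q m).wd cc) x.1) ((X.Q m).tc cc))
      - (⌊A.T ⟨m, cc⟩ n 1 / t⌋ : ℝ) * t * k4dZ (kbY (X.P.co ((X.Q m).wd cc) x.1) ((X.Q m).tc cc))| ≤ K * (1 + Kr) := by
    refine (abs_sub _ _).trans ?_
    rw [abs_mul]
    have := mul_le_mul hR1 hZ1 (abs_nonneg _) hKr0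
    linarith
  refine ⟨k4d_h5c_floor ht0 hTt hr0 hB0, k4d_h5c_floor ht0 hTt hr1 hB1, ?_, hR1⟩
  refine k4d_h5c_floor (t := (X.Q m).q * t) (T := T ^ 2) (mul_pos hq ht0) ?_ hpos hB2
  calc (1 : ℝ) = 1 * 1 := (one_mul 1).symm
    _ ≤ (T * (X.Q m).q) * (T * t) := mul_le_mul hTq hTt zero_le_one (by positivity)
    _ = T ^ 2 * ((X.Q m).q * t) := by ring

/-- **LEAF H5c.**  the misaligned mass: H1 + H3 + H4.   PLAN: `k4d_sd_mis_confined` for `k4dSD0` (`hanc := k4d_tan_anc`, `hline`: membership in `k4dSLine`), divide by `Δ`, `k4d_tan_charge`. -/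
theorem k4d_sdof_mis {τ : ℝ} (hX : X.Ok p τ) (hell : 0 < p.ell) (Δ e₁ e₂ K w : ℝ) (n₀ : ℕ) (hK : 1 ≤ K) (hk : ∀ cc, (k4dSD0 X p c σ smax A m 0 0).k cc ≤ n₀)
    (he₁ : X.N ^ σ * X.N ^ (-(p.ell * X.dep m + c)) ≤ e₁)
    (hdeep : ∀ e, ∀ l ∈ (X.Q X.G).A e, |k4dY (kbV (X.P.co ((X.Q X.G).wd e) l)) - (k4dAdG X e 0 + k4dAdG X e 1 * k4dZ (kbV (X.P.co ((X.Q X.G).wd e) l)))| ≤ e₂)
    (hntv : X.P.Ntv K) (hΔ0 : 0 < Δ) (hΔ : 2 * (e₁ + e₂) ≤ Δ) (hw : 8 * K * (e₁ + e₂) ≤ w * Δ) (hw0 : X.N ^ (-1 / τ) ≤ w) (hw1 : w ≤ 1) :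
    X.P.mass (k4dMisM X p c σ smax A m Δ) ≤ ENNReal.ofReal (3 * n₀ * X.N ^ (2 * τ) * w ^ p.S) := by
  have hm : (m : ℕ) ≤ X.G := Nat.lt_succ_iff.1 m.2
  obtain ⟨u, hu⟩ := k4d_sd_mis_confined (k4dSD0 X p c σ smax A m 0 0) (X.Q X.G) (k4dAdG X) Δ e₁ e₂ K n₀ hK (hX.sys_wf m hm) (hX.sys_wf X.G le_rfl) hk
    (fun e => k4d_tan_anc hX m hm e) (fun cc n _ l hl => (k4d_h5c_pc hl).2.trans he₁) hdeep
    (fun e l hl => by
      have h1 := hntv.base _ l ((hX.sys_wf X.G le_rfl).A_sub e hl) 0 ⟨le_rfl, zero_le_one⟩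
      have h2 := norm_nonneg (kbY (X.P.co ((X.Q X.G).wd e) l) 0)
      exact (norm_le_pi_norm (kbV (X.P.co ((X.Q X.G).wd e) l)) (0 : Fin 2)).trans (by linarith)) hΔ
  refine k4d_tan_charge hX hell w hw0 hw1 n₀ u _ (fun γ x hx => ?_)
  obtain ⟨e, h1, h2, i, hi, h3⟩ := hu γ x hx
  exact ⟨e, h1, h2, i, hi, le_of_mul_le_mul_right (h3.trans hw) hΔ0⟩

end sdof

/-! ## H6, H7. The strip branch -/

/-- the smallness condition of the menu for strips: `σ ≤ κ c`, `κ = min (1, S) / 12` -/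
def k4dKap (p : KpPrm) : ℝ := min 1 p.S / 12

/-- negative powers of `N ≥ 2^{1/τ²}` are `O(τ²)` -/
theorem k4d_num_small {N τ b : ℝ} (hτ : 0 < τ) (hb : 0 < b) (hN : (2 : ℝ) ^ (1 / τ ^ 2) ≤ N) : N ^ (-b) ≤ 2 * τ ^ 2 / b := by
  have h2 : (0 : ℝ) < (2 : ℝ) ^ (1 / τ ^ 2) := by positivity
  have hN0 : 0 < N := lt_of_lt_of_le h2 hN
  have hx : 0 < b / τ ^ 2 := by positivity
  have h3 : (2 : ℝ) ^ (b / τ ^ 2) ≤ N ^ b := by
    calc (2 : ℝ) ^ (b / τ ^ 2) = ((2 : ℝ) ^ (1 / τ ^ 2)) ^ b := by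
          rw [← Real.rpow_mul (by norm_num)]
          congr 1
          ring
      _ ≤ N ^ b := Real.rpow_le_rpow h2.le hN hb.le
  have h4 : b / τ ^ 2 / 2 ≤ (2 : ℝ) ^ (b / τ ^ 2) := by
    rw [Real.rpow_def_of_pos (by norm_num)]
    have h5 := Real.add_one_le_exp (Real.log 2 * (b / τ ^ 2))
    have h6 : (1 / 2 : ℝ) ≤ Real.log 2 := by
      have := Real.log_two_gt_d9
      linarith
    nlinarith
  rw [Real.rpow_neg hN0.le, inv_eq_one_div, div_le_div_iff₀ (by positivity) hb]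
  have h7 : b / τ ^ 2 / 2 ≤ N ^ b := h4.trans h3
  have h8 : b / τ ^ 2 / 2 * (2 * τ ^ 2) = b := by
    field_simp
  nlinarith [mul_le_mul_of_nonneg_right h7 (show (0:ℝ) ≤ 2 * τ ^ 2 by positivity)]

/-- **LEAF H6N** : what a guarded sample knows about its numbers.
PLAN: `nodes`: `1/τ ≤ (G+1)/τ ≤ log N₀`; `Kp log N₀ ≥ 2`, `n ≥ 1/τ ≥ 1`: `Ks = (Kp log N₀)^n ≥ Kp log N₀ ≥ max Kp (log N₀)` and `Ks ≥ 2^n ≥ 2^{1/τ}`; `slack`: `Ks ≤ N^τ`; hence `N ≥ 2^{1/τ²}` (`Real.rpow_le_rpow_iff`, `Real.rpow_mul`). -/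
theorem k4d_sam_num {v : KbVer} {p : KpPrm} {τ : ℝ} (hτ : 0 < τ) (hτ1 : τ ≤ 1) {s : KpSam v} (hs : s.Ok p τ) :
    1 / τ ≤ Real.log s.N0 ∧ s.Kp ≤ s.tan.N ^ τ ∧ Real.log s.N0 ≤ s.tan.N ^ τ ∧ (2 : ℝ) ^ (1 / τ ^ 2) ≤ s.tan.N ∧ s.Kp ≤ s.N0 ∧ s.tan.N ≤ s.N0 ∧
      ∀ k : ℕ, (k : ℝ) ≤ 1 / τ → (s.Kp * Real.log s.N0) ^ k ≤ s.Ks := by
  have hlog : 1 / τ ≤ Real.log s.N0 := by
    rw [div_le_iff₀ hτ]
    have h1 := hs.nodes
    have h2 : (0 : ℝ) ≤ (s.G : ℝ) := Nat.cast_nonneg _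
    linarith
  have hτinv : 1 ≤ 1 / τ := by
    rw [le_div_iff₀ hτ]
    linarith
  have hlog1 : 1 ≤ Real.log s.N0 := hτinv.trans hlog
  have hKp := hs.Kp_one
  obtain ⟨x, hx⟩ : ∃ x, x = s.Kp * Real.log s.N0 := ⟨_, rfl⟩
  have hxK : s.Kp ≤ x := by rw [hx]; nlinarith
  have hxL : Real.log s.N0 ≤ x := by rw [hx]; nlinarith
  have hx2 : 2 ≤ x := hKp.trans hxK
  have hx1 : 1 ≤ x := by linarith
  have hn : 1 / τ ≤ (s.n : ℝ) := hs.stage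
  have hn1 : 1 ≤ s.n := by
    have : (1 : ℝ) ≤ (s.n : ℝ) := hτinv.trans hn
    exact_mod_cast this
  have hKs : s.Ks = x ^ s.n := by rw [hx]; rfl
  have hxKs : x ≤ s.Ks := by
    rw [hKs]
    calc x = x ^ 1 := (pow_one x).symm
      _ ≤ x ^ s.n := pow_le_pow_right₀ hx1 hn1
  have hslack : s.Ks ≤ s.tan.N ^ τ := hs.slack
  have hN0pos : 0 < s.N0 := by
    have h1 := hs.small
    rw [← hx] at h1
    by_contra hh
    have : τ * s.N0 ≤ 0 := mul_nonpos_of_nonneg_of_nonpos hτ.le (not_lt.1 hh)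
    linarith
  have hN01 : 1 ≤ s.N0 := by
    by_contra hh
    have := Real.log_nonpos hN0pos.le (not_le.1 hh).le
    linarith
  have hNpos : 0 < s.tan.N := Real.rpow_pos_of_pos hN0pos _
  refine ⟨hlog, hxK.trans (hxKs.trans hslack), hxL.trans (hxKs.trans hslack), ?_, ?_, ?_, ?_⟩
  · have h1 : (2 : ℝ) ^ (1 / τ) ≤ s.tan.N ^ τ := by
      refine le_trans ?_ hslack
      rw [hKs]
      calc (2 : ℝ) ^ (1 / τ) ≤ (2 : ℝ) ^ (s.n : ℝ) := Real.rpow_le_rpow_of_exponent_le (by norm_num) hn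
        _ = (2 : ℝ) ^ s.n := Real.rpow_natCast _ _
        _ ≤ x ^ s.n := pow_le_pow_left₀ (by norm_num) hx2 _
    have h2 := Real.rpow_le_rpow (Real.rpow_pos_of_pos (by norm_num) _).le h1 (show (0 : ℝ) ≤ 1 / τ by positivity)
    rw [← Real.rpow_mul (by norm_num), ← Real.rpow_mul hNpos.le] at h2
    have e1 : 1 / τ * (1 / τ) = 1 / τ ^ 2 := by
      field_simp
    have e2 : τ * (1 / τ) = 1 := by
      field_simp
    rwa [e1, e2, Real.rpow_one] at h2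
  · have h1 := hs.small
    rw [← hx] at h1
    have : τ * s.N0 ≤ 1 * s.N0 := mul_le_mul_of_nonneg_right hτ1 hN0pos.le
    linarith
  · change s.N0 ^ s.eps ≤ s.N0
    calc s.N0 ^ s.eps ≤ s.N0 ^ (1 : ℝ) := Real.rpow_le_rpow_of_exponent_le hN01 (hs.eps_le.trans hτ1)
      _ = s.N0 := Real.rpow_one _
  · intro k hk
    rw [← hx, hKs]
    refine pow_le_pow_right₀ hx1 ?_
    have : (k : ℝ) ≤ (s.n : ℝ) := hk.trans hn
    exact_mod_cast this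

/-- a large power: `N ≥ 2^{1/τ²}` beats every constant -/
theorem k4d_pow_big45 {τ N a M : ℝ} (hτ : 0 < τ) (hN : (2 : ℝ) ^ (1 / τ ^ 2) ≤ N) (ha : 0 ≤ a) (h : 2 * M * τ ^ 2 ≤ a) : M ≤ N ^ a := by
  have h2 : (0 : ℝ) < (2 : ℝ) ^ (1 / τ ^ 2) := Real.rpow_pos_of_pos (by norm_num) _
  have h1 : ((2 : ℝ) ^ (1 / τ ^ 2)) ^ a ≤ N ^ a := Real.rpow_le_rpow h2.le hN ha
  rw [← Real.rpow_mul (by norm_num)] at h1
  refine le_trans ?_ h1
  have hτ2 : 0 < τ ^ 2 := by positivity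
  set t := 1 / τ ^ 2 * a with ht
  have ht2 : 2 * M ≤ t := by
    rw [ht, one_div, inv_mul_eq_div, le_div_iff₀ hτ2]
    exact h
  have ht0 : 0 ≤ t := by positivity
  have e : (2 : ℝ) ^ t = Real.exp (Real.log 2 * t) := by
    rw [Real.rpow_def_of_pos (by norm_num)]
  rw [e]
  have h3 := Real.add_one_le_exp (Real.log 2 * t)
  have h4 : (1 / 2 : ℝ) ≤ Real.log 2 := by
    have := Real.log_two_gt_d9
    linarith
  nlinarith

/-- the numerics of the strip branch -/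
theorem k4d_strip_num45 (S ell c σ η smax : ℝ) (hS : 0 < S) (hell : 0 < ell) (hsm : 0 ≤ smax) (hσ : 0 < σ) (hσc : σ ≤ min 1 S / 12 * c) (hη : 0 < η) :
    ∃ τ₁ : ℝ, 0 < τ₁ ∧ ∀ τ : ℝ, 0 < τ → τ ≤ τ₁ → τ ≤ 1 ∧ ∀ N sm dG : ℝ, (2 : ℝ) ^ (1 / τ ^ 2) ≤ N → sm ≤ smax → 1 / τ ≤ dG →
      16 * N ^ (3 * τ - ell * dG) ≤ N ^ σ * N ^ (-(ell * sm + c)) ∧
      4 * (N ^ σ * N ^ (-(ell * sm + c))) ≤ N ^ (-(ell * sm + c / 2)) ∧
      16 * N ^ τ * (N ^ σ * N ^ (-(ell * sm + c))) ≤ (32 * N ^ (τ + σ - c / 2)) * N ^ (-(ell * sm + c / 2)) ∧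
      N ^ (-1 / τ) ≤ 32 * N ^ (τ + σ - c / 2) ∧ 32 * N ^ (τ + σ - c / 2) ≤ 1 ∧
      3 * (N ^ τ * N ^ σ) * N ^ (2 * τ) * (32 * N ^ (τ + σ - c / 2)) ^ S ≤ η / 2 * N ^ (-τ) * N ^ (-τ) := by
  have hmin0 : 0 < min 1 S := lt_min one_pos hS
  have hc : 0 < c := by
    by_contra hh
    have : min 1 S / 12 * c ≤ 0 := mul_nonpos_of_nonneg_of_nonpos (by positivity) (not_lt.1 hh)
    linarith
  have hσ1 : σ ≤ c / 12 := by
    have : min 1 S / 12 * c ≤ 1 / 12 * c := by gcongr; exact min_le_left _ _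
    linarith
  have hσS : σ ≤ S * c / 12 := by
    have : min 1 S / 12 * c ≤ S / 12 * c := by gcongr; exact min_le_right _ _
    linarith
  obtain ⟨M, hM⟩ : ∃ M : ℝ, M = 6 * (32 : ℝ) ^ S / η := ⟨_, rfl⟩
  have h32 : (0 : ℝ) < (32 : ℝ) ^ S := Real.rpow_pos_of_pos (by norm_num) _
  have hM0 : 0 < M := by rw [hM]; positivity
  obtain ⟨τ₁, hτ₁, b1, b2, b3, b4, b5, b6⟩ : ∃ τ₁ : ℝ, 0 < τ₁ ∧ τ₁ ≤ 1 / 8 ∧ τ₁ ≤ ell / (ell * smax + c + 4) ∧ τ₁ ≤ c / 192 ∧ τ₁ ≤ 2 / c ∧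
      τ₁ ≤ S * c / (6 * (5 + S)) ∧ τ₁ ≤ (S * c / 6) / (2 * M) := by
    refine ⟨min (1 / 8) (min (ell / (ell * smax + c + 4)) (min (c / 192) (min (2 / c) (min (S * c / (6 * (5 + S))) ((S * c / 6) / (2 * M)))))), ?_,
      min_le_left _ _, (min_le_right _ _).trans (min_le_left _ _), (min_le_right _ _).trans ((min_le_right _ _).trans (min_le_left _ _)),
      (min_le_right _ _).trans ((min_le_right _ _).trans ((min_le_right _ _).trans (min_le_left _ _))),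
      (min_le_right _ _).trans ((min_le_right _ _).trans ((min_le_right _ _).trans ((min_le_right _ _).trans (min_le_left _ _)))),
      (min_le_right _ _).trans ((min_le_right _ _).trans ((min_le_right _ _).trans ((min_le_right _ _).trans (min_le_right _ _))))⟩
    refine lt_min (by norm_num) (lt_min (by positivity) (lt_min (by positivity) (lt_min (by positivity) (lt_min (by positivity) (by positivity)))))
  refine ⟨τ₁, hτ₁, fun τ hτ hle => ?_⟩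
  have c1 : τ ≤ 1 / 8 := hle.trans b1
  have hτ1 : τ ≤ 1 := by linarith
  have hτsq : τ ^ 2 ≤ τ := by nlinarith
  have hτsq8 : τ ^ 2 ≤ 1 / 64 := by
    have := pow_le_pow_left₀ hτ.le c1 2
    norm_num at this
    linarith
  have c2 : τ * (ell * smax + c + 4) ≤ ell := by
    have := hle.trans b2
    rwa [le_div_iff₀ (by positivity)] at this
  have c3 : τ ≤ c / 192 := hle.trans b3
  have c4 : τ * c ≤ 2 := by
    have := hle.trans b4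
    rwa [le_div_iff₀ hc] at this
  have c5 : (5 + S) * τ ≤ S * c / 6 := by
    have := hle.trans b5
    rw [le_div_iff₀ (by positivity)] at this
    linarith
  have c6 : 2 * M * τ ≤ S * c / 6 := by
    have := hle.trans b6
    rw [le_div_iff₀ (by positivity)] at this
    linarith
  refine ⟨hτ1, fun N sm dG hN hsm' hdG => ?_⟩
  have h2p : (1 : ℝ) ≤ (2 : ℝ) ^ (1 / τ ^ 2) := Real.one_le_rpow (by norm_num) (by positivity)
  have hN1 : 1 ≤ N := h2p.trans hN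
  have hN0 : 0 < N := by linarith
  have mono : ∀ {x y : ℝ}, x ≤ y → N ^ x ≤ N ^ y := fun h => Real.rpow_le_rpow_of_exponent_le hN1 h
  have pos : ∀ x : ℝ, 0 < N ^ x := fun x => Real.rpow_pos_of_pos hN0 x
  have big16 : 16 ≤ N ^ (1 : ℝ) := k4d_pow_big45 hτ hN (by norm_num) (by linarith)
  have big32 : 32 ≤ N ^ (c / 3) := k4d_pow_big45 hτ hN (by positivity) (by linarith)
  have bigM : M ≤ N ^ (S * c / 6) := k4d_pow_big45 hτ hN (by positivity) (by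
    have := mul_le_mul_of_nonneg_left hτsq hM0.le
    linarith)
  have hdG' : ell * smax + c + 4 ≤ ell * dG := by
    have h1 : ell / τ ≤ ell * dG := by
      rw [div_eq_mul_one_div]
      exact mul_le_mul_of_nonneg_left hdG hell.le
    have h2 : ell * smax + c + 4 ≤ ell / τ := by
      rw [le_div_iff₀ hτ]
      linarith
    linarith
  have hsm2 : ell * sm ≤ ell * smax := mul_le_mul_of_nonneg_left hsm' hell.le
  have e1 : N ^ σ * N ^ (-(ell * sm + c)) = N ^ (σ - ell * sm - c) := by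
    rw [← Real.rpow_add hN0]
    congr 1
    ring
  refine ⟨?_, ?_, ?_, ?_, ?_, ?_⟩
  · rw [e1]
    calc 16 * N ^ (3 * τ - ell * dG) ≤ N ^ (1 : ℝ) * N ^ (3 * τ - ell * dG) := mul_le_mul_of_nonneg_right big16 (pos _).le
      _ = N ^ (1 + (3 * τ - ell * dG)) := (Real.rpow_add hN0 _ _).symm
      _ ≤ N ^ (σ - ell * sm - c) := mono (by linarith)
  · rw [e1]
    calc 4 * N ^ (σ - ell * sm - c) ≤ N ^ (c / 3) * N ^ (σ - ell * sm - c) := mul_le_mul_of_nonneg_right (by linarith) (pos _).le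
      _ = N ^ (c / 3 + (σ - ell * sm - c)) := (Real.rpow_add hN0 _ _).symm
      _ ≤ N ^ (-(ell * sm + c / 2)) := mono (by linarith)
  · rw [e1]
    have e2 : N ^ τ * N ^ (σ - ell * sm - c) = N ^ (τ + σ - c / 2) * N ^ (-(ell * sm + c / 2)) := by
      rw [← Real.rpow_add hN0, ← Real.rpow_add hN0]
      congr 1
      ring
    have := mul_pos (pos (τ + σ - c / 2)) (pos (-(ell * sm + c / 2)))
    calc 16 * N ^ τ * N ^ (σ - ell * sm - c) = 16 * (N ^ τ * N ^ (σ - ell * sm - c)) := by ring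
      _ = 16 * (N ^ (τ + σ - c / 2) * N ^ (-(ell * sm + c / 2))) := by rw [e2]
      _ ≤ 32 * N ^ (τ + σ - c / 2) * N ^ (-(ell * sm + c / 2)) := by linarith
  · have h1 : -1 / τ ≤ τ + σ - c / 2 := by
      rw [div_le_iff₀ hτ]
      have e : (τ + σ - c / 2) * τ = τ * τ + σ * τ - (τ * c) / 2 := by ring
      rw [e]
      linarith [mul_pos hτ hτ, mul_pos hσ hτ]
    calc N ^ (-1 / τ) ≤ N ^ (τ + σ - c / 2) := mono h1
      _ ≤ 32 * N ^ (τ + σ - c / 2) := by linarith [pos (τ + σ - c / 2)]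
  · calc 32 * N ^ (τ + σ - c / 2) ≤ N ^ (c / 3) * N ^ (τ + σ - c / 2) := mul_le_mul_of_nonneg_right big32 (pos _).le
      _ = N ^ (c / 3 + (τ + σ - c / 2)) := (Real.rpow_add hN0 _ _).symm
      _ ≤ N ^ (0 : ℝ) := mono (by linarith)
      _ = 1 := Real.rpow_zero _
  · have e3 : (32 * N ^ (τ + σ - c / 2)) ^ S = (32 : ℝ) ^ S * N ^ ((τ + σ - c / 2) * S) := by
      rw [Real.mul_rpow (by norm_num) (pos _).le, ← Real.rpow_mul hN0.le]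
    rw [e3]
    have e4 : 3 * (N ^ τ * N ^ σ) * N ^ (2 * τ) * ((32 : ℝ) ^ S * N ^ ((τ + σ - c / 2) * S)) = (3 * (32 : ℝ) ^ S) * N ^ (τ + σ + 2 * τ + (τ + σ - c / 2) * S) := by
      rw [Real.rpow_add hN0, Real.rpow_add hN0, Real.rpow_add hN0]
      ring
    have e5 : 3 * (32 : ℝ) ^ S = η / 2 * M := by
      rw [hM]
      field_simp
      ring
    have e6 : η / 2 * N ^ (-τ) * N ^ (-τ) = η / 2 * N ^ (-τ + -τ) := by
      rw [Real.rpow_add hN0]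
      ring
    rw [e4, e5, e6]
    have hSσ : S * σ ≤ S * c / 12 := by
      have := mul_le_mul_of_nonneg_left hσ1 hS.le
      linarith
    calc η / 2 * M * N ^ (τ + σ + 2 * τ + (τ + σ - c / 2) * S) ≤ η / 2 * N ^ (S * c / 6) * N ^ (τ + σ + 2 * τ + (τ + σ - c / 2) * S) := by
          gcongr
      _ = η / 2 * N ^ (S * c / 6 + (τ + σ + 2 * τ + (τ + σ - c / 2) * S)) := by
          rw [mul_assoc, ← Real.rpow_add hN0]
      _ ≤ η / 2 * N ^ (-τ + -τ) := by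
          refine mul_le_mul_of_nonneg_left (mono ?_) (by positivity)
          linarith

/-- **LEAF H6M** : the retained mass.   Notation: `N = s.tan.N`, `X = s.tan`, `S = p.S`.
PLAN.  (1) `k4d_cov_node` (`depths.card ≤ G + 1`): a depth `X.dep m`, `m ≤ G`, with `η ≤ (G+1) lam0 (covAt (dep m))`; `covAt ≠ ∅` gives an active label, so `dep m ≤ smax`.   (2) `k4d_sdof_cov_mass`: `tot η/(G+1) ≤ mass CovM`.
(3) `k4d_sdof_mis` with `K = Kp` (`hs.ntv`), `n₀ = ⌊N^τ N^σ⌋₊` (`k4d_strip_count`), `e₁ = N^σ N^{-(ℓ s + c)}`, `e₂ = 16 Kp² J_e / q_G² ≤ 16 N^{3τ} N^{-ℓ dep G} ≤ e₁` (`k4d_row_of_chart` with `hs.geo G`, `hs.major`; `J_hi`; `dep G ≥ 1/τ`),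
`Δ = N^{-(ℓ s + c/2)}`, `w = 32 N^{τ + σ - c/2}`:   `mass Mis ≤ 3 N^{3τ+σ} w^S`.   (4) `tot ≥ N^{-τ}`, `G + 1 ≤ τ log N₀ ≤ N^τ`, `σ + Sσ ≤ Sc/6`: `mass Mis ≤ 3·32^S N^{(3+S)τ - Sc/3} ≤ tot η / (2 (G+1))` as soon as
`6·32^S N^{(5+S)τ - Sc/3} ≤ η`; take `(5+S) τ₁ ≤ Sc/6` and `2^{-Sc/(6 τ₁²)} 6·32^S ≤ η` (`k4d_sam_num`).   (5) `mass CovM ≤ mass Sel + mass Mis` (`k2a_mass_union`, `k2a_mass_mono`), subtract (`tot ≤ 1 < ∞`). -/
theorem k4d_strip_sel_mass (p : KpPrm) (hp : p.Ok) (hell : 0 < p.ell) (smax : ℕ) (c σ η : ℝ) (hσ : 0 < σ) (hσc : σ ≤ k4dKap p * c) (hη : 0 < η) :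
    ∃ τ₁ : ℝ, 0 < τ₁ ∧ ∀ τ : ℝ, 0 < τ → τ ≤ τ₁ → ∀ s : KpSam KbVer.two, s.Ok p τ → ∀ A : K4dAsg (k4dStrip (s.tan.k4d p) c σ smax), A.Max (s.tan.N ^ τ) →
      ENNReal.ofReal η ≤ (s.tan.k4d p).lam0 A.cov →
      ∃ m : Fin (s.tan.G + 1), s.tan.dep m ≤ smax ∧ ∀ (B : ℕ) (Kr : ℝ),
        s.P.tot * ENNReal.ofReal (η / (2 * ((s.G : ℝ) + 1))) ≤ s.P.mass (k4dSDof s.tan p c σ smax A m B Kr (k4dDel s.tan p c m)).Sel := by
  obtain ⟨τ₁, hτ₁, hnum⟩ := k4d_strip_num45 p.S p.ell c σ η smax hp.S_pos hell (Nat.cast_nonneg _) hσ hσc hη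
  refine ⟨τ₁, hτ₁, fun τ hτ hle s hs A hA hcov => ?_⟩
  obtain ⟨hτ1, hnum⟩ := hnum τ hτ hle
  obtain ⟨n1, n2, n3, n4, n5, n6, n7⟩ := k4d_sam_num hτ hτ1 hs
  have hX : s.tan.Ok p τ := hs.tan
  have hR := k4d_tan_ok hp hτ hX
  have hN0 : 0 < s.tan.N := by linarith [hX.N_two]
  have pos : ∀ x : ℝ, 0 < s.tan.N ^ x := fun x => Real.rpow_pos_of_pos hN0 x
  obtain ⟨t0, t1, t2⟩ := k4d_tan_tot hX
  have tt : s.P.tot ≠ ∞ := ne_top_of_le_ne_top ENNReal.one_ne_top t1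
  have hG0 : (0 : ℝ) < (s.G : ℝ) + 1 := by positivity
  -- (1) the node
  obtain ⟨sd, hsd, hnode⟩ := k4d_cov_node hR A (ENNReal.ofReal η) (by simpa using hη) hcov
  obtain ⟨m0, hm0, hsd'⟩ := Finset.mem_image.1 hsd
  subst hsd'
  obtain ⟨m, hm⟩ : ∃ m : Fin (s.tan.G + 1), (m : ℕ) = m0 := ⟨⟨m0, Finset.mem_range.1 hm0⟩, rfl⟩
  subst hm
  have hne : (s.tan.k4d p).lam0 (A.covAt (s.tan.dep m)) ≠ 0 := by
    intro h0
    rw [h0, mul_zero, nonpos_iff_eq_zero, ENNReal.ofReal_eq_zero] at hnode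
    linarith
  have hdepm : s.tan.dep m ≤ smax := by
    obtain ⟨x, hx⟩ : (A.covAt (s.tan.dep m)).Nonempty := by
      by_contra hh
      rw [Set.not_nonempty_iff_eq_empty] at hh
      rw [hh, measure_empty] at hne
      exact hne rfl
    obtain ⟨Q, hQ, hx2⟩ := Set.mem_iUnion₂.1 hx
    obtain ⟨hdep, -⟩ := Set.mem_iUnion.1 hx2
    rw [← hdep]
    exact hQ.1
  refine ⟨m, hdepm, fun B Kr => ?_⟩
  obtain ⟨q1, q2, q3, q4, q5, q6⟩ := hnum s.tan.N (s.tan.dep m) (s.tan.dep s.tan.G) n4 hdepm hX.dep_end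
  obtain ⟨a, ha⟩ : ∃ a, a = s.P.tot * ENNReal.ofReal (η / (2 * ((s.G : ℝ) + 1))) := ⟨_, rfl⟩
  have hat : a ≠ ∞ := by rw [ha]; exact ENNReal.mul_ne_top tt ENNReal.ofReal_ne_top
  rw [← ha]
  -- (2) the covered mass
  have hcard : ((s.tan.k4d p).depths.card : ℝ≥0∞) ≤ ENNReal.ofReal ((s.G : ℝ) + 1) := by
    have h1 : (s.tan.k4d p).depths.card ≤ s.G + 1 := Finset.card_image_le.trans (by simp [KpSam.tan])
    rw [show ((s.G : ℝ) + 1) = ((s.G + 1 : ℕ) : ℝ) by push_cast; ring, ENNReal.ofReal_natCast]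
    exact_mod_cast h1
  have hcov2 : a + a ≤ s.P.mass (k4dCovM s.tan p c σ smax A m) := by
    refine le_trans ?_ (k4d_sdof_cov_mass (A := A) (m := m) hp hτ hX)
    have e1 : a + a = s.P.tot * ENNReal.ofReal (η / ((s.G : ℝ) + 1)) := by
      rw [ha, ← mul_add, ← ENNReal.ofReal_add (by positivity) (by positivity)]
      congr 2
      field_simp
      ring
    rw [e1]
    refine mul_le_mul' le_rfl ?_
    rw [ENNReal.ofReal_div_of_pos hG0]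
    refine ENNReal.div_le_of_le_mul (hnode.trans ?_)
    rw [mul_comm]
    exact mul_le_mul' le_rfl hcard
  -- (3) the misaligned mass
  have hKp1 : 1 ≤ s.Kp := by linarith [hs.Kp_one]
  have hdeep : ∀ e, ∀ l ∈ (s.tan.Q s.tan.G).A e, |k4dY (kbV (s.tan.P.co ((s.tan.Q s.tan.G).wd e) l)) - (k4dAdG s.tan e 0 + k4dAdG s.tan e 1 * k4dZ (kbV (s.tan.P.co ((s.tan.Q s.tan.G).wd e) l)))|
      ≤ 16 * s.tan.N ^ (3 * τ - p.ell * s.tan.dep s.tan.G) := by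
    intro e l hl
    have hmaj : (s.tan.Q s.tan.G).q ≤ s.Kp * (|((s.tan.Q s.tan.G).ch e).D (0 : Fin 2) (0 : Fin 2)| + |((s.tan.Q s.tan.G).ch e).D (0 : Fin 2) (1 : Fin 2)|) := by
      have h1 := hs.major hell s.G le_rfl e
      have h2 : (∑ i : Fin 2, ∑ k : Fin 2, if (i : ℕ) = 0 then |((s.Q s.G).ch e).D i k| else 0) = |((s.Q s.G).ch e).D (0 : Fin 2) (0 : Fin 2)| + |((s.Q s.G).ch e).D (0 : Fin 2) (1 : Fin 2)| := by
        simp [Fin.sum_univ_two]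
      have h1' : (s.Q s.G).q ≤ s.Kp * (|((s.Q s.G).ch e).D (0 : Fin 2) (0 : Fin 2)| + |((s.Q s.G).ch e).D (0 : Fin 2) (1 : Fin 2)|) := by
        rw [← h2]
        exact h1
      exact h1'
    have hrow := (k4d_row_of_chart (s.tan.Q s.tan.G) (hX.sys_wf s.tan.G le_rfl) (hs.geo s.G le_rfl) hKp1 e hmaj).1 l hl
    refine hrow.trans ?_
    have hq : 0 < (s.tan.Q s.tan.G).q := by unfold KbSys.q kbQ; positivity
    have hJ : ((s.tan.Q s.tan.G).ch e).J ≤ (s.tan.Q s.tan.G).q ^ 2 * s.tan.N ^ (-p.ell * s.tan.dep s.tan.G + τ) := hX.J_hi s.tan.G le_rfl e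
    rw [div_le_iff₀ (by positivity)]
    have e3 : s.tan.N ^ (3 * τ - p.ell * s.tan.dep s.tan.G) = s.tan.N ^ τ * s.tan.N ^ τ * s.tan.N ^ (-p.ell * s.tan.dep s.tan.G + τ) := by
      rw [← Real.rpow_add hN0, ← Real.rpow_add hN0]
      congr 1
      ring
    rw [e3]
    have hKK : s.Kp ^ 2 ≤ s.tan.N ^ τ * s.tan.N ^ τ := by
      rw [sq]
      exact mul_le_mul n2 n2 (by linarith) (pos _).le
    calc 16 * s.Kp ^ 2 * ((s.tan.Q s.tan.G).ch e).J ≤ 16 * (s.tan.N ^ τ * s.tan.N ^ τ) * ((s.tan.Q s.tan.G).q ^ 2 * s.tan.N ^ (-p.ell * s.tan.dep s.tan.G + τ)) := by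
          have h16 : 16 * s.Kp ^ 2 ≤ 16 * (s.tan.N ^ τ * s.tan.N ^ τ) := by linarith
          have := pos τ
          exact mul_le_mul h16 hJ (abs_nonneg _) (by positivity)
      _ = _ := by ring
  have hk : ∀ cc, (k4dSD0 s.tan p c σ smax A m 0 0).k cc ≤ ⌊s.tan.N ^ τ * s.tan.N ^ σ⌋₊ := by
    intro cc
    by_cases hQ : (⟨m, cc⟩ : (s.tan.k4d p).Lab) ∈ k4dAct (s.tan.k4d p) smax
    · have e : (k4dSD0 s.tan p c σ smax A m 0 0).k cc = A.k ⟨m, cc⟩ := if_pos hQ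
      rw [e]
      exact Nat.le_floor (k4d_strip_count hR c σ smax A hA _ hQ)
    · have e : (k4dSD0 s.tan p c σ smax A m 0 0).k cc = 0 := if_neg hQ
      rw [e]
      exact Nat.zero_le _
  have he1pos : 0 < s.tan.N ^ σ * s.tan.N ^ (-(p.ell * s.tan.dep m + c)) := mul_pos (pos _) (pos _)
  have hmis := k4d_sdof_mis (A := A) (m := m) hX hell (k4dDel s.tan p c m) (s.tan.N ^ σ * s.tan.N ^ (-(p.ell * s.tan.dep m + c))) (16 * s.tan.N ^ (3 * τ - p.ell * s.tan.dep s.tan.G))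
    s.Kp (32 * s.tan.N ^ (τ + σ - c / 2)) ⌊s.tan.N ^ τ * s.tan.N ^ σ⌋₊ hKp1 hk le_rfl hdeep hs.ntv (pos _) (by
      change _ ≤ s.tan.N ^ (-(p.ell * s.tan.dep m + c / 2))
      linarith) (by
      change _ ≤ _ * s.tan.N ^ (-(p.ell * s.tan.dep m + c / 2))
      refine le_trans ?_ q3
      have h1 : 8 * s.Kp * (s.tan.N ^ σ * s.tan.N ^ (-(p.ell * s.tan.dep m + c)) + 16 * s.tan.N ^ (3 * τ - p.ell * s.tan.dep s.tan.G))
          ≤ 8 * s.Kp * (2 * (s.tan.N ^ σ * s.tan.N ^ (-(p.ell * s.tan.dep m + c)))) := by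
        refine mul_le_mul_of_nonneg_left (by linarith) (by linarith)
      refine h1.trans ?_
      have h2 : s.Kp * (s.tan.N ^ σ * s.tan.N ^ (-(p.ell * s.tan.dep m + c))) ≤ s.tan.N ^ τ * (s.tan.N ^ σ * s.tan.N ^ (-(p.ell * s.tan.dep m + c))) :=
        mul_le_mul_of_nonneg_right n2 he1pos.le
      linarith) q4 q5
  have hmis2 : s.P.mass (k4dMisM s.tan p c σ smax A m (k4dDel s.tan p c m)) ≤ a := by
    refine hmis.trans ?_
    have h1 : 3 * (⌊s.tan.N ^ τ * s.tan.N ^ σ⌋₊ : ℝ) * s.tan.N ^ (2 * τ) * (32 * s.tan.N ^ (τ + σ - c / 2)) ^ p.S ≤ η / 2 * s.tan.N ^ (-τ) * s.tan.N ^ (-τ) := by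
      refine le_trans ?_ q6
      have hfl : (⌊s.tan.N ^ τ * s.tan.N ^ σ⌋₊ : ℝ) ≤ s.tan.N ^ τ * s.tan.N ^ σ := Nat.floor_le (mul_pos (pos _) (pos _)).le
      have hw0 : 0 ≤ (32 * s.tan.N ^ (τ + σ - c / 2)) ^ p.S := Real.rpow_nonneg (by have := pos (τ + σ - c / 2); positivity) _
      have := pos (2 * τ)
      gcongr
    refine (ENNReal.ofReal_le_ofReal h1).trans ?_
    have e1 : η / 2 * s.tan.N ^ (-τ) * s.tan.N ^ (-τ) = s.tan.N ^ (-τ) * (η / 2 * s.tan.N ^ (-τ)) := by ring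
    rw [e1, ENNReal.ofReal_mul (pos _).le, ha]
    refine mul_le_mul' ?_ (ENNReal.ofReal_le_ofReal ?_)
    · calc ENNReal.ofReal (s.tan.N ^ (-τ)) = ENNReal.ofReal (s.tan.N ^ (-τ)) * 1 := (mul_one _).symm
        _ ≤ ENNReal.ofReal (s.tan.N ^ (-τ)) * (ENNReal.ofReal (s.tan.N ^ τ) * s.P.tot) := mul_le_mul' le_rfl t2
        _ = s.P.tot := by
            rw [← mul_assoc, ← ENNReal.ofReal_mul (pos _).le, ← Real.rpow_add hN0]
            simp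
    · have hGN : (s.G : ℝ) + 1 ≤ s.tan.N ^ τ := by
        have h2 := hs.nodes
        have h3 : τ * Real.log s.N0 ≤ 1 * Real.log s.N0 := mul_le_mul_of_nonneg_right hτ1 (by
          have : 0 < 1 / τ := by positivity
          linarith)
        linarith
      rw [Real.rpow_neg hN0.le, ← div_eq_mul_inv, div_div]
      exact div_le_div_of_nonneg_left hη.le (by positivity) (by linarith)
  -- (5) subtraction
  have hsplit : s.P.mass (k4dCovM s.tan p c σ smax A m) ≤ s.P.mass (k4dSDof s.tan p c σ smax A m B Kr (k4dDel s.tan p c m)).Sel + s.P.mass (k4dMisM s.tan p c σ smax A m (k4dDel s.tan p c m)) := by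
    unfold KbPb.mass
    rw [← Finset.sum_add_distrib]
    refine Finset.sum_le_sum fun γ _ => ?_
    rw [← mul_add]
    refine mul_le_mul' le_rfl ((measure_mono ?_).trans (measure_union_le _ _))
    intro x hx
    by_cases hxm : x ∈ k4dMisM s.tan p c σ smax A m (k4dDel s.tan p c m) γ
    · exact Or.inr hxm
    · exact Or.inl ⟨hx, hxm⟩
  have hfin : a + a ≤ s.P.mass (k4dSDof s.tan p c σ smax A m B Kr (k4dDel s.tan p c m)).Sel + a :=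
    hcov2.trans (hsplit.trans (add_le_add le_rfl hmis2))
  exact (ENNReal.add_le_add_iff_right hat).1 hfin

/-- the depths of the nodes are positive -/
theorem k4d_atl_dep_pos {v : KbVer} {X : KpTan v} {p : KpPrm} {τ : ℝ} (hX : X.Ok p τ) : ∀ m : ℕ, m ≤ X.G → 0 < X.dep m := by
  intro m
  induction m with
  | zero => exact fun _ => hX.dep_zero.1
  | succ k ih => exact fun hk => (ih (by omega)).trans (hX.dep_step k (by omega)).1

/-- the native bounds are monotone in the slack -/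
theorem k4d_atl_ntv_mono {v : KbVer} {P : KbPb v} (hP : P.WF) {K K' : ℝ} (h : P.Ntv K) (hK : K ≤ K') : P.Ntv K' where
  base := fun γ l hl t ht => (h.base γ l hl t ht).trans hK
  sig := fun γ l hl t ht => (h.sig γ l hl t ht).trans hK
  dw := fun γ l hl t ht => (h.dw γ l hl t ht).trans (mul_le_mul_of_nonneg_right hK (hP.B_pos γ).le)
  dw_low := fun γ x hx => (h.dw_low γ x hx).trans (mul_le_mul_of_nonneg_right hK (abs_nonneg _))
  dww := fun γ t y w => (h.dww γ t y w).trans (mul_le_mul_of_nonneg_right hK (by positivity))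
  mass := h.mass.trans (mul_le_mul_left (ENNReal.ofReal_le_ofReal hK) _)

/-- the slacks of the strip atlas are below the eleventh power of `K_path log N₀` -/
theorem k4d_atl_num_slack {K x : ℝ} (hK : 2 ≤ K) (hx : K ≤ x) :
    4 * (4 * K ^ 2) ^ 2 ≤ x ^ 11 ∧ K * K * 9 * (2 * (4 * K ^ 2) + 9) ≤ x ^ 11 := by
  obtain ⟨b, hb, rfl⟩ : ∃ b : ℝ, 0 ≤ b ∧ K = 2 + b := ⟨K - 2, by linarith, by ring⟩
  obtain ⟨d, hd, rfl⟩ : ∃ d : ℝ, 0 ≤ d ∧ x = 2 + b + d := ⟨x - (2 + b), by linarith, by ring⟩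
  refine ⟨?_, ?_⟩ <;> rw [← sub_nonneg] <;> ring_nf <;> positivity

/-- the range of the bins -/
theorem k4d_atl_num_bins {Q n K : ℝ} (hQ : 1 ≤ Q) (hK : 2 ≤ K) (hn : K ≤ n) :
    (Q * (1 + 2 * K ^ 2) + 1) * (Q * n) + 1 ≤ Q ^ 2 * n ^ 8 ∧ (2 * K ^ 2 + 1) * (Q * n) + 1 ≤ Q ^ 2 * n ^ 8 ∧
      K * (1 + (2 * K ^ 2 + 2)) * (Q * n) ^ 2 + 1 ≤ Q ^ 2 * n ^ 8 ∧ 4 * K ^ 2 ≤ Q ^ 2 * n ^ 8 ∧ 2 ≤ Q ^ 2 * n ^ 8 := by
  obtain ⟨a, ha, rfl⟩ : ∃ a : ℝ, 0 ≤ a ∧ Q = 1 + a := ⟨Q - 1, by linarith, by ring⟩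
  obtain ⟨b, hb, rfl⟩ : ∃ b : ℝ, 0 ≤ b ∧ K = 2 + b := ⟨K - 2, by linarith, by ring⟩
  obtain ⟨d, hd, rfl⟩ : ∃ d : ℝ, 0 ≤ d ∧ n = 2 + b + d := ⟨n - (2 + b), by linarith, by ring⟩
  refine ⟨?_, ?_, ?_, ?_, ?_⟩ <;> rw [← sub_nonneg] <;> ring_nf <;> positivity

/-- the complexity guard -/
theorem k4d_atl_num_Mg {Mp Mg n : ℝ} (hMp : 1 ≤ Mp) (hn : 16 ≤ n) (h : (2 : ℝ) ^ ((Mp + n) ^ 2) ≤ Mg) : 10 * Mp + 52 ≤ Mg := by
  have hx : 17 ≤ Mp + n := by linarith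
  have hx2 : 1 ≤ (Mp + n) ^ 2 := by nlinarith
  have h1 := one_add_mul_self_le_rpow_one_add (s := 1) (by norm_num) hx2
  have e : (1 : ℝ) + 1 = 2 := by norm_num
  rw [e, mul_one] at h1
  nlinarith

/-- powers of `N₀`: the range `W = N₀^{2 Mp + 8}`, the bound `Q = N₀^{2 Mp + 9}` and `64 Q⁵ ≤ N₀^{Mg}` -/
theorem k4d_atl_num_pow {n Mp Mg : ℝ} (hn : 2 ≤ n) (hMg : 10 * Mp + 52 ≤ Mg) :
    n ^ (2 * Mp + 8) = (n ^ Mp) ^ 2 * n ^ 8 ∧ n ^ (2 * Mp + 9) = (n ^ Mp) ^ 2 * n ^ 8 * n ∧ 64 * (n ^ (2 * Mp + 9)) ^ 5 ≤ n ^ Mg := by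
  have hn0 : 0 < n := by linarith
  have hn1 : 1 ≤ n := by linarith
  have hW : n ^ (2 * Mp + 8) = (n ^ Mp) ^ 2 * n ^ 8 := by
    rw [Real.rpow_add hn0, mul_comm 2 Mp, Real.rpow_mul hn0.le, ← Real.rpow_natCast (n ^ Mp) 2, ← Real.rpow_natCast n 8]
    norm_num
  refine ⟨hW, ?_, ?_⟩
  · rw [← hW, ← Real.rpow_add_one hn0.ne']
    congr 1
    ring
  · have e5 : (n ^ (2 * Mp + 9)) ^ 5 = n ^ ((2 * Mp + 9) * 5) := by
      rw [Real.rpow_mul hn0.le, ← Real.rpow_natCast _ 5]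
      norm_num
    have e6 : (64 : ℝ) ≤ n ^ (6 : ℝ) := by
      have : n ^ (6 : ℝ) = n ^ 6 := by
        rw [← Real.rpow_natCast n 6]
        norm_num
      rw [this]
      calc (64 : ℝ) = 2 ^ 6 := by norm_num
        _ ≤ n ^ 6 := pow_le_pow_left₀ (by norm_num) hn 6
    rw [e5]
    calc 64 * n ^ ((2 * Mp + 9) * 5) ≤ n ^ (6 : ℝ) * n ^ ((2 * Mp + 9) * 5) :=
          mul_le_mul_of_nonneg_right e6 (Real.rpow_pos_of_pos hn0 _).le
      _ = n ^ (6 + (2 * Mp + 9) * 5) := (Real.rpow_add hn0 _ _).symm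
      _ ≤ n ^ Mg := Real.rpow_le_rpow_of_exponent_le hn1 (by linarith)

/-- `N^{c/4} ≤ N₀` -/
theorem k4d_atl_num_g {N0 eps N c : ℝ} (hN0 : 1 ≤ N0) (hN : N = N0 ^ eps) (heps : eps * c ≤ 4) : 1 ≤ N0 * N ^ (-c / 4) := by
  have hN00 : 0 < N0 := by linarith
  rw [hN, ← Real.rpow_mul hN00.le]
  calc (1 : ℝ) = N0 ^ (0 : ℝ) := (Real.rpow_zero _).symm
    _ ≤ N0 ^ (1 + eps * (-c / 4)) := Real.rpow_le_rpow_of_exponent_le hN0 (by linarith)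
    _ = N0 * N0 ^ (eps * (-c / 4)) := by rw [Real.rpow_add hN00, Real.rpow_one]

/-- real-number core of the thickness bounds: `t = J / q²`, `D = ℓ s` -/
theorem k4d_atl_num_tau {N0 N t D c σ τ Q J : ℝ} (hN1 : 1 ≤ N) (hD : 0 ≤ D) (hc : 0 < c) (hσ : σ ≤ c / 12) (hτc : τ ≤ c / 8)
    (hNg : 1 ≤ N0 * N ^ (-c / 4)) (hlo : N ^ (-D - τ) ≤ t) (hhi : t ≤ N ^ (-D + τ)) (hQ : 1 ≤ Q) (hQJ : 1 ≤ Q * J) (hJt : J ≤ t) :
    N ^ σ * N ^ (-(D + c)) ≤ t * N ^ (-c / 4) ∧ N ^ (-(D + c / 2)) ≤ t * N ^ (-c / 4) ∧ t * N ^ (-c / 4) ≤ 1 ∧ 1 ≤ Q * N0 * (t * N ^ (-c / 4)) := by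
  have hNpos : 0 < N := by linarith
  have hg0 : 0 < N ^ (-c / 4) := Real.rpow_pos_of_pos hNpos _
  have hmulN : ∀ a b : ℝ, N ^ a * N ^ b = N ^ (a + b) := fun a b => (Real.rpow_add hNpos a b).symm
  have hmonoN : ∀ a b : ℝ, a ≤ b → N ^ a ≤ N ^ b := fun a b h => Real.rpow_le_rpow_of_exponent_le hN1 h
  have hlo' : N ^ (-D - τ + -c / 4) ≤ t * N ^ (-c / 4) := by
    rw [← hmulN]
    exact mul_le_mul_of_nonneg_right hlo hg0.le
  refine ⟨?_, ?_, ?_, ?_⟩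
  · rw [hmulN]
    exact (hmonoN _ _ (by linarith)).trans hlo'
  · exact (hmonoN _ _ (by linarith)).trans hlo'
  · calc t * N ^ (-c / 4) ≤ N ^ (-D + τ) * N ^ (-c / 4) := mul_le_mul_of_nonneg_right hhi hg0.le
      _ = N ^ (-D + τ + -c / 4) := hmulN _ _
      _ ≤ N ^ (0 : ℝ) := hmonoN _ _ (by linarith)
      _ = 1 := Real.rpow_zero _
  · have h3 : 1 ≤ Q * t := hQJ.trans (mul_le_mul_of_nonneg_left hJt (by linarith))
    calc (1 : ℝ) = 1 * 1 := (one_mul 1).symm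
      _ ≤ (Q * t) * (N0 * N ^ (-c / 4)) := mul_le_mul h3 hNg zero_le_one (by linarith)
      _ = _ := by ring

/-- real-number core of the narrowness -/
theorem k4d_atl_num_narrow {N0 eps N dp ell c τ th J q : ℝ} (hN0 : 1 ≤ N0) (hN : N = N0 ^ eps) (heps : 0 < eps) (hτc : τ ≤ c / 8) (hth : th ≤ τ * eps)
    (hq : 0 < q) (hJ0 : 0 < J) (hJ : J ≤ q ^ 2 * N ^ (-ell * dp + τ)) : N0 ^ (ell * (eps * dp) + th) ≤ q ^ 2 / (J * N ^ (-c / 4)) := by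
  have hN00 : 0 < N0 := by linarith
  have hNpos : 0 < N := by
    rw [hN]
    exact Real.rpow_pos_of_pos hN00 _
  have hg0 : 0 < N ^ (-c / 4) := Real.rpow_pos_of_pos hNpos _
  rw [le_div_iff₀ (mul_pos hJ0 hg0)]
  have hpw : 0 < N0 ^ (ell * (eps * dp) + th) := Real.rpow_pos_of_pos hN00 _
  have hexp : N0 ^ (ell * (eps * dp) + th) * (N ^ (-ell * dp + τ) * N ^ (-c / 4)) ≤ 1 := by
    rw [← Real.rpow_add hNpos, hN, ← Real.rpow_mul hN00.le, ← Real.rpow_add hN00]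
    calc N0 ^ (ell * (eps * dp) + th + eps * (-ell * dp + τ + -c / 4)) ≤ N0 ^ (0 : ℝ) := by
          refine Real.rpow_le_rpow_of_exponent_le hN0 ?_
          have h2 : eps * (2 * τ - c / 4) ≤ 0 := mul_nonpos_of_nonneg_of_nonpos heps.le (by linarith)
          nlinarith
      _ = 1 := Real.rpow_zero _
  calc N0 ^ (ell * (eps * dp) + th) * (J * N ^ (-c / 4))
      ≤ N0 ^ (ell * (eps * dp) + th) * (q ^ 2 * N ^ (-ell * dp + τ) * N ^ (-c / 4)) :=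
        mul_le_mul_of_nonneg_left (mul_le_mul_of_nonneg_right hJ hg0.le) hpw.le
    _ = q ^ 2 * (N0 ^ (ell * (eps * dp) + th) * (N ^ (-ell * dp + τ) * N ^ (-c / 4))) := by ring
    _ ≤ q ^ 2 * 1 := mul_le_mul_of_nonneg_left hexp (by positivity)
    _ = q ^ 2 := mul_one _

/-- the rows of the end labels of a guarded sample are bounded -/
theorem k4d_atl_rows {p : KpPrm} (hell : 0 < p.ell) {τ : ℝ} {s : KpSam KbVer.two} (hs : s.Ok p τ) (e : (s.tan.Q s.tan.G).C) :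
    |k4dAdG s.tan e 0| ≤ s.N0 ^ s.Mp * (1 + 2 * s.Kp ^ 2) ∧ |k4dAdG s.tan e 1| ≤ 2 * s.Kp ^ 2 := by
  have hKp2 : 2 ≤ s.Kp := hs.Kp_one
  have hM1 : |k4dAdG s.tan e 1| ≤ 2 * s.Kp ^ 2 := by
    have h := hs.major hell s.G le_rfl e
    have e1 : (∑ i : Fin 2, ∑ k : Fin 2, if (i : ℕ) = 0 then |(((s.Q s.G).ch e).D : Matrix (Fin 2) (Fin 2) ℝ) i k| else 0)
        = |((s.Q s.G).ch e).D (0 : Fin 2) (0 : Fin 2)| + |((s.Q s.G).ch e).D (0 : Fin 2) (1 : Fin 2)| := by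
      simp [Fin.sum_univ_two]
    have hmaj : (s.Q s.G).q ≤ s.Kp * (|((s.Q s.G).ch e).D (0 : Fin 2) (0 : Fin 2)| + |((s.Q s.G).ch e).D (0 : Fin 2) (1 : Fin 2)|) :=
      h.trans (le_of_eq (congrArg (fun z => s.Kp * z) e1))
    exact (k4d_row_of_chart (s.Q s.G) (hs.tan.sys_wf s.G le_rfl) (hs.geo s.G le_rfl) (by linarith) e hmaj).2
  refine ⟨?_, hM1⟩
  have hcen := (hs.sys_tmp s.G le_rfl).cen e
  have hy1 : ‖((s.Q s.G).ch e).y1‖ ≤ s.N0 ^ s.Mp := by linarith [norm_nonneg ((s.Q s.G).ch e).y0]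
  have hY : |k4dY ((s.Q s.G).ch e).y1| ≤ s.N0 ^ s.Mp := (norm_le_pi_norm ((s.Q s.G).ch e).y1 (1 : Fin 2)).trans hy1
  have hZ : |k4dZ ((s.Q s.G).ch e).y1| ≤ s.N0 ^ s.Mp := (norm_le_pi_norm ((s.Q s.G).ch e).y1 (0 : Fin 2)).trans hy1
  have e0 : k4dAdG s.tan e 0 = k4dY ((s.Q s.G).ch e).y1 - k4dAdG s.tan e 1 * k4dZ ((s.Q s.G).ch e).y1 := rfl
  rw [e0]
  have h1 := abs_sub (k4dY ((s.Q s.G).ch e).y1) (k4dAdG s.tan e 1 * k4dZ ((s.Q s.G).ch e).y1)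
  have h2 : |k4dAdG s.tan e 1 * k4dZ ((s.Q s.G).ch e).y1| ≤ 2 * s.Kp ^ 2 * s.N0 ^ s.Mp := by
    rw [abs_mul]
    exact mul_le_mul hM1 hZ (abs_nonneg _) (by positivity)
  linarith

/-- **LEAF H6A** : the atlas.   Notation: `r = eps * dep m`, `a = N₀^{-r}`, `Q₀ = N₀^{Mp}`, `τ_c = (J_c / q²) N^{-c/4}`.
PLAN.  `K := 4 Kp²`, `Kr := 2 Kp² + 2`, `M1 := 2 Kp²` (`k4d_row_of_chart` at the node `G` with `hs.geo`, `hs.major`), `M0 := Q₀ (1 + 2 Kp²)` (`hs.sys_tmp G`, `cen`), `T := Q₀ N₀` (`J_low`, `q ≤ 1`, `N^{c/4} ≤ N₀` if `eps c ≤ 4`; `q_low`),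
`B := ⌈N₀^{2 Mp + 8}⌉₊`.   Tangent bounds `J_lo, J_hi` of `hs.tan`: `N^{-ℓ s - τ - c/4} ≤ τ_c ≤ N^{τ - c/4} ≤ 1`; buffer `σ + τ ≤ 3c/4`; alignment `τ ≤ c/4`.
`k4d_sdof_ok` (with `k2s_geo_mono`, `Ntv` monotone), `k4d_sdof_al`, `k4d_sdof_cov`; then `k4d_sd_wf`, `k4d_sd_geo` (`4 K² = 64 Kp⁴ ≤ Ks`), `k4d_sd_known` with `K₀ = K_d = Kp` (`hs.known`; `Kp² 9 (8 Kp² + 9) ≤ Ks`), `k4d_sd_tmp` with
`Q = N₀^{2 Mp + 9}` (`64 Q⁵ ≤ N₀^{10 Mp + 52} ≤ N₀^{Mg}`: `Mg ≥ 2^{x²} ≥ x² ≥ 10 x + 52`, `x = Mp + n ≥ 15`), monotonicity `k2s_*_mono`, `k4d_sam_num`.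
Narrowness: `k4d_sd_J`: `q² / J = q² / (J_c N^{-c/4}) ≥ N^{ℓ s - τ + c/4} = N₀^{ℓ r + eps (c/4 - τ)} ≥ N₀^{ℓ r + th}` (`th ≤ τ eps`, `2 τ ≤ c/4`). -/
theorem k4d_strip_atl (p : KpPrm) (hp : p.Ok) (hell : 0 < p.ell) (smax : ℕ) (c σ : ℝ) (hσ : 0 < σ) (hσc : σ ≤ k4dKap p * c) :
    ∃ τ₂ : ℝ, 0 < τ₂ ∧ ∀ τ : ℝ, 0 < τ → τ ≤ τ₂ → ∀ s : KpSam KbVer.two, s.Ok p τ → ∀ A : K4dAsg (k4dStrip (s.tan.k4d p) c σ smax), A.Max (s.tan.N ^ τ) →
      ∀ m : Fin (s.tan.G + 1), s.tan.dep m ≤ smax → ∃ (B : ℕ) (Kr : ℝ),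
        (k4dSDof s.tan p c σ smax A m B Kr (k4dDel s.tan p c m)).Cov ∧ (k4dSDof s.tan p c σ smax A m B Kr (k4dDel s.tan p c m)).sys.WF ∧
        (k4dSDof s.tan p c σ smax A m B Kr (k4dDel s.tan p c m)).sys.Geo s.Ks (s.N0 ^ (-(s.eps * s.dep m))) ∧
        (k4dSDof s.tan p c σ smax A m B Kr (k4dDel s.tan p c m)).sys.Known (s.P.hid s.aL) s.Ks ∧
        (k4dSDof s.tan p c σ smax A m B Kr (k4dDel s.tan p c m)).sys.Tmp (s.N0 ^ s.Mg) ∧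
        ∀ x, s.N0 ^ (p.ell * (s.eps * s.dep m) + s.th) ≤
          (k4dSDof s.tan p c σ smax A m B Kr (k4dDel s.tan p c m)).sys.q ^ 2 / ((k4dSDof s.tan p c σ smax A m B Kr (k4dDel s.tan p c m)).sys.ch x).J := by
  have hκ : k4dKap p ≤ 1 / 12 := by
    unfold k4dKap
    have := min_le_left (1 : ℝ) p.S
    linarith
  have hκ0 : 0 < k4dKap p := by
    unfold k4dKap
    have := lt_min one_pos hp.S_pos
    positivity
  have hc : 0 < c := by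
    by_contra hcon
    have : k4dKap p * c ≤ 0 := mul_nonpos_of_nonneg_of_nonpos hκ0.le (not_lt.1 hcon)
    linarith
  have hσ12 : σ ≤ c / 12 := by
    calc σ ≤ k4dKap p * c := hσc
      _ ≤ 1 / 12 * c := mul_le_mul_of_nonneg_right hκ hc.le
      _ = c / 12 := by ring
  refine ⟨min (1 / 16) (min (c / 8) (4 / c)), by positivity, fun τ hτ hτ₂ s hs A _ m _ => ?_⟩
  have hτ16 : τ ≤ 1 / 16 := hτ₂.trans (min_le_left _ _)
  have hτc : τ ≤ c / 8 := hτ₂.trans ((min_le_right _ _).trans (min_le_left _ _))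
  have hτc' : τ ≤ 4 / c := hτ₂.trans ((min_le_right _ _).trans (min_le_right _ _))
  have hmG : (m : ℕ) ≤ s.G := Nat.lt_succ_iff.1 m.2
  obtain ⟨hlog, -, -, -, hKpN0, -, hKs⟩ := k4d_sam_num hτ (by linarith) hs
  have hX := hs.tan
  have hKp2 : 2 ≤ s.Kp := hs.Kp_one
  have hN0 : 2 ≤ s.N0 := hKp2.trans hKpN0
  have hN01 : 1 ≤ s.N0 := by linarith
  have hN00 : 0 < s.N0 := by linarith
  have hQ0 : 1 ≤ s.N0 ^ s.Mp := Real.one_le_rpow hN01 (by linarith [hs.Mp_one])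
  have hN1 : 1 ≤ s.tan.N := by linarith [hX.N_two]
  have hNpos : 0 < s.tan.N := by linarith
  have hdep : 0 < s.tan.dep m := k4d_atl_dep_pos hX m hmG
  have hq : 0 < (s.tan.Q m).q := k2s_q_pos _
  have hq1 : (s.tan.Q m).q ≤ 1 := k2s_q_le_one _
  have hg0 : 0 < s.tan.N ^ (-c / 4) := Real.rpow_pos_of_pos hNpos _
  have htm := hs.sys_tmp m hmG
  have hepsc : s.eps * c ≤ 4 := by
    calc s.eps * c ≤ 4 / c * c := mul_le_mul_of_nonneg_right (hs.eps_le.trans hτc') hc.le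
      _ = 4 := div_mul_cancel₀ _ hc.ne'
  have hNg : 1 ≤ s.N0 * s.tan.N ^ (-c / 4) := k4d_atl_num_g hN01 rfl hepsc
  have hTq : 1 ≤ s.N0 ^ s.Mp * s.N0 * (s.tan.Q m).q := by
    have h1 : 1 ≤ s.N0 ^ s.Mp * (s.tan.Q m).q := htm.q_low
    calc (1 : ℝ) = 1 * 1 := (one_mul 1).symm
      _ ≤ (s.N0 ^ s.Mp * (s.tan.Q m).q) * s.N0 := mul_le_mul h1 hN01 zero_le_one (by linarith)
      _ = _ := by ring
  -- the thickness of the strips
  have htau : ∀ cc, _ := fun cc => k4d_atl_num_tau (N0 := s.N0) (N := s.tan.N) (t := ((s.tan.Q m).ch cc).J / (s.tan.Q m).q ^ 2) (D := p.ell * s.tan.dep m)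
    (c := c) (σ := σ) (τ := τ) (Q := s.N0 ^ s.Mp) (J := ((s.tan.Q m).ch cc).J) hN1 (mul_nonneg hell.le hdep.le) hc hσ12 hτc hNg
    (by
      rw [le_div_iff₀ (by positivity)]
      have h : (s.tan.Q m).q ^ 2 * s.tan.N ^ (-p.ell * s.tan.dep m - τ) ≤ ((s.tan.Q m).ch cc).J := hX.J_lo m hmG cc
      rw [neg_mul] at h
      linarith)
    (by
      rw [div_le_iff₀ (by positivity)]
      have h : ((s.tan.Q m).ch cc).J ≤ (s.tan.Q m).q ^ 2 * s.tan.N ^ (-p.ell * s.tan.dep m + τ) := hX.J_hi m hmG cc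
      rw [neg_mul] at h
      linarith)
    hQ0 (htm.J_low cc)
    (by
      rw [le_div_iff₀ (by positivity)]
      exact mul_le_of_le_one_right (abs_nonneg _) (pow_le_one₀ hq.le hq1))
  have hΔ : ∀ cc, k4dDel s.tan p c m ≤ ((s.tan.Q m).ch cc).J / (s.tan.Q m).q ^ 2 * s.tan.N ^ (-c / 4) := fun cc => (htau cc).2.1
  -- the range of the bins
  obtain ⟨hb0, hb1, hb2, hb3, hb4⟩ := k4d_atl_num_bins hQ0 hKp2 hKpN0
  have hMg : 10 * s.Mp + 52 ≤ s.Mg := by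
    refine k4d_atl_num_Mg hs.Mp_one ?_ hs.Mg_ge
    refine le_trans ?_ hs.stage
    rw [le_div_iff₀ hτ]
    linarith
  obtain ⟨hW, hQW, h64⟩ := k4d_atl_num_pow hN0 hMg
  have hBW : (s.N0 ^ s.Mp) ^ 2 * s.N0 ^ 8 ≤ (⌈s.N0 ^ (2 * s.Mp + 8)⌉₊ : ℝ) := by
    rw [← hW]
    exact Nat.le_ceil _
  have hCov : (k4dSDof s.tan p c σ smax A m ⌈s.N0 ^ (2 * s.Mp + 8)⌉₊ (2 * s.Kp ^ 2 + 2) (k4dDel s.tan p c m)).Cov :=
    k4d_sdof_cov hX _ _ _ s.Kp (s.N0 ^ s.Mp * (1 + 2 * s.Kp ^ 2)) (2 * s.Kp ^ 2) (s.N0 ^ s.Mp * s.N0) (by linarith) hs.ntv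
      (fun e => (k4d_atl_rows hell hs e).1) (fun e => (k4d_atl_rows hell hs e).2) hΔ (fun cc => (htau cc).2.2.1) (fun cc => (htau cc).2.2.2)
      hTq le_rfl (hb0.trans hBW) (hb1.trans hBW) (hb2.trans hBW)
  have ha0 : 0 ≤ s.N0 ^ (-(s.eps * s.dep m)) := (Real.rpow_pos_of_pos hN00 _).le
  have hKK : s.Kp ≤ 4 * s.Kp ^ 2 := by nlinarith
  have hOk : (k4dSDof s.tan p c σ smax A m ⌈s.N0 ^ (2 * s.Mp + 8)⌉₊ (2 * s.Kp ^ 2 + 2) (k4dDel s.tan p c m)).Ok (4 * s.Kp ^ 2) (s.N0 ^ (-(s.eps * s.dep m))) :=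
    k4d_sdof_ok hp hτ hX _ _ _ _ _ (by linarith) (k2s_geo_mono _ hX.wf (hs.geo m hmG) hKK ha0) (k4d_atl_ntv_mono hX.wf hs.ntv hKK) (by nlinarith) hc.le
      (fun cc => (htau cc).1)
  have hAl : (k4dSDof s.tan p c σ smax A m ⌈s.N0 ^ (2 * s.Mp + 8)⌉₊ (2 * s.Kp ^ 2 + 2) (k4dDel s.tan p c m)).Al (s.tan.Q s.tan.G) (k4dAdG s.tan) :=
    k4d_sdof_al hX _ _ _ hΔ
  -- the slack
  have hx11 : (s.Kp * Real.log s.N0) ^ 11 ≤ s.Ks := hKs 11 (by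
    rw [le_div_iff₀ hτ]
    norm_num
    linarith)
  have hlog1 : 1 ≤ Real.log s.N0 := by
    refine le_trans ?_ hlog
    rw [le_div_iff₀ hτ]
    linarith
  have hKx : s.Kp ≤ s.Kp * Real.log s.N0 := le_mul_of_one_le_right (by linarith) hlog1
  obtain ⟨hs1, hs2⟩ := k4d_atl_num_slack hKp2 hKx
  -- the polynomial bounds
  have hWQ : (s.N0 ^ s.Mp) ^ 2 * s.N0 ^ 8 ≤ s.N0 ^ (2 * s.Mp + 9) := by
    rw [hQW]
    exact le_mul_of_one_le_right (by linarith) hN01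
  have hTmp := k4d_sd_tmp (k4dSDof s.tan p c σ smax A m ⌈s.N0 ^ (2 * s.Mp + 8)⌉₊ (2 * s.Kp ^ 2 + 2) (k4dDel s.tan p c m)) (Q := s.N0 ^ (2 * s.Mp + 9)) hOk
    (k2s_tmp_mono _ htm (Real.rpow_le_rpow_of_exponent_le hN01 (by linarith [hs.Mp_one]))) (hb3.trans hWQ)
    (by
      have h1 : ((⌈s.N0 ^ (2 * s.Mp + 8)⌉₊ : ℕ) : ℝ) < (s.N0 ^ s.Mp) ^ 2 * s.N0 ^ 8 + 1 := by
        rw [← hW]
        exact Nat.ceil_lt_add_one (Real.rpow_pos_of_pos hN00 _).le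
      have h2 : (s.N0 ^ s.Mp) ^ 2 * s.N0 ^ 8 * 2 ≤ (s.N0 ^ s.Mp) ^ 2 * s.N0 ^ 8 * s.N0 := mul_le_mul_of_nonneg_left hN0 (by linarith)
      rw [hQW]
      show ((⌈s.N0 ^ (2 * s.Mp + 8)⌉₊ : ℕ) : ℝ) + 1 ≤ _
      linarith)
    (by
      show 1 ≤ s.N0 ^ (2 * s.Mp + 9) * s.tan.N ^ (-c / 4)
      refine hNg.trans (mul_le_mul_of_nonneg_right ?_ hg0.le)
      rw [hQW]
      exact le_mul_of_one_le_left hN00.le (by linarith))
  refine ⟨⌈s.N0 ^ (2 * s.Mp + 8)⌉₊, 2 * s.Kp ^ 2 + 2, hCov, k4d_sd_wf _ hOk, k2s_geo_mono _ hX.wf (k4d_sd_geo _ hOk) (hs1.trans hx11) ha0,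
    k2s_known_mono _ (k4d_sd_known _ hOk (s.tan.Q s.tan.G) (k4dAdG s.tan) hAl (s.P.hid s.aL) s.Kp s.Kp (hs.known m hmG) (hs.known s.G le_rfl)) (hs2.trans hx11),
    k2s_tmp_mono _ hTmp h64, fun x => ?_⟩
  -- narrowness
  rw [k4d_sd_J _ hOk x]
  have hJpos : 0 < ((s.tan.Q m).ch x.1.1).J := by
    have h : (s.tan.Q m).q ^ 2 * s.tan.N ^ (-p.ell * s.tan.dep m - τ) ≤ ((s.tan.Q m).ch x.1.1).J := hX.J_lo m hmG x.1.1
    have : 0 < (s.tan.Q m).q ^ 2 * s.tan.N ^ (-p.ell * s.tan.dep m - τ) := mul_pos (by positivity) (Real.rpow_pos_of_pos hNpos _)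
    linarith
  exact k4d_atl_num_narrow (N := s.tan.N) (J := ((s.tan.Q m).ch x.1.1).J) (q := (s.tan.Q m).q) hN01 rfl hs.eps_pos hτc hs.th_le hq hJpos (hX.J_hi m hmG x.1.1)

/-- the depths of the nodes increase -/
theorem k4d_tan_dep_mono {v : KbVer} {X : KpTan v} {p : KpPrm} {τ : ℝ} (hX : X.Ok p τ) {m m' : ℕ} (h : m ≤ m') (hm' : m' ≤ X.G) : X.dep m ≤ X.dep m' := by
  induction m', h using Nat.le_induction with
  | base => exact le_rfl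
  | succ k _ ih => exact (ih (by omega)).trans (hX.dep_step k (by omega)).1.le

/-- **H6: THE STRIP BRANCH AT ONE SCALE** (PROVED from H6M, H6A and the guard). -/
theorem k4d_strip_core (p : KpPrm) (hp : p.Ok) (hell : 0 < p.ell) (smax : ℕ) (c σ η : ℝ) (hσ : 0 < σ) (hσc : σ ≤ k4dKap p * c) (hη : 0 < η) :
    ∃ τ : ℝ, 0 < τ ∧ ∀ s : KpSam KbVer.two, s.Ok p τ → ∀ A : K4dAsg (k4dStrip (s.tan.k4d p) c σ smax), A.Max (s.tan.N ^ τ) →
      ¬ ENNReal.ofReal η ≤ (s.tan.k4d p).lam0 A.cov := by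
  obtain ⟨τ₁, hτ₁, h1⟩ := k4d_strip_sel_mass p hp hell smax c σ η hσ hσc hη
  obtain ⟨τ₂, hτ₂, h2⟩ := k4d_strip_atl p hp hell smax c σ hσ hσc
  have hτ : 0 < min (min τ₁ τ₂) (min (η / 2) (1 / 16)) := by positivity
  refine ⟨min (min τ₁ τ₂) (min (η / 2) (1 / 16)), hτ, fun s hs A hA hcov => ?_⟩
  set τ := min (min τ₁ τ₂) (min (η / 2) (1 / 16)) with hτdef
  have hle1 : τ ≤ τ₁ := (min_le_left _ _).trans (min_le_left _ _)
  have hle2 : τ ≤ τ₂ := (min_le_left _ _).trans (min_le_right _ _)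
  have hle3 : τ ≤ η / 2 := (min_le_right _ _).trans (min_le_left _ _)
  have hle4 : τ ≤ 1 / 16 := (min_le_right _ _).trans (min_le_right _ _)
  obtain ⟨m, hm, hmass⟩ := h1 τ hτ hle1 s hs A hA hcov
  obtain ⟨B, Kr, hCov, hwf, hgeo, hkn, htmp, hnar⟩ := h2 τ hτ hle2 s hs A hA m hm
  have hmG : (m : ℕ) ≤ s.G := Nat.lt_succ_iff.1 m.2
  have hd0 : 0 ≤ s.dep m := by
    have h0 : s.tan.dep 0 ≤ s.tan.dep m := k4d_tan_dep_mono hs.tan (Nat.zero_le _) hmG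
    exact hs.tan.dep_zero.1.le.trans h0
  have hdG : s.dep m ≤ s.dep s.G := k4d_tan_dep_mono hs.tan hmG le_rfl
  have hr0 : 0 ≤ s.eps * s.dep m := mul_nonneg hs.eps_pos.le hd0
  have hr1 : s.eps * s.dep m ≤ s.Lr / 2 := by
    have h3 : s.eps * s.dep m ≤ s.eps * s.dep s.G := mul_le_mul_of_nonneg_left hdG hs.eps_pos.le
    have h4 := hs.win
    have h5 := hs.Lr_lo
    linarith
  have hlog : 1 ≤ Real.log s.N0 * (η / (2 * ((s.G : ℝ) + 1))) := by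
    have hG : (0 : ℝ) < (s.G : ℝ) + 1 := by positivity
    have h3 := hs.nodes
    rw [mul_div_assoc', le_div_iff₀ (by positivity)]
    have h4 : 2 * ((s.G : ℝ) + 1) ≤ 2 * (τ * Real.log s.N0) := by linarith
    have hlog0 : 0 ≤ Real.log s.N0 := by
      by_contra hneg
      push Not at hneg
      nlinarith
    nlinarith
  have hatl : s.Atl (k4dSDof s.tan p c σ smax A m B Kr (k4dDel s.tan p c m)).sys (s.eps * s.dep m) := by
    refine ⟨hwf, hgeo, hkn, htmp, ?_⟩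
    have h3 := (hmass B Kr).trans (k4d_sd_mass _ hCov)
    calc s.P.tot = s.P.tot * 1 := (mul_one _).symm
      _ ≤ s.P.tot * ENNReal.ofReal (Real.log s.N0 * (η / (2 * ((s.G : ℝ) + 1)))) := by
          gcongr
          exact ENNReal.one_le_ofReal.2 hlog
      _ = ENNReal.ofReal (Real.log s.N0) * (s.P.tot * ENNReal.ofReal (η / (2 * ((s.G : ℝ) + 1)))) := by
          rw [ENNReal.ofReal_mul' (by positivity)]
          ring
      _ ≤ _ := mul_le_mul_right h3 _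
  obtain ⟨x, hx⟩ := (hs.guard _ _ hr0 hr1 hatl).2 rfl (hs.cheap m hmG)
  exact absurd (hnar x) (not_le.2 hx)

/-- **H7: the strip branch, sequence form.** -/
theorem k4d_strip_false {p : KpPrm} (hp : p.Ok) (hell : 0 < p.ell) {R : KbRes} {s : ℕ → KpSam KbVer.two} (hs : KpSamSeqOk R s p) (smax : ℕ) (c σ : ℚ) (η : ℝ≥0∞)
    (hσ : 0 < (σ : ℝ)) (hσc : (σ : ℝ) ≤ k4dKap p * c) (hη : η ≠ 0)
    (h : ∀ᶠ n in uf, η ≤ ((s n).tan.k4d p).lam0 (k4dPick (k4dStrip ((s n).tan.k4d p) c σ smax)).cov) : False := by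
  have hη' : 0 < (min η 1).toReal := by
    refine ENNReal.toReal_pos ?_ (ne_top_of_le_ne_top ENNReal.one_ne_top (min_le_right _ _))
    exact (lt_min (pos_iff_ne_zero.2 hη) one_pos).ne'
  obtain ⟨τ, hτ, hcore⟩ := k4d_strip_core p hp hell smax c σ _ hσ hσc hη'
  have := Claimed.Agent.R255.uf_neBot
  obtain ⟨n, hn, hOk⟩ := (h.and (hs.2 τ hτ)).exists
  have hR := k4d_tan_ok hp hτ hOk.tan
  refine hcore (s n) hOk _ (k4d_pick_max hR _ (k4d_strip_wf hR _ _ _)) ?_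
  rw [ENNReal.ofReal_toReal (ne_top_of_le_ne_top ENNReal.one_ne_top (min_le_right _ _))]
  exact (min_le_left _ _).trans hn

/-- Stores the on-demand equation lemmas of the definitions above in THIS module (rule 6 hygiene). -/
theorem k4d_striphub_eqns_cite : True := by
  have := @k4dAd.eq_1
  have := @K4dSD.mis.eq_1
  have := @k4dSD0.eq_1
  have := @k4dCovM.eq_1
  have := @k4dAdG.eq_1
  have := @k4dMisM.eq_1
  have := @k4dSDof.eq_1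
  have := @k4dDel.eq_1
  have := @k4dKap.eq_1
  trivial

end

end Claimed.Agent.R252
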