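import Claimed.Agent.R252.S4D.StripHub
import Claimed.Agent.R252.S4.Crit

/-!
# ROW 252 (S0492), unit S4D (sub-architect helper230, under helper269), file 7: THE TIME BRANCH UP TO THE ENTRY OF S4E, AND THE HUB `KpHubUpgrade`.      NO `sorry` in this file (T1-T5 proved 21:2xZ); open input: `K4dTimeFalse` (glue with S4E).

Paper: 04-critical-paths.tex l.1327-1349.
* `k4dTSys X p c σ smax A m M'` : THE CANDIDATE SYSTEM of a maximal time assignment at ONE node `m`, as a chart system of the SAME problem `X.P`, same level / worlds / intervals as the node: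
      labels `(cc, n)`, `n < k cc`;   `A` = the assigned piece;   chart = the chart of `cc` with the test replaced by the chosen test;   `S` = prepared path on the piece where `1 ≤ M' |∂_w T|`.      Parent label: `Sigma.fst`.
* T1 `k4d_tsys_wf`, T2 `k4d_tsys_geo`, T3 `k4d_tsys_floor`, `k4d_tsys_card`, T4 `k4d_tsys_mass`.
* `k4d_time_core` : ONE SCALE: coverage `≥ η` by a time scenario gives a node `m` at depth `≤ smax` whose candidate system has slack `2 N^{2σ}`, floors `q N^{-dc} ν / N^{2σ}`, `≤ N^{dc+2σ}` labels per parent label, mass `≥ η tot / (2 (G+1))`.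
      = the entry of `k4e_exit` (S4E, helper222: normalisation, comparison of the candidates, lift, first clause of the guard).
* `K4dTimeFalse` : the statement of the time branch (S4E);      `k4d_hub_upgrade : K4dTimeFalse → KpHubUpgrade`  (PROVED).
-/

set_option autoImplicit false

namespace Claimed.Agent.R252

open MeasureTheory Filter Topology
open scoped ENNReal BigOperators
open Claimed.Agent.R255 (uf)

noncomputable section

variable {v : KbVer}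

/-- `μ_prep` of a set of incidences in ONE world -/
theorem k4d_tan_one (X : KpTan v) (p : KpPrm) (hP : X.P.WF) (γ₀ : X.P.W) (S : Set (X.P.Lam × ℝ)) (hS : MeasurableSet S) :
    (X.k4d p).lam0 (k4dSel X.P fun γ => {x | γ = γ₀ ∧ x ∈ S}) = X.P.tot⁻¹ * (X.P.om γ₀ * X.P.mu γ₀ S) := by
  classical
  have hm : ∀ γ, MeasurableSet ({x | γ = γ₀ ∧ x ∈ S} : Set (X.P.Lam × ℝ)) := by
    intro γ
    by_cases h : γ = γ₀
    · simpa [h] using hS
    · simp [h]
  rw [k4d_tan_lam0 X p hP _ hm]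
  congr 1
  unfold KbPb.mass
  rw [Finset.sum_eq_single γ₀]
  · simp
  · intro γ _ hne
    simp [hne]
  · intro hh
    exact absurd (Finset.mem_univ _) hh

/-- `μ_prep` lives on the prepared path -/
theorem k4d_tan_lam0_inter (X : KpTan v) (p : KpPrm) (hP : X.P.WF) (E : Set ((X.P.W × X.P.Lam) × ℝ)) :
    (X.k4d p).lam0 E = (X.k4d p).lam0 (E ∩ k4dSel X.P X.P.Ev) := by
  have hm := k4d_sel_meas X.P X.P.Ev hP.Ev_meas
  change (X.P.tot⁻¹ • (@Measure.prod _ _ (k4dMS X.P) _ (k4dNu X.P) KbPb.tm).restrict (k4dSel X.P X.P.Ev)) E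
    = (X.P.tot⁻¹ • (@Measure.prod _ _ (k4dMS X.P) _ (k4dNu X.P) KbPb.tm).restrict (k4dSel X.P X.P.Ev)) (E ∩ k4dSel X.P X.P.Ev)
  rw [Measure.smul_apply, Measure.smul_apply, Measure.restrict_apply' hm, Measure.restrict_apply' hm, Set.inter_assoc, Set.inter_self]

section tsys

variable (X : KpTan v) (p : KpPrm) (c σ smax : ℝ) (A : K4dAsg (k4dTime (X.k4d p) c σ smax)) (m : Fin (X.G + 1))

open Classical in
/-- the number of chosen tests (none in the inactive labels) -/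
def k4dTk (cc : (X.Q m).C) : ℕ := if (⟨m, cc⟩ : (X.k4d p).Lab) ∈ k4dAct (X.k4d p) smax then A.k ⟨m, cc⟩ else 0

/-- the chosen tests -/
def k4dTt (cc : (X.Q m).C) (n : ℕ) : KbTest v := A.T ⟨m, cc⟩ n

/-- the assigned pieces -/
def k4dTp (cc : (X.Q m).C) (n : ℕ) : Set X.P.Lam := {l | ((X.Q m).wd cc, l) ∈ A.piece ⟨m, cc⟩ n}

/-- **the candidate system of the node `m`** -/
def k4dTSys (M' : ℝ) : KbSys X.P where
  n := (X.Q m).n
  C := Σ cc : (X.Q m).C, Fin (k4dTk X p c σ smax A m cc)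
  fC := inferInstance
  wd := fun x => (X.Q m).wd x.1
  iv := fun x => (X.Q m).iv x.1
  A := fun x => k4dTp X p c σ smax A m x.1 x.2
  S := fun x => X.P.Ev ((X.Q m).wd x.1) ∩ k4dTp X p c σ smax A m x.1 x.2 ×ˢ (X.Q m).I x.1 ∩
    {y | 1 ≤ M' * |kbX (kbDw (k4dTt X p c σ smax A m x.1 x.2)) (X.P.co ((X.Q m).wd x.1) y.1) y.2|}
  ch := fun x => { (X.Q m).ch x.1 with T := k4dTt X p c σ smax A m x.1 x.2 }

variable {X p c σ smax A m}

/-- a label of the candidate system sits in an active label, below the number of choices -/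
theorem k4d_tk_act {cc : (X.Q m).C} {n : ℕ} (h : n < k4dTk X p c σ smax A m cc) :
    (⟨m, cc⟩ : (X.k4d p).Lab) ∈ k4dAct (X.k4d p) smax ∧ n < A.k ⟨m, cc⟩ := by
  unfold k4dTk at h
  split_ifs at h with hact
  · exact ⟨hact, h⟩
  · exact absurd h (Nat.not_lt_zero _)

/-- a line of a piece satisfies the line inequalities of its test -/
theorem k4d_tp_line {cc : (X.Q m).C} {n : ℕ} {l : X.P.Lam} (h : l ∈ k4dTp X p c σ smax A m cc n) :
    (((X.Q m).wd cc, l) : X.P.W × X.P.Lam) ∈ k4dTLine (X.k4d p) c (X.N ^ σ) ⟨m, cc⟩ (k4dTt X p c σ smax A m cc n) :=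
  k4d_free_sub _ _ _ h

theorem k4d_tp_sub {cc : (X.Q m).C} {n : ℕ} {l : X.P.Lam} (h : l ∈ k4dTp X p c σ smax A m cc n) : l ∈ (X.Q m).A cc :=
  (k4d_tp_line h).1.2.2.2

theorem k4d_tp_meas {τ : ℝ} (hp : p.Ok) (hτ : 0 < τ) (hX : X.Ok p τ) (cc : (X.Q m).C) (n : ℕ) : MeasurableSet (k4dTp X p c σ smax A m cc n) := by
  let _ : MeasurableSpace X.P.W := ⊤
  have h := A.piece_meas (k4d_time_wf (k4d_tan_ok hp hτ hX) c σ smax) ⟨m, cc⟩ n
  exact (measurable_prodMk_left (x := (X.Q m).wd cc)) h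

/-- the thickness of the candidates -/
theorem k4d_ta_eq {τ : ℝ} (hX : X.Ok p τ) (cc : (X.Q m).C) : (X.k4d p).a ((X.k4d p).dep ⟨m, cc⟩ + c) = X.a m * X.N ^ (-c) := by
  have hN0 : 0 < X.N := by linarith [hX.N_two]
  change X.N ^ (-(X.dep m + c)) = X.N ^ (-X.dep m) * X.N ^ (-c)
  rw [← Real.rpow_add hN0]
  congr 1
  ring

/-- the chosen tests are admissible (every chosen piece is nonempty) -/
theorem k4d_tt_adm {τ : ℝ} (hp : p.Ok) (hτ : 0 < τ) (hX : X.Ok p τ) (hA : A.Max (X.N ^ τ)) {cc : (X.Q m).C} {n : ℕ} (h : n < k4dTk X p c σ smax A m cc) :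
    KbAdm (k4dTt X p c σ smax A m cc n) ∧ ∀ t y w, |kbDww (k4dTt X p c σ smax A m cc n) t y w| * (X.a m * X.N ^ (-c)) ≤ X.N ^ σ := by
  obtain ⟨hact, hn⟩ := k4d_tk_act h
  have h1 := hA.elig _ hact n hn
  have h2 := (k4d_time_wf (k4d_tan_ok hp hτ hX) c σ smax).θ_ne _ hact
  have hne : ((k4dTime (X.k4d p) c σ smax).Cnt ⟨m, cc⟩ (A.T ⟨m, cc⟩ n) ∩ A.piece ⟨m, cc⟩ n ×ˢ Set.univ).Nonempty := by
    by_contra hemp
    rw [Set.not_nonempty_iff_eq_empty] at hemp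
    rw [hemp, measure_empty] at h1
    exact h2 (le_antisymm h1 zero_le)
  obtain ⟨x, hx, -⟩ := hne
  refine ⟨hx.1.1.1, fun t y w => ?_⟩
  rw [← k4d_ta_eq hX cc]
  exact hx.1.1.2.1 t y w

/-- **LEAF T1.**  PLAN: as `k4d_sdof_ok`: pieces are measurable slices, contained in `A cc`, pairwise disjoint (`k4d_free_disj`; different `cc`: `A_disj` of the node); `S_meas`: `k4d_cont_quad`, `k4d_dw_isQuad`, `co_meas`;
`adm`: a NONEMPTY piece lies in `k4dTLine`, which contains `KbAdm`; for an EMPTY piece use `hadm` below: eligibility (`hA.elig`, `θ ≠ 0`) makes every piece of an active label nonempty. -/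
theorem k4d_tsys_wf {τ : ℝ} (hp : p.Ok) (hτ : 0 < τ) (hX : X.Ok p τ) (hA : A.Max (X.N ^ τ)) (M' : ℝ) : (k4dTSys X p c σ smax A m M').WF := by
  have hm : (m : ℕ) ≤ X.G := Nat.lt_succ_iff.1 m.2
  have hwf := hX.sys_wf m hm
  refine ⟨fun x => hwf.iv_lt x.1, fun x => k4d_tp_meas hp hτ hX x.1 x.2, fun x l hl => hwf.A_sub x.1 (k4d_tp_sub hl), ?_, ?_, ?_, fun x => hwf.inv x.1, fun x => (k4d_tt_adm hp hτ hX hA x.2.2).1⟩
  · rintro ⟨cc, n⟩ ⟨cc', n'⟩ hne hwd hiv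
    by_cases hcc : cc = cc'
    · subst hcc
      have hnn : (n : ℕ) ≠ n' := fun h => hne (by rw [Fin.ext h])
      rw [Set.disjoint_left]
      intro l hl hl'
      exact Set.disjoint_left.1 (k4d_free_disj _ _ hnn) hl hl'
    · rw [Set.disjoint_left]
      intro l hl hl'
      exact Set.disjoint_left.1 (hwf.A_disj cc cc' hcc hwd hiv) (k4d_tp_sub hl) (k4d_tp_sub hl')
  · intro x
    have hq := k4d_dw_isQuad _ (k4d_tt_adm hp hτ hX hA x.2.2).1.1
    have h1 : Measurable fun y : X.P.Lam × ℝ => kbX (kbDw (k4dTt X p c σ smax A m x.1 x.2)) (X.P.co ((X.Q m).wd x.1) y.1) y.2 :=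
      (k4d_cont_quad _ hq).measurable.comp (((hX.wf.co_meas _).comp measurable_fst).prodMk measurable_snd)
    refine ((hX.wf.Ev_meas _).inter ((k4d_tp_meas hp hτ hX x.1 x.2).prod ?_)).inter (measurableSet_le measurable_const (h1.abs.const_mul _))
    exact measurableSet_Ico
  · intro x y hy
    exact hy.1

/-- **LEAF T2.**  PLAN: `size`, `box` from `hX.geo m` (`N^τ ≤ Λ`); `val`, `dw`, `dww` from `k4dTLine` (`B = 1` by `hX.B_one`; `(X.k4d p).a (dep + c) = X.a m * N^{-c}`); `dw_low` from the definition of `S`. -/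
theorem k4d_tsys_geo {τ : ℝ} (hp : p.Ok) (hτ : 0 < τ) (hX : X.Ok p τ) (hA : A.Max (X.N ^ τ)) (M' Λ : ℝ) (h1 : X.N ^ τ ≤ Λ) (h2 : X.N ^ σ ≤ Λ) (h3 : M' ≤ Λ) :
    (k4dTSys X p c σ smax A m M').Geo Λ (X.a m * X.N ^ (-c)) := by
  have hm : (m : ℕ) ≤ X.G := Nat.lt_succ_iff.1 m.2
  have hgeo := hX.geo m hm
  have hN0 : 0 < X.N := by linarith [hX.N_two]
  have ha0 : 0 ≤ X.a m * X.N ^ (-c) := by
    unfold KpTan.a
    positivity
  have hq0 : 0 ≤ (X.Q m).q := by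
    unfold KbSys.q kbQ
    positivity
  refine ⟨fun x => (hgeo.size x.1).trans (mul_le_mul_of_nonneg_left h1 hq0), fun x l hl t ht => (hgeo.box x.1 l (k4d_tp_sub hl) t ht).trans h1, ?_, ?_, ?_, ?_⟩
  · intro x l hl t ht
    have h := ((k4d_tp_line hl).2.1 t ht).1
    rw [k4d_ta_eq hX] at h
    exact h.trans (mul_le_mul_of_nonneg_right h2 ha0)
  · intro x l hl t ht
    have h := ((k4d_tp_line hl).2.1 t ht).2
    change _ ≤ Λ * X.P.B ((X.Q m).wd x.1)
    rw [hX.B_one, mul_one]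
    exact h.trans h2
  · intro x y hy
    change X.P.B ((X.Q m).wd x.1) ≤ _
    rw [hX.B_one]
    exact hy.2.trans (mul_le_mul_of_nonneg_right h3 (abs_nonneg _))
  · intro x t y w
    change _ ≤ Λ * X.P.B ((X.Q m).wd x.1) ^ 2
    rw [hX.B_one, one_pow, mul_one]
    exact ((k4d_tt_adm hp hτ hX hA x.2.2).2 t y w).trans h2

/-- **LEAF T3.**  every chosen test carries the greedy threshold, in the units of its world.
PLAN: `hA.elig`: `θ ≤ lam0 (Cnt ∩ piece × univ)`; `θ = ofReal (q a(dc+σ)) ω ν_cc` (`k4d_nu_ln`), `lam0 (..) = tot⁻¹ ω mu (slice)` (`k4d_tan_lam0`), slice `∩ Ev ⊆ S x` (`N^σ ≤ M'`); cancel `ω ≠ 0, ∞` (active label); `tot⁻¹ ≤ ofReal (N^τ)`. -/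
theorem k4d_tsys_floor {τ : ℝ} (hp : p.Ok) (hτ : 0 < τ) (hX : X.Ok p τ) (hA : A.Max (X.N ^ τ)) (M' : ℝ) (hM : X.N ^ σ ≤ M') (x : (k4dTSys X p c σ smax A m M').C) :
    ENNReal.ofReal ((X.Q m).q * X.N ^ (-(p.d * c + σ))) * (X.Q m).nuC x.1 ≤ ENNReal.ofReal (X.N ^ τ) * (k4dTSys X p c σ smax A m M').mC x := by
  obtain ⟨cc, n⟩ := x
  have hm : (m : ℕ) ≤ X.G := Nat.lt_succ_iff.1 m.2
  obtain ⟨hact, hn⟩ := k4d_tk_act n.2
  obtain ⟨t0, t1, t2⟩ := k4d_tan_tot hX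
  have htop : X.P.tot ≠ ⊤ := ne_top_of_le_ne_top ENNReal.one_ne_top t1
  have h1 := hA.elig _ hact n hn
  have hSm := (k4d_tsys_wf (m := m) hp hτ hX hA M').S_meas ⟨cc, n⟩
  have hν : (X.k4d p).νQ ⟨m, cc⟩ = X.P.om ((X.Q m).wd cc) * (X.Q m).nuC cc := k4d_nu_ln X.P _ _ ((hX.sys_wf m hm).A_meas cc)
  have hom0 : X.P.om ((X.Q m).wd cc) ≠ 0 := by
    intro h0
    apply hact.2
    rw [hν, h0, zero_mul]
  have homt : X.P.om ((X.Q m).wd cc) ≠ ⊤ := by
    refine ne_top_of_le_ne_top ENNReal.one_ne_top ?_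
    rw [← hX.wf.om_sum]
    exact Finset.single_le_sum (f := X.P.om) (fun _ _ => zero_le) (Finset.mem_univ _)
  have hsub : ((k4dTime (X.k4d p) c σ smax).Cnt ⟨m, cc⟩ (A.T ⟨m, cc⟩ n) ∩ A.piece ⟨m, cc⟩ n ×ˢ Set.univ) ∩ k4dSel X.P X.P.Ev
      ⊆ k4dSel X.P fun γ => {y | γ = (X.Q m).wd cc ∧ y ∈ (k4dTSys X p c σ smax A m M').S ⟨cc, n⟩} := by
    rintro ⟨⟨γ, l⟩, t⟩ ⟨⟨hc, hpc, -⟩, hev⟩
    have hγ : γ = (X.Q m).wd cc := hc.1.1.2.2.1
    subst hγ
    exact ⟨rfl, ⟨hev, hpc, hc.2.1⟩, hc.2.2.trans (mul_le_mul_of_nonneg_right hM (abs_nonneg _))⟩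
  have h2 : (k4dTime (X.k4d p) c σ smax).θ ⟨m, cc⟩ ≤ X.P.tot⁻¹ * (X.P.om ((X.Q m).wd cc) * (k4dTSys X p c σ smax A m M').mC ⟨cc, n⟩) := by
    refine h1.trans ((k4d_tan_lam0_inter X p hX.wf _).le.trans ?_)
    refine (measure_mono hsub).trans (le_of_eq ?_)
    exact k4d_tan_one X p hX.wf _ _ hSm
  have h3 : (k4dTime (X.k4d p) c σ smax).θ ⟨m, cc⟩ = X.P.om ((X.Q m).wd cc) * (ENNReal.ofReal ((X.Q m).q * X.N ^ (-(p.d * c + σ))) * (X.Q m).nuC cc) := by
    change ENNReal.ofReal ((X.Q m).q * X.N ^ (-(p.d * c + σ))) * (X.k4d p).νQ ⟨m, cc⟩ = _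
    rw [hν]
    ring
  have h2' : X.P.om ((X.Q m).wd cc) * (ENNReal.ofReal ((X.Q m).q * X.N ^ (-(p.d * c + σ))) * (X.Q m).nuC cc)
      ≤ X.P.om ((X.Q m).wd cc) * (X.P.tot⁻¹ * (k4dTSys X p c σ smax A m M').mC ⟨cc, n⟩) := by
    rw [← h3]
    exact h2.trans (le_of_eq (by ring))
  have h4 := (ENNReal.mul_le_mul_iff_right hom0 homt).1 h2'
  refine h4.trans (mul_le_mul_left ?_ _)
  calc X.P.tot⁻¹ = X.P.tot⁻¹ * 1 := (mul_one _).symm
    _ ≤ X.P.tot⁻¹ * (ENNReal.ofReal (X.N ^ τ) * X.P.tot) := mul_le_mul_right t2 _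
    _ = ENNReal.ofReal (X.N ^ τ) * (X.P.tot⁻¹ * X.P.tot) := by ring
    _ = ENNReal.ofReal (X.N ^ τ) := by rw [ENNReal.inv_mul_cancel t0 htop, mul_one]

/-- **LEAF T3.**  the number of labels per parent label (`k4d_time_count`) -/
theorem k4d_tsys_card {τ : ℝ} (hp : p.Ok) (hτ : 0 < τ) (hX : X.Ok p τ) (hA : A.Max (X.N ^ τ)) (cc : (X.Q m).C) :
    (k4dTk X p c σ smax A m cc : ℝ) ≤ X.N ^ τ * X.N ^ (p.d * c + σ) := by
  have hN0 : 0 < X.N := by linarith [hX.N_two]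
  unfold k4dTk
  split_ifs with hact
  · exact k4d_time_count (k4d_tan_ok hp hτ hX) c σ smax A hA _ hact
  · rw [Nat.cast_zero]
    positivity

/-- **LEAF T4.**  the mass: coverage of the node minus the excluded times.
PLAN: as `k4d_sdof_cov_mass`: `tot * lam0 (covAt (dep m)) ≤ mass (slices ∩ Ev)`; a covered incidence of the prepared path lies in `S x` for its piece `x`, or in the slice of `k4dTExc .. M'`; `k4d_tan_lam0` for the latter;
`mass (⋃ S x) ≤ ∑ ω mu (S x) = sys.mass` (subadditivity, exchange of the finite sums as in `k4d_sd_mass`), `k2a_mass_union`. -/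
theorem k4d_tsys_mass {τ : ℝ} (hp : p.Ok) (hτ : 0 < τ) (hX : X.Ok p τ) (hA : A.Max (X.N ^ τ)) (M' : ℝ) :
    X.P.tot * (X.k4d p).lam0 (A.covAt (X.dep m)) ≤ (k4dTSys X p c σ smax A m M').mass + X.P.tot * (X.k4d p).lam0 (k4dTExc (X.k4d p) c σ smax A M') := by
  have hm : (m : ℕ) ≤ X.G := Nat.lt_succ_iff.1 m.2
  obtain ⟨t0, t1, -⟩ := k4d_tan_tot hX
  have htop : X.P.tot ≠ ⊤ := ne_top_of_le_ne_top ENNReal.one_ne_top t1
  have hwf := k4d_tsys_wf (m := m) hp hτ hX hA M'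
  have hsub : A.covAt (X.dep m) ∩ k4dSel X.P X.P.Ev
      ⊆ (⋃ x : (k4dTSys X p c σ smax A m M').C, k4dSel X.P fun γ => {y | γ = (X.Q m).wd x.1 ∧ y ∈ (k4dTSys X p c σ smax A m M').S x}) ∪ k4dTExc (X.k4d p) c σ smax A M' := by
    rintro ⟨⟨γ, l⟩, t⟩ ⟨hc, hev⟩
    obtain ⟨⟨m', cc⟩, hact, hc⟩ := Set.mem_iUnion₂.1 hc
    obtain ⟨hd, hu, hb⟩ := Set.mem_iUnion.1 hc
    have hmm : m' = m := Fin.ext (k4d_dep_inj45 hX m' m (Nat.lt_succ_iff.1 m'.2) hm hd)
    subst hmm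
    obtain ⟨n, hn, hpc⟩ := k4d_exists_first hu
    have hγ : γ = (X.Q m').wd cc := (k4d_free_sub _ _ _ hpc).1.2.2.1
    subst hγ
    by_cases hlow : 1 ≤ M' * |kbX (kbDw (A.T ⟨m', cc⟩ n)) (X.P.co ((X.Q m').wd cc) l) t|
    · left
      have hn' : n < k4dTk X p c σ smax A m' cc := by
        have hact' : (⟨m', cc⟩ : (X.k4d p).Lab) ∈ k4dAct (X.k4d p) smax := hact
        unfold k4dTk
        rw [if_pos hact']
        exact hn
      exact Set.mem_iUnion.2 ⟨⟨cc, ⟨n, hn'⟩⟩, rfl, ⟨hev, hpc, hb⟩, hlow⟩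
    · right
      exact Set.mem_iUnion₂.2 ⟨⟨m', cc⟩, hact, Set.mem_iUnion.2 ⟨n, Set.mem_iUnion.2 ⟨hn, hpc, hb, (not_le.1 hlow).le⟩⟩⟩
  have h1 : (X.k4d p).lam0 (A.covAt (X.dep m)) ≤ X.P.tot⁻¹ * (k4dTSys X p c σ smax A m M').mass + (X.k4d p).lam0 (k4dTExc (X.k4d p) c σ smax A M') := by
    refine (k4d_tan_lam0_inter X p hX.wf _).le.trans ?_
    refine (measure_mono hsub).trans ((measure_union_le _ _).trans (add_le_add ?_ le_rfl))
    refine (measure_iUnion_fintype_le _ _).trans (le_of_eq ?_)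
    unfold KbSys.mass
    rw [Finset.mul_sum]
    exact Finset.sum_congr rfl fun x _ => k4d_tan_one X p hX.wf _ _ (hwf.S_meas x)
  calc X.P.tot * (X.k4d p).lam0 (A.covAt (X.dep m))
      ≤ X.P.tot * (X.P.tot⁻¹ * (k4dTSys X p c σ smax A m M').mass + (X.k4d p).lam0 (k4dTExc (X.k4d p) c σ smax A M')) := mul_le_mul_right h1 _
    _ = _ := by rw [mul_add, ← mul_assoc, ENNReal.mul_inv_cancel t0 htop, one_mul]

end tsys

/-- **LEAF T5: THE TIME BRANCH AT ONE SCALE, up to the entry of S4E.**   `Λ = 2 N^{2σ}`.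
PLAN.  (1) `k4d_cov_node`: `m ≤ G` with `η ≤ (G+1) lam0 (covAt (dep m))`, `dep m ≤ smax` (an active label exists).   (2) `k4d_time_excluded` with `ε = N^{-σ/2}` (`2 N^σ / ε² = 2 N^{2σ}`), `K = N^τ`, `#depths ≤ G + 1 ≤ N^τ` (`k4d_sam_num`):
`lam0 Exc ≤ 21 N^{2τ - σ/2} ≤ η / (2 (G+1))` as soon as `42 N^{3τ - σ/2} ≤ η`: take `3 τ₁ ≤ σ/4` and `42 · 2^{-σ/(4 τ₁²)} ≤ η`.   (3) `k4d_tsys_mass`, subtract (`tot ≤ 1`).   (4) `k4d_tsys_wf, _geo, _floor, _card` with `τ ≤ σ`. -/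
theorem k4d_time_core (v : KbVer) (p : KpPrm) (hp : p.Ok) (smax : ℕ) (c σ η : ℝ) (hσ : 0 < σ) (hη : 0 < η) :
    ∃ τ₁ : ℝ, 0 < τ₁ ∧ ∀ τ : ℝ, 0 < τ → τ ≤ τ₁ → ∀ s : KpSam v, s.Ok p τ → ∀ A : K4dAsg (k4dTime (s.tan.k4d p) c σ smax), A.Max (s.tan.N ^ τ) →
      ENNReal.ofReal η ≤ (s.tan.k4d p).lam0 A.cov →
      ∃ m : Fin (s.tan.G + 1), s.tan.dep m ≤ smax ∧
        (k4dTSys s.tan p c σ smax A m (2 * s.tan.N ^ (2 * σ))).WF ∧
        (k4dTSys s.tan p c σ smax A m (2 * s.tan.N ^ (2 * σ))).Geo (2 * s.tan.N ^ (2 * σ)) (s.tan.a m * s.tan.N ^ (-c)) ∧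
        (∀ x : (k4dTSys s.tan p c σ smax A m (2 * s.tan.N ^ (2 * σ))).C,
          ENNReal.ofReal ((s.Q m).q * s.tan.N ^ (-(p.d * c))) * (s.Q m).nuC x.1 ≤ ENNReal.ofReal (s.tan.N ^ (2 * σ)) * (k4dTSys s.tan p c σ smax A m (2 * s.tan.N ^ (2 * σ))).mC x) ∧
        (∀ cc, (k4dTk s.tan p c σ smax A m cc : ℝ) ≤ s.tan.N ^ (p.d * c + 2 * σ)) ∧
        s.P.tot * ENNReal.ofReal (η / (2 * ((s.G : ℝ) + 1))) ≤ (k4dTSys s.tan p c σ smax A m (2 * s.tan.N ^ (2 * σ))).mass := by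
  have hτ₁ : 0 < min (min 1 (σ / 12)) (η * σ / 336) := by positivity
  refine ⟨min (min 1 (σ / 12)) (η * σ / 336), hτ₁, fun τ hτ hle s hs A hA hcov => ?_⟩
  have hle1 : τ ≤ 1 := hle.trans ((min_le_left _ _).trans (min_le_left _ _))
  have hle2 : τ ≤ σ / 12 := hle.trans ((min_le_left _ _).trans (min_le_right _ _))
  have hle3 : τ ≤ η * σ / 336 := hle.trans (min_le_right _ _)
  obtain ⟨-, -, hlogN, hN2, -, -, -⟩ := k4d_sam_num hτ hle1 hs
  have hR := k4d_tan_ok hp hτ hs.tan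
  set N := s.tan.N with hNdef
  have hN1 : 1 ≤ N := by linarith [hs.tan.N_two]
  have hN0 : 0 < N := by linarith
  have hG0 : (0 : ℝ) < (s.G : ℝ) + 1 := by positivity
  -- the number of nodes
  have hGN : (s.G : ℝ) + 1 ≤ N ^ τ := by
    have h3 := hs.nodes
    have hlog0 : 0 ≤ Real.log s.N0 := by
      by_contra hneg
      push Not at hneg
      nlinarith
    nlinarith
  have hcard : ((s.tan.k4d p).depths.card : ℝ) ≤ (s.G : ℝ) + 1 := by
    have h3 : (s.tan.k4d p).depths.card ≤ s.G + 1 := by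
      refine (Finset.card_image_le).trans ?_
      rw [Finset.card_range]
      rfl
    exact_mod_cast h3
  -- (1) the node
  obtain ⟨s0, hs0, hnode⟩ := k4d_cov_node hR A (ENNReal.ofReal η) (by simpa using hη) hcov
  obtain ⟨m0, hm0, rfl⟩ := Finset.mem_image.1 hs0
  rw [Finset.mem_range] at hm0
  refine ⟨⟨m0, hm0⟩, ?_, k4d_tsys_wf hp hτ hs.tan hA _, ?_, ?_, ?_, ?_⟩
  · have hne : (A.covAt (s.tan.dep m0)).Nonempty := by
      by_contra hemp
      rw [Set.not_nonempty_iff_eq_empty] at hemp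
      rw [hemp, measure_empty, mul_zero] at hnode
      exact absurd hnode (by simpa using hη)
    obtain ⟨x, hx⟩ := hne
    obtain ⟨Q, hQ, hx⟩ := Set.mem_iUnion₂.1 hx
    obtain ⟨hd, -⟩ := Set.mem_iUnion.1 hx
    have h3 : (s.tan.k4d p).dep Q ≤ smax := hQ.1
    rw [hd] at h3
    exact h3
  · have h0 : 0 ≤ N ^ (2 * σ) := by positivity
    refine k4d_tsys_geo hp hτ hs.tan hA _ _ ?_ ?_ le_rfl
    · have := Real.rpow_le_rpow_of_exponent_le hN1 (show τ ≤ 2 * σ by linarith)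
      linarith
    · have := Real.rpow_le_rpow_of_exponent_le hN1 (show σ ≤ 2 * σ by linarith)
      linarith
  · intro x
    have hM : N ^ σ ≤ 2 * N ^ (2 * σ) := by
      have h0 : 0 ≤ N ^ (2 * σ) := by positivity
      have := Real.rpow_le_rpow_of_exponent_le hN1 (show σ ≤ 2 * σ by linarith)
      linarith
    have h := k4d_tsys_floor hp hτ hs.tan hA _ hM x
    calc ENNReal.ofReal ((s.Q m0).q * N ^ (-(p.d * c))) * (s.Q m0).nuC x.1
        = ENNReal.ofReal (N ^ σ) * (ENNReal.ofReal ((s.Q m0).q * N ^ (-(p.d * c + σ))) * (s.Q m0).nuC x.1) := by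
          rw [← mul_assoc, ← ENNReal.ofReal_mul (by positivity)]
          congr 2
          rw [mul_left_comm, ← Real.rpow_add hN0]
          congr 2
          ring
      _ ≤ ENNReal.ofReal (N ^ σ) * (ENNReal.ofReal (N ^ τ) * (k4dTSys s.tan p c σ smax A ⟨m0, hm0⟩ (2 * N ^ (2 * σ))).mC x) := mul_le_mul_right h _
      _ = ENNReal.ofReal (N ^ (σ + τ)) * (k4dTSys s.tan p c σ smax A ⟨m0, hm0⟩ (2 * N ^ (2 * σ))).mC x := by
          rw [← mul_assoc, ← ENNReal.ofReal_mul (by positivity), ← Real.rpow_add hN0]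
      _ ≤ _ := by
          gcongr
          linarith
  · intro cc
    refine (k4d_tsys_card hp hτ hs.tan hA cc).trans ?_
    rw [← Real.rpow_add hN0]
    exact Real.rpow_le_rpow_of_exponent_le hN1 (by linarith)
  · have hm := k4d_tsys_mass (m := ⟨m0, hm0⟩) hp hτ hs.tan hA (2 * N ^ (2 * σ))
    have hε : 0 < N ^ (-σ / 2) := by positivity
    have hexc := k4d_time_excluded hR c σ smax A (N ^ (-σ / 2)) hε
    have hM' : 2 * (s.tan.k4d p).N ^ σ / (N ^ (-σ / 2)) ^ 2 = 2 * N ^ (2 * σ) := by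
      change 2 * N ^ σ / (N ^ (-σ / 2)) ^ 2 = 2 * N ^ (2 * σ)
      rw [← Real.rpow_natCast, ← Real.rpow_mul hN0.le, mul_div_assoc, ← Real.rpow_sub hN0]
      congr 2
      push_cast
      ring
    rw [hM'] at hexc
    set x : ℝ≥0∞ := ENNReal.ofReal (η / (2 * ((s.G : ℝ) + 1))) with hx
    have hxx : x + x = ENNReal.ofReal (η / ((s.G : ℝ) + 1)) := by
      rw [hx, ← ENNReal.ofReal_add (by positivity) (by positivity)]
      congr 1
      field_simp
      ring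
    have ha : x + x ≤ (s.tan.k4d p).lam0 (A.covAt (s.tan.dep m0)) := by
      rw [hxx, ENNReal.ofReal_div_of_pos hG0]
      refine ENNReal.div_le_of_le_mul (hnode.trans ?_)
      rw [mul_comm]
      gcongr
      rw [← ENNReal.ofReal_natCast]
      exact ENNReal.ofReal_le_ofReal hcard
    have hb : (s.tan.k4d p).lam0 (k4dTExc (s.tan.k4d p) c σ smax A (2 * N ^ (2 * σ))) ≤ x := by
      refine hexc.trans (ENNReal.ofReal_le_ofReal ?_)
      rw [le_div_iff₀ (by positivity)]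
      have h1 : N ^ (-(σ / 4)) ≤ 2 * τ ^ 2 / (σ / 4) := k4d_num_small hτ (by positivity) hN2
      have h2 : N ^ τ * N ^ (-σ / 2) * N ^ τ * N ^ τ ≤ N ^ (-(σ / 4)) := by
        rw [← Real.rpow_add hN0, ← Real.rpow_add hN0, ← Real.rpow_add hN0]
        exact Real.rpow_le_rpow_of_exponent_le hN1 (by linarith)
      have h3 : 2 * τ ^ 2 / (σ / 4) ≤ η / 42 := by
        rw [div_le_div_iff₀ (by positivity) (by norm_num)]
        have h4 : τ ^ 2 ≤ τ * (η * σ / 336) := by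
          rw [sq]
          exact mul_le_mul_of_nonneg_left hle3 hτ.le
        have h5 : τ * (η * σ / 336) ≤ 1 * (η * σ / 336) := mul_le_mul_of_nonneg_right hle1 (by positivity)
        nlinarith
      have h6 : 0 ≤ N ^ τ * N ^ (-σ / 2) := by positivity
      have h7 : 0 ≤ N ^ τ := by positivity
      calc 21 * N ^ τ * N ^ (-σ / 2) * ((s.tan.k4d p).depths.card : ℝ) * (2 * ((s.G : ℝ) + 1))
          ≤ 21 * N ^ τ * N ^ (-σ / 2) * N ^ τ * (2 * N ^ τ) := by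
            have h8 := hcard.trans hGN
            gcongr
        _ = 42 * (N ^ τ * N ^ (-σ / 2) * N ^ τ * N ^ τ) := by ring
        _ ≤ η := by linarith
    have htot : s.P.tot ≤ 1 := (k4d_tan_tot hs.tan).2.1
    have hfin : s.P.tot * x ≠ ⊤ := ENNReal.mul_ne_top (ne_top_of_le_ne_top ENNReal.one_ne_top htot) ENNReal.ofReal_ne_top
    have hfinal : s.P.tot * x + s.P.tot * x ≤ (k4dTSys s.tan p c σ smax A ⟨m0, hm0⟩ (2 * N ^ (2 * σ))).mass + s.P.tot * x := by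
      calc s.P.tot * x + s.P.tot * x = s.P.tot * (x + x) := (mul_add _ _ _).symm
        _ ≤ s.P.tot * (s.tan.k4d p).lam0 (A.covAt (s.tan.dep m0)) := mul_le_mul_right ha _
        _ ≤ _ := hm
        _ ≤ _ := add_le_add le_rfl (mul_le_mul_right hb _)
    exact (ENNReal.add_le_add_iff_right hfin).1 hfinal


/-! ## The hub -/

/-- **the time branch** (S4D `k4d_time_core` + S4E `k4e_exit`): for `σ ≤ κ c`, substantial coverage by one time scenario is impossible along a guarded diagonal -/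
def K4dTimeFalse : Prop :=
  ∀ (v : KbVer) (p : KpPrm), p.Ok → (v = KbVer.one → p.ell = 0) → ∃ κ : ℝ, 0 < κ ∧ ∀ (R : KbRes) (s : ℕ → KpSam v), KpSamSeqOk R s p →
    ∀ (smax : ℕ) (c σ : ℚ) (η : ℝ≥0∞), 0 < (σ : ℝ) → (σ : ℝ) ≤ κ * c → η ≠ 0 →
      ¬ ∀ᶠ n in uf, η ≤ ((s n).tan.k4d p).lam0 (k4dPick (k4dTime ((s n).tan.k4d p) c σ smax)).cov

/-- **`prop:candidate-upgrade`** from the two branches. -/
theorem k4d_hub_upgrade (hT : K4dTimeFalse) : KpHubUpgrade := by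
  intro v p R s hp h1 hs hc
  obtain ⟨κ, hκ, hTime⟩ := hT v p hp h1
  have hX := kp_seq_tan hs
  rcases hp.ell_nonneg.eq_or_lt with hell | hell
  · obtain ⟨smax, c, σ, η, hσ, hσc, hη, hcov⟩ := k4d_tan_coverT hp hell.symm hX hc κ hκ
    exact hTime R s hs smax c σ η hσ hσc hη hcov
  · have hv : v = KbVer.two := by
      cases v
      · exact absurd (h1 rfl) hell.ne'
      · rfl
    subst hv
    have hκ2 : 0 < k4dKap p := by
      unfold k4dKap
      have := hp.S_pos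
      positivity
    obtain ⟨smax, c, σ, η, hσ, hσc, hη, hcov⟩ := k4d_tan_cover2 hp hX hc (min κ (k4dKap p)) (lt_min hκ hκ2)
    have hc0 : (0 : ℝ) ≤ c := by
      by_contra hneg
      push Not at hneg
      have : min κ (k4dKap p) * (c : ℝ) < 0 := mul_neg_of_pos_of_neg (lt_min hκ hκ2) hneg
      linarith
    rcases hcov with hcov | hcov
    · exact hTime R s hs smax c σ η hσ (hσc.trans (mul_le_mul_of_nonneg_right (min_le_left _ _) hc0)) hη hcov
    · exact k4d_strip_false hp hell hs smax c σ η hσ (hσc.trans (mul_le_mul_of_nonneg_right (min_le_right _ _) hc0)) hη hcov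

/-- Stores the on-demand equation lemmas of the definitions above in THIS module (rule 6 hygiene). -/
theorem k4d_timehub_eqns_cite : True := by
  have := @k4dTk.eq_1
  have := @k4dTt.eq_1
  have := @k4dTp.eq_1
  have := @k4dTSys.eq_1
  have := @K4dTimeFalse.eq_1
  trivial

end

end Claimed.Agent.R252
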